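import Mathlib
import Vale.Agent.P181.T4.Typ

set_option autoImplicit false

/-! # P181, T4: the numerical comparison

`num_stmt : NumStmt` (the exponential form) and `num_ineq` (the form `2 ^ ((N - a) * (m / (2 * (N
+ L))))`): the loss (top rows and number of weights) is smaller than the gain as soon as
`a + a ^ (2 δ) ≤ b ≤ a ^ 2`, `R ≤ a ^ δ`, `L ≤ A b log a`, `b ≤ N + R (L / a + 3)`,
`a b / 2 ≤ m ≤ a b`. -/

namespace Vale.Agent.P181.H921

open Filter Real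

lemma ev_log (C δ : ℝ) (hδ : 0 < δ) :
    ∀ᶠ a : ℕ in atTop, C * (Real.log a) ^ 2 ≤ (a : ℝ) ^ δ := by
  have h1 : (fun x : ℝ => (Real.log x) ^ 2) =o[atTop] fun x => x ^ δ := by
    have h2 : (fun x : ℝ => Real.log x) =o[atTop] fun x => x ^ (δ / 2) :=
      isLittleO_log_rpow_atTop (by positivity)
    have h3 := h2.pow (n := 2) (by norm_num)
    refine h3.congr' (by filter_upwards with x; rfl) ?_
    filter_upwards [eventually_ge_atTop 0] with x hx
    rw [← Real.rpow_natCast (x ^ (δ / 2)) 2, ← Real.rpow_mul hx]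
    congr 1
    push_cast
    ring
  have h4 := (h1.const_mul_left C).bound (show (0 : ℝ) < 1 by norm_num)
  have h5 := tendsto_natCast_atTop_atTop (R := ℝ) |>.eventually h4
  filter_upwards [h5] with a ha
  rw [one_mul] at ha
  refine (le_abs_self _).trans (ha.trans ?_)
  rw [Real.norm_eq_abs, abs_of_nonneg (by positivity)]

/-- `C(m + N - 1, N - 1) ≤ (e (a + 1)) ^ b` for `m ≤ a b`, `1 ≤ N ≤ b`. -/
lemma choose_le (a b m N : ℕ) (hm : m ≤ a * b) (hN : 1 ≤ N) (hNb : N ≤ b) :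
    (((m + N - 1).choose (N - 1) : ℕ) : ℝ) ≤ (Real.exp 1 * (a + 1)) ^ b := by
  have hb : 0 < b := by omega
  have h1 : (m + N - 1).choose (N - 1) ≤ (a * b + b).choose b := by
    calc (m + N - 1).choose (N - 1) = (m + N - 1).choose m :=
          Nat.choose_symm_of_eq_add (by omega)
      _ ≤ (m + b).choose m := Nat.choose_le_choose _ (by omega)
      _ = (m + b).choose b := Nat.choose_symm_of_eq_add (by omega)
      _ ≤ (a * b + b).choose b := Nat.choose_le_choose _ (by omega)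
  have h2 : (((m + N - 1).choose (N - 1) : ℕ) : ℝ) ≤ (((a * b + b).choose b : ℕ) : ℝ) := by
    exact_mod_cast h1
  have h3 : (((a * b + b).choose b : ℕ) : ℝ) ≤ ((a * b + b : ℕ) : ℝ) ^ b / (b.factorial : ℝ) :=
    Nat.choose_le_pow_div b (a * b + b)
  have h4 : (b : ℝ) ^ b / (b.factorial : ℝ) ≤ Real.exp b :=
    Real.pow_div_factorial_le_exp (b : ℝ) (by positivity) b
  have h5 : ((a * b + b : ℕ) : ℝ) ^ b / (b.factorial : ℝ)
      = ((a : ℝ) + 1) ^ b * ((b : ℝ) ^ b / (b.factorial : ℝ)) := by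
    rw [← mul_div_assoc, ← mul_pow]
    congr 2
    push_cast
    ring
  refine h2.trans (h3.trans ?_)
  rw [h5, mul_pow, ← Real.exp_nat_mul, mul_one, mul_comm (Real.exp _)]
  gcongr

/-- top rows -/
lemma top_le (a L R : ℕ) :
    ((((L + a - 1).choose (a - 1)) ^ R : ℕ) : ℝ) ≤ ((L : ℝ) + a) ^ (a * R) := by
  rcases Nat.eq_zero_or_pos a with rfl | ha
  · simp
  · have h1 : (L + a - 1).choose (a - 1) ≤ (L + a) ^ a :=
      (Nat.choose_le_pow (L + a - 1) (a - 1)).trans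
        ((Nat.pow_le_pow_left (by omega) _).trans (Nat.pow_le_pow_right (by omega) (by omega)))
    have h2 : ((L + a - 1).choose (a - 1)) ^ R ≤ (L + a) ^ (a * R) := by
      rw [pow_mul]
      exact Nat.pow_le_pow_left h1 _
    exact_mod_cast h2

lemma choose_pow_le_exp {a b R N L m : ℕ} (ha : 3 ≤ a) (hm : m ≤ a * b) (hN : 1 ≤ N)
    (hNb : N ≤ b) (hL : (L : ℝ) + a ≤ (a : ℝ) ^ 4) :
    (((L + a - 1).choose (a - 1)) ^ R * (m + N - 1).choose (N - 1) : ℕ)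
      ≤ Real.exp (4 * Real.log a * (a * R) + 3 * Real.log a * b) := by
  have ha' : (3 : ℝ) ≤ a := by exact_mod_cast ha
  have ha0 : (0 : ℝ) < a := by linarith
  push_cast
  have h1 := top_le a L R
  have h2 := choose_le a b m N hm hN hNb
  push_cast at h1
  have e4 : (a : ℝ) ^ 4 = Real.exp (4 * Real.log a) := by
    rw [mul_comm, Real.exp_mul, Real.exp_log ha0]
    norm_cast
  have e3 : (a : ℝ) ^ 3 = Real.exp (3 * Real.log a) := by
    rw [mul_comm, Real.exp_mul, Real.exp_log ha0]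
    norm_cast
  have h3 : ((L : ℝ) + a) ^ (a * R) ≤ Real.exp (4 * Real.log a * (a * R)) := by
    have : ((L : ℝ) + a) ^ (a * R) ≤ (Real.exp (4 * Real.log a)) ^ (a * R) := by
      rw [← e4]
      exact pow_le_pow_left₀ (by positivity) hL _
    rw [← Real.exp_nat_mul] at this
    refine this.trans (le_of_eq ?_)
    congr 1
    push_cast
    ring
  have h4 : (Real.exp 1 * ((a : ℝ) + 1)) ^ b ≤ Real.exp (3 * Real.log a * b) := by
    have h5 : Real.exp 1 * ((a : ℝ) + 1) ≤ Real.exp (3 * Real.log a) := by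
      rw [← e3]
      have : Real.exp 1 ≤ 3 := by
        have := Real.exp_one_lt_d9
        linarith
      calc Real.exp 1 * ((a : ℝ) + 1) ≤ 3 * ((a : ℝ) + 1) := by gcongr
        _ ≤ (a : ℝ) ^ 3 := by nlinarith [mul_self_nonneg ((a : ℝ) - 3), mul_pos ha0 ha0]
    have : (Real.exp 1 * ((a : ℝ) + 1)) ^ b ≤ (Real.exp (3 * Real.log a)) ^ b :=
      pow_le_pow_left₀ (by positivity) h5 _
    rw [← Real.exp_nat_mul] at this
    refine this.trans (le_of_eq ?_)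
    congr 1
    ring
  rw [Real.exp_add]
  exact mul_le_mul (h1.trans h3) (h2.trans h4) (by positivity) (by positivity)

lemma step1 {A a x y l R L : ℝ} (ha0 : 0 < a) (hL0 : 0 ≤ L)
    (hya : y * y ≤ a) (hy1000 : 1000 * (A * l) ≤ y) (hAl : 1 ≤ A * l) (hxy : y * y ≤ x)
    (hR : R ≤ y) (hL : L ≤ A * (a + x) * l) : R * (L / a + 3) ≤ x / 2 := by
  have hy0 : 1000 ≤ y := by linarith
  have hx0 : 0 < x := by nlinarith
  have h1 : L / a ≤ A * l + A * l * x / a := by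
    rw [div_le_iff₀ ha0]
    calc L ≤ A * (a + x) * l := hL
      _ = (A * l + A * l * x / a) * a := by field_simp
  have h2 : R * (L / a + 3) ≤ y * (A * l + A * l * x / a + 3) := by
    gcongr
  have h3 : y * (A * l + 3) ≤ x / 4 := by
    have : A * l + 3 ≤ y / 4 := by linarith
    calc y * (A * l + 3) ≤ y * (y / 4) := by gcongr
      _ ≤ x / 4 := by linarith
  have h4 : y * (A * l * x / a) ≤ x / 4 := by
    have h5 : y * (A * l) ≤ a / 4 := by
      calc y * (A * l) ≤ y * (y / 4) := by gcongr; linarith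
        _ ≤ a / 4 := by linarith
    have h6 : y * (A * l * x / a) = (y * (A * l)) * x / a := by ring
    rw [h6, div_le_iff₀ ha0]
    calc y * (A * l) * x ≤ a / 4 * x := by gcongr
      _ = x / 4 * a := by ring
  calc R * (L / a + 3) ≤ y * (A * l + A * l * x / a + 3) := h2
    _ = y * (A * l + 3) + y * (A * l * x / a) := by ring
    _ ≤ x / 4 + x / 4 := by gcongr
    _ = x / 2 := by ring

lemma step2 {a b N L m : ℕ} {A l y : ℝ} (hN1 : 1 ≤ N) (hNb : N ≤ b) (hAl : 1 ≤ A * l)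
    (hya : y * y ≤ a) (hy1000 : 1000 * (A * l) ≤ y)
    (hL : (L : ℝ) ≤ A * b * l) (hm1 : (a * b : ℝ) ≤ 2 * m) :
    (a : ℝ) / (16 * (A * l)) ≤ ((m / (2 * (N + L)) : ℕ) : ℝ) := by
  have hNb' : (N : ℝ) ≤ b := by exact_mod_cast hNb
  have hNpos : (0 : ℝ) < N := by exact_mod_cast hN1
  have hb0 : (0 : ℝ) < b := by linarith
  have hden : (0 : ℝ) < 2 * ((N : ℝ) + L) := by positivity
  have hy0 : 1000 ≤ y := by linarith
  have hyy : 1000 * y ≤ y * y := by gcongr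
  have hay : 16 * (A * l) ≤ a := by linarith
  have ha0 : (0 : ℝ) ≤ a := by positivity
  have h1 : (m : ℝ) / (2 * ((N : ℝ) + L)) - 1 ≤ ((m / (2 * (N + L)) : ℕ) : ℝ) := by
    have := Nat.lt_div_mul_add (a := m) (b := 2 * (N + L)) (by omega)
    have h2 : (m : ℝ) < ((m / (2 * (N + L)) : ℕ) : ℝ) * (2 * ((N : ℝ) + L))
        + 2 * ((N : ℝ) + L) := by exact_mod_cast this
    rw [sub_le_iff_le_add, div_le_iff₀ hden]
    linarith
  have h2 : (N : ℝ) + L ≤ 2 * (A * l) * b := by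
    have : (b : ℝ) ≤ (A * l) * b := by
      calc (b : ℝ) = 1 * b := by ring
        _ ≤ (A * l) * b := by gcongr
    linarith
  have h3 : (a : ℝ) / (8 * (A * l)) ≤ (m : ℝ) / (2 * ((N : ℝ) + L)) := by
    rw [div_le_div_iff₀ (by positivity) hden]
    calc (a : ℝ) * (2 * ((N : ℝ) + L)) ≤ a * (2 * (2 * (A * l) * b)) := by gcongr
      _ = (a * b) * (4 * (A * l)) := by ring
      _ ≤ (2 * m) * (4 * (A * l)) := by gcongr
      _ = m * (8 * (A * l)) := by ring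
  have h4 : (1 : ℝ) ≤ a / (16 * (A * l)) := by
    rw [le_div_iff₀ (by positivity)]
    linarith
  have h5 : (a : ℝ) / (8 * (A * l)) = a / (16 * (A * l)) + a / (16 * (A * l)) := by
    field_simp
    ring
  linarith

lemma step3 {a b L : ℕ} {A l : ℝ} (ha : 3 ≤ a) (hAa : A * l ≤ a)
    (hb2 : b ≤ a ^ 2) (hL : (L : ℝ) ≤ A * b * l) : (L : ℝ) + a ≤ (a : ℝ) ^ 4 := by
  have ha' : (3 : ℝ) ≤ a := by exact_mod_cast ha
  have ha0 : (0 : ℝ) < a := by linarith
  have hb2' : (b : ℝ) ≤ (a : ℝ) ^ 2 := by exact_mod_cast hb2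
  have h2 : (L : ℝ) ≤ (a : ℝ) ^ 3 := by
    calc (L : ℝ) ≤ A * b * l := hL
      _ = (A * l) * b := by ring
      _ ≤ a * (a : ℝ) ^ 2 := by gcongr
      _ = (a : ℝ) ^ 3 := by ring
  have h3 : (a : ℝ) ≤ (a : ℝ) ^ 3 := by
    calc (a : ℝ) = a * 1 := by ring
      _ ≤ a * (a : ℝ) ^ 2 := by
        gcongr
        nlinarith
      _ = (a : ℝ) ^ 3 := by ring
  have h4 : 2 * (a : ℝ) ^ 3 ≤ (a : ℝ) ^ 4 := by
    calc 2 * (a : ℝ) ^ 3 ≤ a * (a : ℝ) ^ 3 := by gcongr; linarith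
      _ = (a : ℝ) ^ 4 := by ring
  linarith

lemma step4 {a b : ℕ} {A l x y R E : ℝ} (hl : 0 < l) (hA : 0 < A)
    (hya : y * y ≤ a) (hy1000 : 1000 * (A * l ^ 2) ≤ y) (hy0 : 1000 ≤ y) (hxy : y * y ≤ x)
    (hbx : (b : ℝ) = a + x)
    (hR : R ≤ y) (hE : x * a / (32 * (A * l)) ≤ E) :
    4 * l * (a * R) + 3 * l * b ≤ Real.log 2 * E := by
  have hx0 : 0 < x := by nlinarith
  have ha0 : (0 : ℝ) ≤ a := by positivity
  have hAl : 0 < A * l := by positivity
  have hAl2 : 0 < A * l ^ 2 := by positivity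
  have hlog2 : (1 : ℝ) / 2 ≤ Real.log 2 := by
    have := Real.log_two_gt_d9
    linarith
  have hE0 : 0 ≤ E := le_trans (by positivity) hE
  have h1 : x * a / (64 * (A * l)) ≤ Real.log 2 * E := by
    calc x * a / (64 * (A * l)) = (1 / 2) * (x * a / (32 * (A * l))) := by
          field_simp
          ring
      _ ≤ (1 / 2) * E := by gcongr
      _ ≤ _ := by gcongr
  refine le_trans ?_ h1
  rw [le_div_iff₀ (by positivity), hbx]
  have h2 : 4 * l * (a * R) ≤ 4 * l * (a * y) := by gcongr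
  have h3 : (4 * l * (a * R) + 3 * l * (a + x)) * (64 * (A * l))
      ≤ (4 * l * (a * y) + 3 * l * (a + x)) * (64 * (A * l)) := by gcongr
  refine h3.trans ?_
  have h4 : (4 * l * (a * y) + 3 * l * (a + x)) * (64 * (A * l))
      = 256 * (A * l ^ 2) * y * a + 192 * (A * l ^ 2) * a + 192 * (A * l ^ 2) * x := by ring
  rw [h4]
  have hc : 256 * (A * l ^ 2) ≤ y / 3 := by linarith
  have hd : 192 * (A * l ^ 2) ≤ y / 3 := by linarith
  have hy1 : y ≤ y * y := by nlinarith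
  have k1 : 256 * (A * l ^ 2) * y * a ≤ (x / 3) * a := by
    calc 256 * (A * l ^ 2) * y * a ≤ y / 3 * y * a := by gcongr
      _ = (y * y) / 3 * a := by ring
      _ ≤ (x / 3) * a := by gcongr
  have k2 : 192 * (A * l ^ 2) * a ≤ (x / 3) * a := by
    have : 192 * (A * l ^ 2) ≤ x / 3 := by linarith
    gcongr
  have k3 : 192 * (A * l ^ 2) * x ≤ (a / 3) * x := by
    have : 192 * (A * l ^ 2) ≤ (a : ℝ) / 3 := by linarith
    gcongr
  calc _ ≤ (x / 3) * a + (x / 3) * a + (a / 3) * x := by gcongr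
    _ = x * a := by ring

/-- deterministic core of the comparison -/
lemma core (A δ : ℝ) (hA : 1 ≤ A) (hδ : 0 < δ) (hδ1 : δ ≤ 1 / 2) (a : ℕ) (ha : 3 ≤ a)
    (hev : 1000 * A * (Real.log a) ^ 2 ≤ (a : ℝ) ^ δ) (b R N L m : ℕ)
    (hab : (a : ℝ) + (a : ℝ) ^ (2 * δ) ≤ b) (hb2 : b ≤ a ^ 2) (hR : (R : ℝ) ≤ (a : ℝ) ^ δ)
    (hL : (L : ℝ) ≤ A * b * Real.log a) (hN : (b : ℝ) ≤ N + R * (L / a + 3)) (hNb : N ≤ b)
    (hm1 : (a * b : ℝ) ≤ 2 * m) (hm2 : m ≤ a * b) :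
    ((L + a - 1).choose (a - 1)) ^ R * (m + N - 1).choose (N - 1)
      ≤ 2 ^ ((N - a) * (m / (2 * (N + L)))) ∧ a ≤ N := by
  have ha' : (3 : ℝ) ≤ a := by exact_mod_cast ha
  have ha0 : (0 : ℝ) < a := by linarith
  have hl1 : 1 ≤ Real.log a := by
    rw [Real.le_log_iff_exp_le ha0]
    have := Real.exp_one_lt_d9
    linarith
  have hyy : (a : ℝ) ^ (2 * δ) = (a : ℝ) ^ δ * (a : ℝ) ^ δ := by
    rw [← Real.rpow_add ha0]
    congr 1
    ring
  have hya : (a : ℝ) ^ δ * (a : ℝ) ^ δ ≤ a := by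
    rw [← hyy]
    calc (a : ℝ) ^ (2 * δ) ≤ (a : ℝ) ^ (1 : ℝ) :=
          Real.rpow_le_rpow_of_exponent_le (by linarith) (by linarith)
      _ = a := Real.rpow_one _
  rw [hyy] at hab
  obtain ⟨l, hl⟩ : ∃ l, Real.log (a : ℝ) = l := ⟨_, rfl⟩
  obtain ⟨y, hy⟩ : ∃ y, (a : ℝ) ^ δ = y := ⟨_, rfl⟩
  rw [hl] at hl1 hev hL
  rw [hy] at hev hR hab hya
  have hl2 : l ≤ l ^ 2 := by nlinarith
  have hAl : 1 ≤ A * l := by nlinarith
  have hAl2 : A * l ≤ A * l ^ 2 := by gcongr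
  have hy1000 : 1000 * (A * l ^ 2) ≤ y := by linarith
  have hy1000' : 1000 * (A * l) ≤ y := by linarith
  have hy0 : 1000 ≤ y := by linarith
  obtain ⟨x, hbx⟩ : ∃ x : ℝ, (b : ℝ) = a + x := ⟨b - a, by ring⟩
  have hxy : y * y ≤ x := by linarith
  have hx0 : 0 < x := by nlinarith
  have hRL := step1 ha0 (Nat.cast_nonneg L) hya hy1000' hAl hxy hR (by rw [← hbx]; exact hL)
  have hNx : x / 2 ≤ (N : ℝ) - a := by linarith
  have haN : a ≤ N := by
    have : (a : ℝ) ≤ N := by linarith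
    exact_mod_cast this
  refine ⟨?_, haN⟩
  have hN1 : 1 ≤ N := by omega
  have hdiv := step2 hN1 hNb hAl hya hy1000' hL hm1
  have hNa0 : (0 : ℝ) ≤ (N : ℝ) - a := by linarith
  have hE : x * a / (32 * (A * l)) ≤ (((N - a) * (m / (2 * (N + L))) : ℕ) : ℝ) := by
    rw [Nat.cast_mul, Nat.cast_sub haN]
    calc x * a / (32 * (A * l)) = (x / 2) * (a / (16 * (A * l))) := by
          field_simp
          ring
      _ ≤ ((N : ℝ) - a) * ((m / (2 * (N + L)) : ℕ) : ℝ) := by gcongr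
  have hAa : A * l ≤ a := by
    have : 1 * y ≤ y * y := by gcongr; linarith
    linarith
  have hLa := step3 ha hAa hb2 hL
  have hmain := choose_pow_le_exp (R := R) ha hm2 hN1 hNb hLa
  rw [hl] at hmain
  have hfin := step4 (by linarith) (by linarith) hya hy1000 hy0 hxy hbx hR hE
  have h2E : Real.exp (Real.log 2 * (((N - a) * (m / (2 * (N + L))) : ℕ) : ℝ))
      = (2 : ℝ) ^ ((N - a) * (m / (2 * (N + L)))) := by
    rw [Real.exp_mul, Real.exp_log (by norm_num), Real.rpow_natCast]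
  have hall : ((((L + a - 1).choose (a - 1)) ^ R * (m + N - 1).choose (N - 1) : ℕ) : ℝ)
      ≤ ((2 ^ ((N - a) * (m / (2 * (N + L)))) : ℕ) : ℝ) := by
    refine hmain.trans ((Real.exp_le_exp.2 hfin).trans (le_of_eq ?_))
    rw [h2E, Nat.cast_pow, Nat.cast_ofNat]
  exact_mod_cast hall

/-- **(H1)**: the loss is smaller than the gain. -/
theorem num_ineq (A δ : ℝ) (hA : 1 ≤ A) (hδ : 0 < δ) (hδ1 : δ ≤ 1 / 2) :
    ∀ᶠ a : ℕ in atTop, ∀ b R N L m : ℕ,
      (a : ℝ) + (a : ℝ) ^ (2 * δ) ≤ b → b ≤ a ^ 2 → (R : ℝ) ≤ (a : ℝ) ^ δ →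
      (L : ℝ) ≤ A * b * Real.log a → (b : ℝ) ≤ N + R * (L / a + 3) → N ≤ b →
      (a * b : ℝ) ≤ 2 * m → m ≤ a * b →
      ((L + a - 1).choose (a - 1)) ^ R * (m + N - 1).choose (N - 1)
        ≤ 2 ^ ((N - a) * (m / (2 * (N + L)))) ∧ a ≤ N := by
  filter_upwards [ev_log (1000 * A) δ hδ, eventually_ge_atTop 3] with a ha1 ha2
  intro b R N L m h1 h2 h3 h4 h5 h6 h7 h8
  exact core A δ hA hδ hδ1 a ha2 ha1 b R N L m h1 h2 h3 h4 h5 h6 h7 h8

lemma pow_exp {a : ℕ} (ha : 3 ≤ a) (c : ℕ) :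
    (a : ℝ) ^ c = Real.exp (c * Real.log a) := by
  have ha0 : (0 : ℝ) < a := by
    have : (3 : ℝ) ≤ a := by exact_mod_cast ha
    linarith
  rw [mul_comm, Real.exp_mul, Real.exp_log ha0, Real.rpow_natCast]

lemma choose_le_exp {a b m N : ℕ} (ha : 3 ≤ a) (hm : m ≤ a * b) (hN : 1 ≤ N) (hNb : N ≤ b) :
    ((m + N - 1).choose (N - 1) : ℝ) ≤ Real.exp (3 * Real.log a * b) := by
  have ha' : (3 : ℝ) ≤ a := by exact_mod_cast ha
  have ha0 : (0 : ℝ) < a := by linarith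
  refine (choose_le a b m N hm hN hNb).trans ?_
  have h5 : Real.exp 1 * ((a : ℝ) + 1) ≤ Real.exp (3 * Real.log a) := by
    have e3 := pow_exp ha 3
    push_cast at e3
    rw [← e3]
    have : Real.exp 1 ≤ 3 := by
      have := Real.exp_one_lt_d9
      linarith
    calc Real.exp 1 * ((a : ℝ) + 1) ≤ 3 * ((a : ℝ) + 1) := by gcongr
      _ ≤ (a : ℝ) ^ 3 := by nlinarith [mul_self_nonneg ((a : ℝ) - 3), mul_pos ha0 ha0]
  have : (Real.exp 1 * ((a : ℝ) + 1)) ^ b ≤ (Real.exp (3 * Real.log a)) ^ b :=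
    pow_le_pow_left₀ (by positivity) h5 _
  rw [← Real.exp_nat_mul] at this
  refine this.trans (le_of_eq ?_)
  congr 1
  ring

lemma L_pow_le_exp {a L R : ℕ} (ha : 3 ≤ a) (hL : (L : ℝ) + a ≤ (a : ℝ) ^ 4) :
    ((L : ℝ) + 1) ^ (a * R) ≤ Real.exp (4 * Real.log a * (a * R)) := by
  have ha' : (3 : ℝ) ≤ a := by exact_mod_cast ha
  have : ((L : ℝ) + 1) ^ (a * R) ≤ (Real.exp (4 * Real.log a)) ^ (a * R) := by
    have e4 := pow_exp ha 4
    push_cast at e4
    rw [← e4]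
    exact pow_le_pow_left₀ (by positivity) (by linarith) _
  rw [← Real.exp_nat_mul] at this
  refine this.trans (le_of_eq ?_)
  congr 1
  push_cast
  ring

lemma gain {a b N L m : ℕ} {A l x y R : ℝ} (hl : 0 < l) (hA : 0 < A) (hAl : 1 ≤ A * l)
    (_hb0 : (0 : ℝ) ≤ b) (hx0 : 0 ≤ x)
    (hya : y * y ≤ a) (hy1000 : 1000 * (A * l) ≤ y) (hR : R ≤ y)
    (hL : (L : ℝ) ≤ A * b * l) (hm1 : (a * b : ℝ) ≤ m + R * L) (hNb : (N : ℝ) ≤ b)
    (hNpos : (0 : ℝ) < N) (hNx : x / 2 ≤ (N : ℝ) - a) :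
    x * a / (32 * (A * l)) ≤ ((N : ℝ) - a) * m / (N + L) := by
  have hNa0 : (0 : ℝ) ≤ (N : ℝ) - a := by linarith
  have hy0 : 1000 ≤ y := by linarith
  have hm3 : (a * b : ℝ) ≤ 2 * m := by
    have h1 : (R : ℝ) * L ≤ (a * b) / 2 := by
      calc (R : ℝ) * L ≤ y * (A * b * l) := by gcongr
        _ = (y * (A * l)) * b := by ring
        _ ≤ (y * (y / 2)) * b := by gcongr; linarith
        _ = (y * y) * b / 2 := by ring
        _ ≤ (a * b) / 2 := by gcongr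
    linarith
  have hden : (N : ℝ) + L ≤ 2 * (A * l) * b := by
    have : (b : ℝ) ≤ (A * l) * b := by
      calc (b : ℝ) = 1 * b := by ring
        _ ≤ (A * l) * b := by gcongr
    linarith
  have hden0 : (0 : ℝ) < (N : ℝ) + L := by positivity
  rw [div_le_div_iff₀ (by positivity) hden0]
  calc x * a * ((N : ℝ) + L) ≤ x * a * (2 * (A * l) * b) := by gcongr
    _ = (x / 2) * (a * b) * (4 * (A * l)) := by ring
    _ ≤ ((N : ℝ) - a) * (2 * m) * (4 * (A * l)) := by gcongr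
    _ = ((N : ℝ) - a) * m * (8 * (A * l)) := by ring
    _ ≤ ((N : ℝ) - a) * m * (32 * (A * l)) := by gcongr; norm_num

/-- deterministic core of `NumStmt` -/
lemma core_exp (A δ : ℝ) (hA : 1 ≤ A) (hδ : 0 < δ) (hδ1 : δ ≤ 1 / 2) (a : ℕ) (ha : 3 ≤ a)
    (hev : 1000 * A * (Real.log a) ^ 2 ≤ (a : ℝ) ^ δ) (b R N L m : ℕ)
    (hab : (a : ℝ) + (a : ℝ) ^ (2 * δ) ≤ b) (hb2 : b ≤ a ^ 2) (hR : (R : ℝ) ≤ (a : ℝ) ^ δ)
    (hL : (L : ℝ) ≤ A * b * Real.log a) (hN : (b : ℝ) ≤ N + R * (L / a + 3)) (hNb : N ≤ b)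
    (hm1 : (a * b : ℝ) ≤ m + R * L) (hm2 : m ≤ a * b) :
    a ≤ N ∧ ((L : ℝ) + 1) ^ (a * R) * ((m + N - 1).choose (N - 1) : ℝ)
      ≤ Real.exp (((N - a : ℕ) : ℝ) * (m : ℝ) / ((N + L : ℕ) : ℝ)) := by
  have ha' : (3 : ℝ) ≤ a := by exact_mod_cast ha
  have ha0 : (0 : ℝ) < a := by linarith
  have hl1 : 1 ≤ Real.log a := by
    rw [Real.le_log_iff_exp_le ha0]
    have := Real.exp_one_lt_d9
    linarith
  have hyy : (a : ℝ) ^ (2 * δ) = (a : ℝ) ^ δ * (a : ℝ) ^ δ := by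
    rw [← Real.rpow_add ha0]
    congr 1
    ring
  have hya : (a : ℝ) ^ δ * (a : ℝ) ^ δ ≤ a := by
    rw [← hyy]
    calc (a : ℝ) ^ (2 * δ) ≤ (a : ℝ) ^ (1 : ℝ) :=
          Real.rpow_le_rpow_of_exponent_le (by linarith) (by linarith)
      _ = a := Real.rpow_one _
  rw [hyy] at hab
  have q4 := fun h => L_pow_le_exp (R := R) (L := L) ha h
  have q3 := fun h h' => choose_le_exp (b := b) (N := N) ha hm2 h h'
  obtain ⟨l, hl⟩ : ∃ l, Real.log (a : ℝ) = l := ⟨_, rfl⟩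
  obtain ⟨y, hy⟩ : ∃ y, (a : ℝ) ^ δ = y := ⟨_, rfl⟩
  rw [hl] at hl1 hev hL q4 q3
  rw [hy] at hev hR hab hya
  clear hl hy hyy hδ hδ1 δ
  have hl2 : l ≤ l ^ 2 := by nlinarith
  have hAl : 1 ≤ A * l := by nlinarith
  have hAl2 : A * l ≤ A * l ^ 2 := by gcongr
  have hy1000 : 1000 * (A * l ^ 2) ≤ y := by linarith
  have hy1000' : 1000 * (A * l) ≤ y := by linarith
  have hy0 : 1000 ≤ y := by linarith
  obtain ⟨x, hbx⟩ : ∃ x : ℝ, (b : ℝ) = a + x := ⟨b - a, by ring⟩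
  have hxy : y * y ≤ x := by linarith
  have hx0 : 0 < x := by nlinarith
  have hb0 : (0 : ℝ) < b := by linarith
  have hRL := step1 ha0 (Nat.cast_nonneg L) hya hy1000' hAl hxy hR (by rw [← hbx]; exact hL)
  have hNx : x / 2 ≤ (N : ℝ) - a := by linarith
  have haN : a ≤ N := by
    have : (a : ℝ) ≤ N := by linarith
    exact_mod_cast this
  refine ⟨haN, ?_⟩
  have hN1 : 1 ≤ N := by omega
  have hNpos : (0 : ℝ) < N := by exact_mod_cast hN1
  have hNb' : (N : ℝ) ≤ b := by exact_mod_cast hNb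
  have hNa0 : (0 : ℝ) ≤ (N : ℝ) - a := by linarith
  have hAa : A * l ≤ a := by
    have : 1 * y ≤ y * y := by gcongr; linarith
    linarith
  have hLa := step3 ha hAa hb2 hL
  have hE := gain (by linarith) (by linarith) hAl hb0.le hx0.le hya hy1000' hR hL hm1 hNb'
    hNpos hNx
  have hfin := step4 (by linarith) (by linarith) hya hy1000 hy0 hxy hbx hR hE
  have hE0 : 0 ≤ ((N : ℝ) - a) * m / (N + L) := by positivity
  have hlog1 : Real.log 2 ≤ 1 := by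
    have := Real.log_two_lt_d9
    linarith
  have hfin2 : 4 * l * (a * R) + 3 * l * b ≤ ((N : ℝ) - a) * m / (N + L) := by
    refine hfin.trans ?_
    calc Real.log 2 * (((N : ℝ) - a) * m / (N + L)) ≤ 1 * (((N : ℝ) - a) * m / (N + L)) := by
          gcongr
      _ = _ := one_mul _
  rw [Nat.cast_sub haN, Nat.cast_add]
  calc ((L : ℝ) + 1) ^ (a * R) * ((m + N - 1).choose (N - 1) : ℝ)
      ≤ Real.exp (4 * l * (a * R)) * Real.exp (3 * l * b) :=
        mul_le_mul (q4 hLa) (q3 hN1 hNb) (by positivity) (by positivity)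
    _ = Real.exp (4 * l * (a * R) + 3 * l * b) := (Real.exp_add _ _).symm
    _ ≤ _ := Real.exp_le_exp.2 hfin2

/-- **(H1)** `NumStmt`. -/
theorem num_stmt : Vale.Agent.P181.T4.NumStmt := by
  intro δ hδ hδ1 A0 hA0
  filter_upwards [ev_log (1000 * max A0 1) δ hδ, eventually_ge_atTop 3] with a ha1 ha2
  intro b N m L hab hb2 hL hNb hN hm2 hm1
  have ha' : (3 : ℝ) ≤ a := by exact_mod_cast ha2
  have hl0 : 0 ≤ Real.log a := Real.log_nonneg (by linarith)
  refine core_exp (max A0 1) δ (le_max_right _ _) hδ (by linarith) a ha2 ha1 b _ N L m ?_ hb2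
    (Nat.floor_le (by positivity)) ?_ ?_ hNb ?_ hm2
  · have : (a : ℝ) ^ (2 * δ) ≤ (a : ℝ) ^ (3 * δ) :=
      Real.rpow_le_rpow_of_exponent_le (by linarith) (by linarith)
    linarith
  · refine hL.trans ?_
    gcongr
    exact le_max_left _ _
  · have h1 : (b : ℝ) ≤ ((N + ⌊(a : ℝ) ^ δ⌋₊ * (L / a + 3) : ℕ) : ℝ) := by exact_mod_cast hN
    refine h1.trans ?_
    push_cast
    gcongr
    exact Nat.cast_div_le
  · exact_mod_cast hm1

end Vale.Agent.P181.H921
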