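import Mathlib

/-!
# P181, Z: the number of typical letters is bounded by the mean equations
-/

set_option autoImplicit false

namespace Vale.Agent.P181.H921.Z

open Finset

/-- the letters: vectors of natural numbers of sum between `1` and `a`. -/
def Lt (a r : ℕ) : Finset (Fin r → ℕ) :=
  (Fintype.piFinset fun _ => range (a + 1)).filter fun v => 1 ≤ ∑ i, v i ∧ ∑ i, v i ≤ a

/-- the scalar product. -/
def dt {r : ℕ} (x : Fin r → ℝ) (v : Fin r → ℕ) : ℝ := ∑ i, x i * v i

lemma mem_Lt {a r : ℕ} {v : Fin r → ℕ} :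
    v ∈ Lt a r ↔ 1 ≤ ∑ i, v i ∧ ∑ i, v i ≤ a := by
  unfold Lt
  rw [mem_filter, Fintype.mem_piFinset]
  constructor
  · exact fun h => h.2
  · intro h
    refine ⟨fun i => ?_, h⟩
    have h1 : v i ≤ ∑ i, v i := single_le_sum (f := v) (fun _ _ => Nat.zero_le _) (mem_univ i)
    rw [mem_range]
    omega

lemma dt_nonneg {r : ℕ} {x : Fin r → ℝ} (hx : ∀ i, 0 < x i) (v : Fin r → ℕ) : 0 ≤ dt x v :=
  sum_nonneg fun i _ => mul_nonneg (hx i).le (Nat.cast_nonneg _)

lemma le_dt {r : ℕ} {x : Fin r → ℝ} (hx : ∀ i, 0 < x i) (v : Fin r → ℕ) (i : Fin r) :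
    x i * v i ≤ dt x v :=
  single_le_sum (f := fun i => x i * (v i : ℝ))
    (fun i _ => mul_nonneg (hx i).le (Nat.cast_nonneg _)) (mem_univ i)

lemma dt_pos {r : ℕ} {x : Fin r → ℝ} (hx : ∀ i, 0 < x i) {v : Fin r → ℕ} {i : Fin r}
    (hv : v i ≠ 0) : 0 < dt x v := by
  refine lt_of_lt_of_le ?_ (le_dt hx v i)
  have : (0 : ℝ) < v i := by exact_mod_cast Nat.pos_of_ne_zero hv
  exact mul_pos (hx i) this

lemma exists_ne_of_mem {a r : ℕ} {v : Fin r → ℕ} (hv : v ∈ Lt a r) : ∃ i, v i ≠ 0 := by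
  by_contra h
  have h0 : ∀ i, v i = 0 := fun i => by
    by_contra h2
    exact h ⟨i, h2⟩
  have h1 := (mem_Lt.1 hv).1
  simp [h0] at h1

/-- the mean number of copies of a letter. -/
noncomputable def gm (u : ℝ) : ℝ := Real.exp (-u) / (1 - Real.exp (-u))

lemma gm_pos {u : ℝ} (hu : 0 < u) : 0 < gm u := by
  unfold gm
  have h1 : Real.exp (-u) < 1 := by
    rw [Real.exp_lt_one_iff]
    linarith
  exact div_pos (Real.exp_pos _) (by linarith)

lemma gm_eq {u : ℝ} : gm u = 1 / (Real.exp u - 1) := by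
  unfold gm
  rw [Real.exp_neg]
  have h := Real.exp_pos u
  rcases eq_or_ne (Real.exp u) 1 with h1 | h1
  · rw [h1]
    norm_num
  · have h2 : Real.exp u - 1 ≠ 0 := sub_ne_zero.2 h1
    have h3 : 1 - (Real.exp u)⁻¹ ≠ 0 := by
      intro h4
      apply h1
      have h5 : (Real.exp u)⁻¹ = 1 := by linarith
      rw [inv_eq_one] at h5
      exact h5
    field_simp

lemma gm_ge {u : ℝ} (hu : 0 < u) (hu1 : u ≤ 1) : 1 / (2 * u) ≤ gm u := by
  rw [gm_eq]
  have h1 : 0 < Real.exp u - 1 := by
    have := Real.add_one_lt_exp hu.ne'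
    linarith
  have h2 : |Real.exp u - 1| ≤ 2 * |u| := Real.abs_exp_sub_one_le (by rw [abs_of_pos hu]; exact hu1)
  rw [abs_of_pos h1, abs_of_pos hu] at h2
  exact one_div_le_one_div_of_le h1 h2

lemma inv_one_sub_exp_le {u : ℝ} (hu : 0 < u) : (1 - Real.exp (-u))⁻¹ ≤ 1 + 1 / u := by
  have h1 : Real.exp (-u) ≤ (1 + u)⁻¹ := by
    rw [Real.exp_neg]
    have := Real.add_one_le_exp u
    gcongr
    linarith
  have h2 : 0 < 1 - (1 + u)⁻¹ := by
    have : (1 + u)⁻¹ < 1 := inv_lt_one_of_one_lt₀ (by linarith)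
    linarith
  calc (1 - Real.exp (-u))⁻¹ ≤ (1 - (1 + u)⁻¹)⁻¹ := by
        gcongr
    _ = 1 + 1 / u := by
        have h3 : (1 : ℝ) + u ≠ 0 := by linarith
        have h4 : 1 - (1 + u)⁻¹ = u / (1 + u) := by
          field_simp
          ring
        rw [h4]
        field_simp
        ring

/-- **Claim A: pure letters.** -/
lemma pure_ge {a r : ℕ} {x : Fin r → ℝ} (hx : ∀ i, 0 < x i) {j : Fin r} (hj : a * x j ≤ 1) :
    (a : ℝ) / (2 * x j) ≤ ∑ v ∈ Lt a r, (v j : ℝ) * gm (dt x v) := by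
  classical
  have hdt : ∀ p : ℕ, dt x (Pi.single j p) = x j * p := by
    intro p
    unfold dt
    rw [sum_eq_single j]
    · rw [Pi.single_eq_same]
    · intro i _ hi
      rw [Pi.single_eq_of_ne hi]
      simp
    · simp
  have himg : (Icc 1 a).image (fun p => (Pi.single j p : Fin r → ℕ)) ⊆ Lt a r := by
    intro v hv
    rw [mem_image] at hv
    obtain ⟨p, hp, rfl⟩ := hv
    rw [mem_Icc] at hp
    rw [mem_Lt, Finset.sum_pi_single']
    simp [hp.1, hp.2]
  have hinj : Set.InjOn (fun p => (Pi.single j p : Fin r → ℕ)) (Icc 1 a : Finset ℕ) := by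
    intro p _ q _ h
    have := congrFun h j
    simpa using this
  calc (a : ℝ) / (2 * x j) = ∑ _p ∈ Icc 1 a, 1 / (2 * x j) := by
        rw [sum_const, Nat.card_Icc]
        simp
        ring
    _ ≤ ∑ p ∈ Icc 1 a, ((Pi.single j p : Fin r → ℕ) j : ℝ) * gm (dt x (Pi.single j p)) := by
        refine sum_le_sum fun p hp => ?_
        rw [mem_Icc] at hp
        rw [Pi.single_eq_same, hdt]
        have hp1 : (1 : ℝ) ≤ p := by exact_mod_cast hp.1
        have hpa : (p : ℝ) ≤ a := by exact_mod_cast hp.2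
        have h1 : x j * p ≤ 1 := by
          have : x j * p ≤ x j * a := mul_le_mul_of_nonneg_left hpa (hx j).le
          linarith [mul_comm (x j) (a : ℝ)]
        have h2 := gm_ge (mul_pos (hx j) (by linarith)) h1
        calc 1 / (2 * x j) = p * (1 / (2 * (x j * p))) := by
              have := (hx j).ne'
              field_simp
          _ ≤ p * gm (x j * p) := mul_le_mul_of_nonneg_left h2 (by linarith)
    _ = ∑ v ∈ (Icc 1 a).image (fun p => (Pi.single j p : Fin r → ℕ)),
          (v j : ℝ) * gm (dt x v) := by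
        rw [sum_image hinj]
    _ ≤ _ := by
        refine sum_le_sum_of_subset_of_nonneg himg fun v hv _ => ?_
        obtain ⟨i, hi⟩ := exists_ne_of_mem hv
        exact mul_nonneg (Nat.cast_nonneg _) (gm_pos (dt_pos hx hi)).le

/-- **Claim B: boxes.** -/
lemma box_ge {a r : ℕ} {x : Fin r → ℝ} (hx : ∀ i, 0 < x i) (y : Fin r → ℝ)
    (hy1 : ∀ i, 1 ≤ y i) (hyI : ∀ i, y i = 1 ∨ (y i ≤ 1 / x i ∧ y i ≤ a)) {i : Fin r}
    (hir : (r : ℝ) ≤ y i) (hi2 : y i ≤ 1 / x i ∧ y i ≤ a) :
    (∏ j, y j) * y i ≤ 8 * (r : ℝ) ^ (r + 1) * ∑ v ∈ Lt a r, (v i : ℝ) * gm (dt x v) := by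
  classical
  have hr : 0 < r := Fin.pos i
  have hrR : (1 : ℝ) ≤ r := by exact_mod_cast hr
  -- the sides of the box
  set m : Fin r → ℕ := fun j => if y j ≤ 1 / x j ∧ y j ≤ a then ⌊y j / r⌋₊ else 0 with hm
  have hm1 : ∀ j, (m j : ℝ) * x j ≤ 1 / r := by
    intro j
    simp only [hm]
    split_ifs with h
    · have h1 : ((⌊y j / r⌋₊ : ℕ) : ℝ) ≤ y j / r := Nat.floor_le (by
        have := hy1 j
        positivity)
      calc ((⌊y j / r⌋₊ : ℕ) : ℝ) * x j ≤ y j / r * x j :=
            mul_le_mul_of_nonneg_right h1 (hx j).le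
        _ ≤ (1 / x j) / r * x j := by
            have := h.1
            have := (hx j).le
            gcongr
        _ = 1 / r := by
            have := (hx j).ne'
            field_simp
    · simp
  have hm2 : ∀ j, (m j : ℝ) ≤ a / r := by
    intro j
    simp only [hm]
    split_ifs with h
    · have h1 : ((⌊y j / r⌋₊ : ℕ) : ℝ) ≤ y j / r := Nat.floor_le (by
        have := hy1 j
        positivity)
      refine h1.trans ?_
      have := h.2
      gcongr
    · simp
      positivity
  have hm3 : ∀ j, y j / r ≤ m j + 1 := by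
    intro j
    simp only [hm]
    split_ifs with h
    · exact (Nat.lt_floor_add_one _).le
    · rcases hyI j with h1 | h1
      · rw [h1]
        simp
        rw [inv_le_one₀ (by linarith)]
        exact hrR
      · exact absurd h1 h
  have hm4 : y i / r / 2 ≤ m i := by
    have h0 : m i = ⌊y i / r⌋₊ := by
      simp only [hm]
      rw [if_pos hi2]
    rw [h0]
    have h1 : 1 ≤ y i / r := by
      rw [le_div_iff₀ (by linarith)]
      linarith
    have h2 := Nat.lt_floor_add_one (y i / r)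
    have h3 : (1 : ℝ) ≤ (⌊y i / r⌋₊ : ℕ) := by
      exact_mod_cast Nat.one_le_floor_iff _ |>.2 h1
    linarith
  -- the box
  set B : Finset (Fin r → ℕ) := Fintype.piFinset fun j => range (m j + 1) with hB
  have hBm : ∀ v ∈ B, ∀ j, v j ≤ m j := by
    intro v hv j
    rw [hB, Fintype.mem_piFinset] at hv
    have := hv j
    rw [mem_range] at this
    omega
  have hcardr : (∑ _j : Fin r, (1 : ℝ) / r) = 1 := by
    rw [sum_const, card_univ, Fintype.card_fin]
    simp
    field_simp
  have hBsum : ∀ v ∈ B, ∑ j, v j ≤ a := by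
    intro v hv
    have h1 : (∑ j, (v j : ℝ)) ≤ a := by
      calc (∑ j, (v j : ℝ)) ≤ ∑ _j : Fin r, (a : ℝ) * (1 / r) := by
            refine sum_le_sum fun j _ => ?_
            have h2 : (v j : ℝ) ≤ m j := by exact_mod_cast hBm v hv j
            have h3 := hm2 j
            rw [mul_one_div]
            linarith
        _ = a := by
            rw [← mul_sum, hcardr, mul_one]
    exact_mod_cast h1
  have hBdt : ∀ v ∈ B, dt x v ≤ 1 := by
    intro v hv
    calc dt x v ≤ ∑ _j : Fin r, (1 : ℝ) / r := by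
          refine sum_le_sum fun j _ => ?_
          have h2 : (v j : ℝ) ≤ m j := by exact_mod_cast hBm v hv j
          have h3 := hm1 j
          have h4 : x j * v j ≤ x j * m j := mul_le_mul_of_nonneg_left h2 (hx j).le
          linarith [mul_comm (x j) (m j : ℝ)]
      _ = 1 := hcardr
  have hgm : ∀ v ∈ B, v i ≠ 0 → (1 : ℝ) / 2 ≤ gm (dt x v) := by
    intro v hv hvi
    have h1 := dt_pos hx hvi
    have h2 := hBdt v hv
    refine le_trans ?_ (gm_ge h1 h2)
    rw [div_le_div_iff₀ (by norm_num) (by positivity)]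
    linarith
  have hsub : B.filter (fun v => v i ≠ 0) ⊆ Lt a r := by
    intro v hv
    rw [mem_filter] at hv
    rw [mem_Lt]
    refine ⟨?_, hBsum v hv.1⟩
    have h1 : v i ≤ ∑ i, v i := single_le_sum (f := v) (fun _ _ => Nat.zero_le _) (mem_univ i)
    have := hv.2
    omega
  have hsum : (∑ v ∈ B, (v i : ℝ)) ≤ 2 * ∑ v ∈ Lt a r, (v i : ℝ) * gm (dt x v) := by
    calc (∑ v ∈ B, (v i : ℝ)) = ∑ v ∈ B.filter (fun v => v i ≠ 0), (v i : ℝ) := by
          rw [sum_filter_of_ne]
          intro v _ h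
          exact_mod_cast h
      _ ≤ ∑ v ∈ B.filter (fun v => v i ≠ 0), 2 * ((v i : ℝ) * gm (dt x v)) := by
          refine sum_le_sum fun v hv => ?_
          rw [mem_filter] at hv
          have h1 := hgm v hv.1 hv.2
          have h2 : (v i : ℝ) * (1 / 2) ≤ v i * gm (dt x v) :=
            mul_le_mul_of_nonneg_left h1 (Nat.cast_nonneg _)
          linarith
      _ = 2 * ∑ v ∈ B.filter (fun v => v i ≠ 0), (v i : ℝ) * gm (dt x v) := by
          rw [mul_sum]
      _ ≤ _ := by
          refine mul_le_mul_of_nonneg_left ?_ (by norm_num)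
          refine sum_le_sum_of_subset_of_nonneg hsub fun v hv _ => ?_
          obtain ⟨k, hk⟩ := exists_ne_of_mem hv
          exact mul_nonneg (Nat.cast_nonneg _) (gm_pos (dt_pos hx hk)).le
  -- the sum over the box
  have hbox : (∑ v ∈ B, (v i : ℝ)) =
      ∏ j, ∑ p ∈ range (m j + 1), (if j = i then (p : ℝ) else 1) := by
    rw [hB, prod_univ_sum]
    refine sum_congr rfl fun v _ => ?_
    rw [prod_ite_eq' univ i (fun j => (v j : ℝ))]
    simp
  have hlow : (∏ j, (y j / r)) * (y i / r / 4) ≤ ∑ v ∈ B, (v i : ℝ) := by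
    rw [hbox, ← mul_prod_erase univ _ (mem_univ i), ← mul_prod_erase univ _ (mem_univ i)]
    have h1 : y i / r * (y i / r / 4) ≤
        ∑ p ∈ range (m i + 1), (if i = i then (p : ℝ) else 1) := by
      have h2 : (∑ p ∈ range (m i + 1), (if i = i then (p : ℝ) else 1)) =
          (m i * (m i + 1) : ℝ) / 2 := by
        simp only [if_true]
        have h3 : ∀ k : ℕ, (∑ p ∈ range (k + 1), (p : ℝ)) = (k * (k + 1) : ℝ) / 2 := by
          intro k
          induction k with
          | zero => simp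
          | succ k ih =>
            rw [sum_range_succ, ih]
            push_cast
            ring
        exact h3 _
      rw [h2]
      have h4 := hm3 i
      have h5 := hm4
      have h6 : 0 ≤ y i / r := by
        have := hy1 i
        positivity
      have h7 : (y i / r) * (y i / r / 2) ≤ (m i + 1) * m i :=
        mul_le_mul h4 h5 (by positivity) (by positivity)
      linarith
    have h2 : (∏ j ∈ univ.erase i, (y j / r)) ≤
        ∏ j ∈ univ.erase i, ∑ p ∈ range (m j + 1), (if j = i then (p : ℝ) else 1) := by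
      refine prod_le_prod (fun j _ => ?_) fun j hj => ?_
      · have := hy1 j
        positivity
      · have hji : j ≠ i := (mem_erase.1 hj).1
        simp only [if_neg hji, sum_const, card_range, nsmul_eq_mul, mul_one]
        push_cast
        exact hm3 j
    have h3 : 0 ≤ ∏ j ∈ univ.erase i, (y j / r) := prod_nonneg fun j _ => by
      have := hy1 j
      positivity
    have h4 : 0 ≤ y i / r * (y i / r / 4) := by
      have := hy1 i
      positivity
    calc (y i / r * ∏ j ∈ univ.erase i, (y j / r)) * (y i / r / 4)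
        = (y i / r * (y i / r / 4)) * ∏ j ∈ univ.erase i, (y j / r) := by ring
      _ ≤ _ := mul_le_mul h1 h2 h3 (h4.trans h1)
  -- conclusion
  have hprod : (∏ j, (y j / r)) = (∏ j, y j) / (r : ℝ) ^ r := by
    rw [prod_div_distrib, prod_const, card_univ, Fintype.card_fin]
  rw [hprod] at hlow
  have hfin := hlow.trans hsum
  have hrr : (0 : ℝ) < (r : ℝ) ^ r := by positivity
  have h9 : (∏ j, y j) * y i / (4 * (r : ℝ) ^ (r + 1)) ≤
      2 * ∑ v ∈ Lt a r, (v i : ℝ) * gm (dt x v) := by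
    calc (∏ j, y j) * y i / (4 * (r : ℝ) ^ (r + 1))
        = (∏ j, y j) / (r : ℝ) ^ r * (y i / r / 4) := by
          rw [pow_succ]
          field_simp
      _ ≤ _ := hfin
  rw [div_le_iff₀ (by positivity)] at h9
  calc (∏ j, y j) * y i ≤ 2 * (∑ v ∈ Lt a r, (v i : ℝ) * gm (dt x v)) * (4 * (r : ℝ) ^ (r + 1)) := h9
    _ = _ := by ring

/-- **(NP)** the typical number of letters is at most `C max (a, ∏ max (1, l_i / a))`. -/
theorem np (r : ℕ) : ∃ C : ℝ, 1 ≤ C ∧ ∀ (a : ℕ) (x l : Fin r → ℝ), 1 ≤ a → (∀ i, 0 < x i) →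
    (∀ i, ∑ v ∈ Lt a r, (v i : ℝ) * gm (dt x v) ≤ l i) →
    ∏ i, (1 - Real.exp (-(x i / 2)))⁻¹ ≤ C * max (a : ℝ) (∏ i, max 1 (l i / a)) := by
  obtain ⟨C₁, hC₁⟩ : ∃ C₁ : ℝ, C₁ = 8 * (r : ℝ) ^ (r + 1) := ⟨_, rfl⟩
  have hC₁0 : 0 ≤ C₁ := by rw [hC₁]; positivity
  refine ⟨(3 + 2 * r) ^ r * (2 ^ r * (C₁ + 1)), ?_, fun a x l ha hx hl => ?_⟩
  · have h1 : (1 : ℝ) ≤ (3 + 2 * r) ^ r := one_le_pow₀ (by
      have : (0 : ℝ) ≤ r := Nat.cast_nonneg r
      linarith)
    have h2 : (1 : ℝ) ≤ 2 ^ r := one_le_pow₀ (by norm_num)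
    have h3 : (1 : ℝ) ≤ 2 ^ r * (C₁ + 1) := by
      calc (1 : ℝ) = 1 * 1 := by norm_num
        _ ≤ 2 ^ r * (C₁ + 1) := mul_le_mul h2 (by linarith) (by norm_num) (by linarith)
    calc (1 : ℝ) = 1 * 1 := by norm_num
      _ ≤ _ := mul_le_mul h1 h3 (by norm_num) (by linarith)
  classical
  have haR : (1 : ℝ) ≤ a := by exact_mod_cast ha
  obtain ⟨w, hw⟩ : ∃ w : Fin r → ℝ, w = fun i => if (r : ℝ) * x i ≤ 1 then 1 / x i else 1 :=
    ⟨_, rfl⟩
  obtain ⟨y, hy⟩ : ∃ y : Fin r → ℝ,
    y = fun i => if (r : ℝ) * x i ≤ 1 then min (1 / x i) a else 1 := ⟨_, rfl⟩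
  have hrR : ∀ _i : Fin r, (1 : ℝ) ≤ r := fun i => by exact_mod_cast Fin.pos i
  have hx1 : ∀ i, (r : ℝ) * x i ≤ 1 → x i ≤ 1 := by
    intro i h
    have h1 := hrR i
    have h2 : 1 * x i ≤ r * x i := mul_le_mul_of_nonneg_right h1 (hx i).le
    linarith
  have hinv1 : ∀ i, (r : ℝ) * x i ≤ 1 → 1 ≤ 1 / x i := by
    intro i h
    rw [le_div_iff₀ (hx i)]
    linarith [hx1 i h]
  -- the factors
  have hfac : ∀ i, (1 - Real.exp (-(x i / 2)))⁻¹ ≤ (3 + 2 * r) * w i := by
    intro i
    have h1 := inv_one_sub_exp_le (u := x i / 2) (by have := hx i; positivity)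
    refine h1.trans ?_
    rw [hw]
    simp only
    split_ifs with h
    · have h2 := hinv1 i h
      have h3 : 1 / (x i / 2) = 2 * (1 / x i) := by
        have := (hx i).ne'
        field_simp
      rw [h3]
      have h4 : 0 ≤ (r : ℝ) * (1 / x i) := by
        have := (hx i).le
        positivity
      linarith
    · have h2 : 1 / (x i / 2) ≤ 2 * r := by
        rw [div_le_iff₀ (by have := hx i; positivity)]
        have h5 : 1 < r * x i := not_le.1 h
        linarith
      linarith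
  have hw0 : ∀ i, 0 < w i := by
    intro i
    rw [hw]
    simp only
    split_ifs with h
    · have := hinv1 i h
      linarith
    · norm_num
  have hprod1 : ∏ i, (1 - Real.exp (-(x i / 2)))⁻¹ ≤ (3 + 2 * r) ^ r * ∏ i, w i := by
    calc ∏ i, (1 - Real.exp (-(x i / 2)))⁻¹ ≤ ∏ i, ((3 + 2 * r) * w i) := by
          refine prod_le_prod (fun i _ => ?_) fun i _ => hfac i
          rw [inv_nonneg, sub_nonneg, Real.exp_le_one_iff]
          have := hx i
          linarith
      _ = _ := by rw [prod_mul_distrib, prod_const, card_univ, Fintype.card_fin]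
  refine hprod1.trans ?_
  rw [mul_assoc]
  refine mul_le_mul_of_nonneg_left ?_ (by positivity)
  -- claim A
  have hA : ∀ i, (r : ℝ) * x i ≤ 1 → a * x i ≤ 1 → w i ≤ 2 * max 1 (l i / a) := by
    intro i h1 h2
    have h3 := (pure_ge hx h2).trans (hl i)
    rw [hw]
    simp only [if_pos h1]
    have h4 : 1 / x i ≤ 2 * (l i / a) := by
      have hxi := hx i
      rw [div_le_iff₀ (by positivity)] at h3
      rw [div_le_iff₀ hxi]
      calc (1 : ℝ) = a / a := by field_simp
        _ ≤ l i * (2 * x i) / a := by gcongr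
        _ = 2 * (l i / a) * x i := by ring
    have h5 := le_max_right 1 (l i / a)
    linarith
  have hy1 : ∀ i, 1 ≤ y i := by
    intro i
    rw [hy]
    simp only
    split_ifs with h
    · exact le_min (hinv1 i h) haR
    · exact le_rfl
  have hyI : ∀ i, y i = 1 ∨ (y i ≤ 1 / x i ∧ y i ≤ a) := by
    intro i
    rw [hy]
    simp only
    split_ifs with h
    · exact Or.inr ⟨min_le_left _ _, min_le_right _ _⟩
    · exact Or.inl rfl
  -- claim B
  have hB : ∀ i, (r : ℝ) * x i ≤ 1 → 1 < a * x i →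
      w i = y i ∧ (∏ j, y j) * y i ≤ C₁ * l i := by
    intro i h1 h2
    have h3 : 1 / x i ≤ a := by
      rw [div_le_iff₀ (hx i)]
      linarith
    have h4 : y i = 1 / x i := by
      rw [hy]
      simp only [if_pos h1]
      exact min_eq_left h3
    have h5 : w i = 1 / x i := by
      rw [hw]
      simp only [if_pos h1]
    refine ⟨h5.trans h4.symm, ?_⟩
    have h6 : (r : ℝ) ≤ y i := by
      rw [h4, le_div_iff₀ (hx i)]
      exact h1
    have h7 := box_ge hx y hy1 hyI h6 ⟨h4.le, h4.le.trans h3⟩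
    rw [hC₁]
    exact h7.trans (mul_le_mul_of_nonneg_left (hl i) (by positivity))
  have hPi1 : 1 ≤ ∏ i, max 1 (l i / a) := by
    calc (1 : ℝ) = ∏ _i : Fin r, (1 : ℝ) := by simp
      _ ≤ ∏ i, max 1 (l i / a) := prod_le_prod (fun _ _ => by norm_num) fun i _ => le_max_left _ _
  have hPi2 : ∏ i, (2 * max 1 (l i / a)) = 2 ^ r * ∏ i, max 1 (l i / a) := by
    rw [prod_mul_distrib, prod_const, card_univ, Fintype.card_fin]
  have h2r : (1 : ℝ) ≤ 2 ^ r := one_le_pow₀ (by norm_num)
  have hM : ∏ i, max 1 (l i / a) ≤ max (a : ℝ) (∏ i, max 1 (l i / a)) := le_max_right _ _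
  have hM' : (a : ℝ) ≤ max (a : ℝ) (∏ i, max 1 (l i / a)) := le_max_left _ _
  rcases le_or_gt (∏ j, y j) (C₁ * a) with hP | hP
  · -- few letters
    by_cases hJ : ∃ j, (r : ℝ) * x j ≤ 1 ∧ a * x j ≤ 1
    · obtain ⟨j, hj1, hj2⟩ := hJ
      -- w i ≤ 2 lam' i on J, w i = y i outside
      have hwy : ∀ i, ¬ ((r : ℝ) * x i ≤ 1 ∧ a * x i ≤ 1) → w i = y i := by
        intro i hi
        by_cases h1 : (r : ℝ) * x i ≤ 1
        · exact (hB i h1 (not_le.1 fun h2 => hi ⟨h1, h2⟩)).1
        · rw [hw, hy]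
          simp only [if_neg h1]
      have hyj : ∀ i, ((r : ℝ) * x i ≤ 1 ∧ a * x i ≤ 1) → y i = a := by
        intro i hi
        rw [hy]
        simp only [if_pos hi.1]
        refine min_eq_right ?_
        rw [le_div_iff₀ (hx i)]
        exact hi.2
      rw [← prod_filter_mul_prod_filter_not univ
        (fun i => (r : ℝ) * x i ≤ 1 ∧ a * x i ≤ 1) w]
      rw [← prod_filter_mul_prod_filter_not univ
        (fun i => (r : ℝ) * x i ≤ 1 ∧ a * x i ≤ 1) y] at hP
      have h1 : (a : ℝ) ≤ ∏ i ∈ univ.filter (fun i => (r : ℝ) * x i ≤ 1 ∧ a * x i ≤ 1), y i := by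
        have hmem : j ∈ univ.filter (fun i => (r : ℝ) * x i ≤ 1 ∧ a * x i ≤ 1) := by
          simp [hj1, hj2]
        rw [← mul_prod_erase _ _ hmem, hyj j ⟨hj1, hj2⟩]
        have h2 : (1 : ℝ) ≤ ∏ i ∈ (univ.filter (fun i => (r : ℝ) * x i ≤ 1 ∧ a * x i ≤ 1)).erase j,
            y i := by
          calc (1 : ℝ) = ∏ _i ∈ (univ.filter
                (fun i => (r : ℝ) * x i ≤ 1 ∧ a * x i ≤ 1)).erase j, (1 : ℝ) := by simp
            _ ≤ _ := prod_le_prod (fun _ _ => by norm_num) fun i _ => hy1 i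
        have h3 : (a : ℝ) * 1 ≤ a * _ := mul_le_mul_of_nonneg_left h2 (by linarith)
        linarith
      have h4 : ∏ i ∈ univ.filter (fun i => ¬ ((r : ℝ) * x i ≤ 1 ∧ a * x i ≤ 1)), y i ≤ C₁ := by
        have h5 : 0 ≤ ∏ i ∈ univ.filter (fun i => ¬ ((r : ℝ) * x i ≤ 1 ∧ a * x i ≤ 1)), y i :=
          prod_nonneg fun i _ => by have := hy1 i; linarith
        have h6 : (a : ℝ) * ∏ i ∈ univ.filter (fun i => ¬ ((r : ℝ) * x i ≤ 1 ∧ a * x i ≤ 1)), y i ≤
            C₁ * a := (mul_le_mul_of_nonneg_right h1 h5).trans hP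
        have h7 : 0 < (a : ℝ) := by linarith
        by_contra h8
        rw [not_le] at h8
        have h9 : (a : ℝ) * C₁ < a * ∏ i ∈ univ.filter
            (fun i => ¬ ((r : ℝ) * x i ≤ 1 ∧ a * x i ≤ 1)), y i := mul_lt_mul_of_pos_left h8 h7
        linarith
      have h10 : ∏ i ∈ univ.filter (fun i => (r : ℝ) * x i ≤ 1 ∧ a * x i ≤ 1), w i ≤
          2 ^ r * ∏ i, max 1 (l i / a) := by
        rw [← hPi2]
        calc ∏ i ∈ univ.filter (fun i => (r : ℝ) * x i ≤ 1 ∧ a * x i ≤ 1), w i
            ≤ ∏ i ∈ univ.filter (fun i => (r : ℝ) * x i ≤ 1 ∧ a * x i ≤ 1),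
              (2 * max 1 (l i / a)) := by
              refine prod_le_prod (fun i _ => (hw0 i).le) fun i hi => ?_
              rw [mem_filter] at hi
              exact hA i hi.2.1 hi.2.2
          _ ≤ (∏ i ∈ univ.filter (fun i => (r : ℝ) * x i ≤ 1 ∧ a * x i ≤ 1),
              (2 * max 1 (l i / a))) *
              ∏ i ∈ univ.filter (fun i => ¬ ((r : ℝ) * x i ≤ 1 ∧ a * x i ≤ 1)),
              (2 * max 1 (l i / a)) := by
              have hone : ∀ s : Finset (Fin r), (1 : ℝ) ≤ ∏ i ∈ s, (2 * max 1 (l i / a)) := by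
                intro s
                calc (1 : ℝ) = ∏ _i ∈ s, (1 : ℝ) := by simp
                  _ ≤ _ := prod_le_prod (fun _ _ => by norm_num) fun i _ => by
                    have := le_max_left 1 (l i / a)
                    linarith
              refine le_mul_of_one_le_right ?_ (hone _)
              have := hone (univ.filter (fun i => (r : ℝ) * x i ≤ 1 ∧ a * x i ≤ 1))
              linarith
          _ = _ := prod_filter_mul_prod_filter_not univ _ _
      have h11 : ∏ i ∈ univ.filter (fun i => ¬ ((r : ℝ) * x i ≤ 1 ∧ a * x i ≤ 1)), w i =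
          ∏ i ∈ univ.filter (fun i => ¬ ((r : ℝ) * x i ≤ 1 ∧ a * x i ≤ 1)), y i :=
        prod_congr rfl fun i hi => hwy i (mem_filter.1 hi).2
      rw [h11]
      calc _ ≤ (2 ^ r * ∏ i, max 1 (l i / a)) * C₁ := by
            refine mul_le_mul h10 h4 ?_ (by positivity)
            exact prod_nonneg fun i _ => by have := hy1 i; linarith
        _ = 2 ^ r * C₁ * ∏ i, max 1 (l i / a) := by ring
        _ ≤ 2 ^ r * (C₁ + 1) * max (a : ℝ) (∏ i, max 1 (l i / a)) := by
            refine mul_le_mul ?_ hM (by linarith) (by positivity)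
            exact mul_le_mul_of_nonneg_left (by linarith) (by linarith)
    · -- J is empty
      have h1 : ∏ i, w i = ∏ i, y i := by
        refine prod_congr rfl fun i _ => ?_
        by_cases h1 : (r : ℝ) * x i ≤ 1
        · refine (hB i h1 (not_le.1 fun h2 => hJ ⟨i, h1, h2⟩)).1
        · rw [hw, hy]
          simp only [if_neg h1]
      rw [h1]
      calc ∏ i, y i ≤ C₁ * a := hP
        _ ≤ 2 ^ r * (C₁ + 1) * max (a : ℝ) (∏ i, max 1 (l i / a)) := by
            refine mul_le_mul ?_ hM' (by linarith) (by positivity)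
            calc C₁ ≤ 1 * (C₁ + 1) := by linarith
              _ ≤ _ := mul_le_mul_of_nonneg_right h2r (by linarith)
  · -- many letters
    have hC₁y : ∀ i, w i ≤ 2 * max 1 (l i / a) := by
      intro i
      have hmx := le_max_left 1 (l i / a)
      by_cases h1 : (r : ℝ) * x i ≤ 1
      · by_cases h2 : a * x i ≤ 1
        · exact hA i h1 h2
        · obtain ⟨h3, h4⟩ := hB i h1 (not_le.1 h2)
          rw [h3]
          have h5 : (C₁ * a) * y i ≤ C₁ * l i := by
            refine le_trans ?_ h4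
            exact mul_le_mul_of_nonneg_right hP.le (by have := hy1 i; linarith)
          have hC₁p : 0 < C₁ := by
            have := hrR i
            rw [hC₁]
            positivity
          have h6 : (a : ℝ) * y i ≤ l i := by
            refine le_of_mul_le_mul_left ?_ hC₁p
            rw [← mul_assoc]
            exact h5
          have h7 : y i ≤ l i / a := by
            rw [le_div_iff₀ (by linarith)]
            linarith
          have h8 := le_max_right 1 (l i / a)
          linarith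
      · rw [hw]
        simp only [if_neg h1]
        linarith
    calc ∏ i, w i ≤ ∏ i, (2 * max 1 (l i / a)) :=
          prod_le_prod (fun i _ => (hw0 i).le) fun i _ => hC₁y i
      _ = 2 ^ r * ∏ i, max 1 (l i / a) := hPi2
      _ ≤ 2 ^ r * (C₁ + 1) * max (a : ℝ) (∏ i, max 1 (l i / a)) := by
          refine mul_le_mul ?_ hM (by linarith) (by positivity)
          calc (2 : ℝ) ^ r = 2 ^ r * 1 := by ring
            _ ≤ _ := mul_le_mul_of_nonneg_left (by linarith) (by linarith)

end Vale.Agent.P181.H921.Z
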