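import Vale.Agent.P181.H463.GtDef

set_option autoImplicit false

/-! # Removing a column from a shape: `gt n N (lam + 1^l) ≤ C(N, l) * gt n N lam`. -/

namespace Vale.Agent.P181.H921

open Finset Vale.Agent.P181.H463

/-- Add one column of length `l`. -/
def addcol {n : ℕ} (l : ℕ) (lam : Fin n → ℕ) : Fin n → ℕ :=
  fun i => lam i + if (i : ℕ) < l then 1 else 0

lemma addcol_zero {n : ℕ} (lam : Fin n → ℕ) : addcol 0 lam = lam := by
  funext i
  simp [addcol]

lemma addcol_inj {n : ℕ} (l : ℕ) : Function.Injective (addcol (n := n) l) := by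
  intro f g h
  funext i
  have := congrFun h i
  simp only [addcol] at this
  omega

lemma addcol_antitone {n : ℕ} (l : ℕ) {lam : Fin n → ℕ} (h : Antitone lam) :
    Antitone (addcol l lam) := by
  intro i j hij
  have h1 := h hij
  have h2 : (i : ℕ) ≤ j := hij
  simp only [addcol]
  split_ifs <;> omega

lemma nxt_le {n : ℕ} {lam : Fin n → ℕ} (h : Antitone lam) (i : Fin n) : nxt lam i ≤ lam i := by
  unfold nxt
  split_ifs with h1
  · exact h (by rw [Fin.le_def]; simp)
  · exact Nat.zero_le _

lemma le_nxt {n : ℕ} {lam : Fin n → ℕ} (h : Antitone lam) {i j : Fin n} (hij : i < j) :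
    lam j ≤ nxt lam i := by
  have h1 : (i : ℕ) < j := hij
  have h2 : (i : ℕ) + 1 < n := by omega
  unfold nxt
  rw [dif_pos h2]
  exact h (by rw [Fin.le_def]; simp only; omega)

lemma mem_strips {n : ℕ} {lam mu : Fin n → ℕ} :
    mu ∈ strips lam ↔ ∀ i, nxt lam i ≤ mu i ∧ mu i ≤ lam i := by
  simp [strips, Fintype.mem_piFinset]

lemma strips_antitone {n : ℕ} {lam mu : Fin n → ℕ} (h : Antitone lam) (hmu : mu ∈ strips lam) :
    Antitone mu := by
  rw [mem_strips] at hmu
  intro i j hij
  rcases eq_or_lt_of_le hij with rfl | hlt
  · exact le_rfl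
  · exact ((hmu j).2.trans (le_nxt h hlt)).trans (hmu i).1

lemma nxt_addcol {n : ℕ} (l : ℕ) (lam : Fin n → ℕ) (i : Fin n) :
    nxt (addcol l lam) i = if (i : ℕ) + 1 < n ∧ (i : ℕ) + 1 < l then nxt lam i + 1
      else nxt lam i := by
  unfold nxt addcol
  by_cases h1 : (i : ℕ) + 1 < n
  · by_cases h2 : (i : ℕ) + 1 < l
    · simp [h1, h2]
    · simp [h1, h2]
  · simp [h1]

lemma strips_addcol {n l : ℕ} (hl : l + 1 ≤ n) {lam : Fin n → ℕ} (h : Antitone lam) :
    strips (addcol (l + 1) lam) ⊆
      (strips lam).image (addcol (l + 1)) ∪ (strips lam).image (addcol l) := by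
  intro mu hmu
  rw [mem_strips] at hmu
  rw [mem_union, mem_image, mem_image]
  set i0 : Fin n := ⟨l, by omega⟩ with hi0
  have key : ∀ i : Fin n, (i : ℕ) < l → nxt lam i + 1 ≤ mu i ∧ mu i ≤ lam i + 1 := by
    intro i hi
    have h1 := hmu i
    rw [nxt_addcol, if_pos (by constructor <;> omega)] at h1
    simp only [addcol] at h1
    rw [if_pos (by omega)] at h1
    exact h1
  have key2 : ∀ i : Fin n, l < (i : ℕ) → nxt lam i ≤ mu i ∧ mu i ≤ lam i := by
    intro i hi
    have h1 := hmu i
    rw [nxt_addcol, if_neg (by omega)] at h1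
    simp only [addcol] at h1
    rw [if_neg (by omega)] at h1
    simpa using h1
  have key0 : nxt lam i0 ≤ mu i0 ∧ mu i0 ≤ lam i0 + 1 := by
    have h1 := hmu i0
    rw [nxt_addcol, if_neg (by simp [hi0])] at h1
    simp only [addcol] at h1
    rw [if_pos (by simp [hi0])] at h1
    exact h1
  have hval : (i0 : ℕ) = l := rfl
  by_cases hc : nxt lam i0 + 1 ≤ mu i0
  · left
    refine ⟨fun i => mu i - if (i : ℕ) < l + 1 then 1 else 0, ?_, ?_⟩
    · rw [mem_strips]
      intro i
      rcases lt_trichotomy (i : ℕ) l with h1 | h1 | h1
      · have := key i h1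
        simp only [if_pos (show (i : ℕ) < l + 1 by omega)]
        omega
      · have : i = i0 := Fin.ext h1
        subst this
        simp only [if_pos (show (i0 : ℕ) < l + 1 by omega)]
        omega
      · have := key2 i h1
        simp only [if_neg (show ¬ (i : ℕ) < l + 1 by omega)]
        omega
    · funext i
      simp only [addcol]
      rcases lt_trichotomy (i : ℕ) l with h1 | h1 | h1
      · have := key i h1
        simp only [if_pos (show (i : ℕ) < l + 1 by omega)]
        omega
      · have : i = i0 := Fin.ext h1
        subst this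
        simp only [if_pos (show (i0 : ℕ) < l + 1 by omega)]
        omega
      · simp only [if_neg (show ¬ (i : ℕ) < l + 1 by omega)]
        omega
  · right
    refine ⟨fun i => mu i - if (i : ℕ) < l then 1 else 0, ?_, ?_⟩
    · rw [mem_strips]
      intro i
      rcases lt_trichotomy (i : ℕ) l with h1 | h1 | h1
      · have := key i h1
        simp only [if_pos h1]
        omega
      · have : i = i0 := Fin.ext h1
        subst this
        have h2 := nxt_le h i0
        simp only [if_neg (show ¬ (i0 : ℕ) < l by omega)]
        omega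
      · have := key2 i h1
        simp only [if_neg (show ¬ (i : ℕ) < l by omega)]
        omega
    · funext i
      simp only [addcol]
      by_cases h1 : (i : ℕ) < l
      · have := key i h1
        simp only [if_pos h1]
        omega
      · simp only [if_neg h1]
        omega

/-- **Column removal**: `gt n N (lam + 1^l) ≤ C(N, l) * gt n N lam`. -/
theorem gt_addcol_le {n : ℕ} (N : ℕ) : ∀ {l : ℕ} {lam : Fin n → ℕ}, l ≤ n → Antitone lam →
    gt n N (addcol l lam) ≤ N.choose l * gt n N lam := by
  induction N with
  | zero =>
    intro l lam hl _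
    rcases Nat.eq_zero_or_pos l with rfl | hpos
    · rw [addcol_zero]; simp
    · have : addcol l lam ≠ 0 := by
        intro h0
        have := congrFun h0 ⟨0, by omega⟩
        simp [addcol, hpos] at this
      simp [gt, this]
  | succ N ih =>
    intro l lam hl hlam
    rcases l with _ | l
    · rw [addcol_zero]; simp
    · rw [gt, gt]
      calc ∑ mu ∈ strips (addcol (l + 1) lam), gt n N mu
          ≤ ∑ mu ∈ (strips lam).image (addcol (l + 1)) ∪ (strips lam).image (addcol l),
              gt n N mu := sum_le_sum_of_subset (strips_addcol hl hlam)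
        _ ≤ ∑ mu ∈ (strips lam).image (addcol (l + 1)), gt n N mu
              + ∑ mu ∈ (strips lam).image (addcol l), gt n N mu := by
            rw [← sum_union_inter]
            exact Nat.le_add_right _ _
        _ = ∑ mu ∈ strips lam, gt n N (addcol (l + 1) mu)
              + ∑ mu ∈ strips lam, gt n N (addcol l mu) := by
            rw [sum_image (fun x _ y _ h => addcol_inj _ h),
              sum_image (fun x _ y _ h => addcol_inj _ h)]
        _ ≤ ∑ mu ∈ strips lam, N.choose (l + 1) * gt n N mu
              + ∑ mu ∈ strips lam, N.choose l * gt n N mu := by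
            gcongr with mu hmu mu hmu
            · exact ih hl (strips_antitone hlam hmu)
            · exact ih (by omega) (strips_antitone hlam hmu)
        _ = (N + 1).choose (l + 1) * ∑ mu ∈ strips lam, gt n N mu := by
            rw [← mul_sum, ← mul_sum, Nat.choose_succ_succ, Nat.add_mul]
            exact Nat.add_comm _ _

/-- Removing a finite family of columns of lengths `len c`. -/
theorem gt_addcols_le {n : ℕ} (N : ℕ) {C : Type*} (s : Finset C) (len : C → ℕ)
    (hlen : ∀ c ∈ s, len c ≤ n) {eta : Fin n → ℕ} (heta : Antitone eta) :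
    gt n N (fun i => eta i + (s.filter (fun c => (i : ℕ) < len c)).card)
      ≤ (∏ c ∈ s, N.choose (len c)) * gt n N eta := by
  classical
  induction s using Finset.induction_on with
  | empty => simp
  | insert c s hc ih =>
    have h1 : (fun i : Fin n => eta i + ((insert c s).filter (fun c => (i : ℕ) < len c)).card)
        = addcol (len c)
          (fun i => eta i + (s.filter (fun c => (i : ℕ) < len c)).card) := by
      funext i
      simp only [addcol, filter_insert]
      split_ifs with h
      · rw [card_insert_of_notMem (by simp [hc])]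
        omega
      · omega
    have hanti : Antitone (fun i : Fin n => eta i
        + (s.filter (fun c => (i : ℕ) < len c)).card) := by
      intro i j hij
      have h2 : (i : ℕ) ≤ j := hij
      refine Nat.add_le_add (heta hij) (card_le_card ?_)
      intro x hx
      rw [mem_filter] at hx ⊢
      exact ⟨hx.1, by omega⟩
    rw [h1, prod_insert hc, mul_assoc]
    exact (gt_addcol_le N (hlen c (mem_insert_self c s)) hanti).trans
      (Nat.mul_le_mul_left _ (ih fun x hx => hlen x (mem_insert_of_mem hx)))

end Vale.Agent.P181.H921
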