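import Vale.Agent.P181.H261.Sup
import Vale.Agent.P181.H921.Num

set_option autoImplicit false

/-! # P181, S8: the numbers `NumStmt8` -/

namespace Vale.Agent.P181.H921

open Filter Real Vale.Agent.P181.H261

lemma ev_logn (C δ : ℝ) (n : ℕ) (hn : n ≠ 0) (hδ : 0 < δ) :
    ∀ᶠ a : ℕ in atTop, C * (Real.log a) ^ n ≤ (a : ℝ) ^ δ := by
  have hn' : (0 : ℝ) < n := by exact_mod_cast Nat.pos_of_ne_zero hn
  have h1 : (fun x : ℝ => (Real.log x) ^ n) =o[atTop] fun x => x ^ δ := by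
    have h2 : (fun x : ℝ => Real.log x) =o[atTop] fun x => x ^ (δ / n) :=
      isLittleO_log_rpow_atTop (by positivity)
    have h3 := h2.pow (n := n) (Nat.pos_of_ne_zero hn)
    refine h3.congr' (by filter_upwards with x; rfl) ?_
    filter_upwards [eventually_ge_atTop 0] with x hx
    rw [← Real.rpow_natCast (x ^ (δ / n)) n, ← Real.rpow_mul hx]
    congr 1
    field_simp
  have h4 := (h1.const_mul_left C).bound (show (0 : ℝ) < 1 by norm_num)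
  have h5 := tendsto_natCast_atTop_atTop (R := ℝ) |>.eventually h4
  filter_upwards [h5] with a ha
  rw [one_mul] at ha
  refine (le_abs_self _).trans (ha.trans ?_)
  rw [Real.norm_eq_abs, abs_of_nonneg (by positivity)]

/-- `size b ≤ 4 log a` for `b ≤ a ^ 2`. -/
lemma size_le {a b : ℕ} (ha : 3 ≤ a) (hb : 1 ≤ b) (hb2 : b ≤ a ^ 2) :
    ((Nat.size b : ℕ) : ℝ) ≤ 4 * Real.log a := by
  have ha' : (3 : ℝ) ≤ a := by exact_mod_cast ha
  have ha0 : (0 : ℝ) < a := by linarith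
  have hl1 : 1 ≤ Real.log a := by
    rw [Real.le_log_iff_exp_le ha0]
    have := Real.exp_one_lt_d9
    linarith
  obtain ⟨s, hs⟩ : ∃ s, Nat.size b = s + 1 :=
    Nat.exists_eq_succ_of_ne_zero (Nat.pos_iff_ne_zero.1 (Nat.size_pos.2 (by omega)))
  have h1 : 2 ^ s ≤ b := by
    rw [← Nat.lt_size, hs]
    exact Nat.lt_succ_self s
  have h2 : ((2 : ℝ)) ^ s ≤ (a : ℝ) ^ 2 := by exact_mod_cast h1.trans hb2
  have h3 : (s : ℝ) * Real.log 2 ≤ 2 * Real.log a := by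
    have h4 := Real.log_le_log (by positivity) h2
    rw [Real.log_pow, Real.log_pow] at h4
    exact_mod_cast h4
  have h5 := Real.log_two_gt_d9
  rw [hs]
  push_cast
  have h6 : (s : ℝ) * (2 / 3) ≤ (s : ℝ) * Real.log 2 := by
    gcongr
    linarith
  linarith

/-- The parameters: bounds for `l`, `q`, `Mc`, `M`. -/
lemma par8 {a b L0 C0 K l q Mc M : ℕ} (ha : 3 ≤ a) (hab : 2 * a ≤ b) (hbL : b ≤ L0)
    (hb2 : b ≤ a ^ 2) (h8 : 8 * L0 ≤ a * b)
    (hl : l = a * b / (2 * L0)) (hq : q = l / 4)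
    (hMc : Mc = C0 * (Nat.size b) ^ 32 * (((b + 1) / 2) / q + 1) ^ 4)
    (hM : M = K * (Mc + 1) * (b / l + 1)) :
    4 ≤ l ∧ l ≤ a ∧ (M : ℝ) ≤ (K * (C0 + 1) * 4 ^ 32 * 33 ^ 4 * 5) * Real.log a ^ 32 *
      ((L0 : ℝ) / a) ^ 5 := by
  have ha' : (3 : ℝ) ≤ a := by exact_mod_cast ha
  have ha0 : (0 : ℝ) < a := by linarith
  have hab' : 2 * (a : ℝ) ≤ b := by exact_mod_cast hab
  have hbL' : (b : ℝ) ≤ L0 := by exact_mod_cast hbL
  have hb0 : (0 : ℝ) < b := by linarith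
  have hL0 : (0 : ℝ) < L0 := by linarith
  have hLpos : 0 < L0 := by exact_mod_cast hL0
  have hl1 : 1 ≤ Real.log a := by
    rw [Real.le_log_iff_exp_le ha0]
    have := Real.exp_one_lt_d9
    linarith
  have hl4 : 4 ≤ l := by
    rw [hl, Nat.le_div_iff_mul_le (by omega)]
    omega
  have hla : l ≤ a := by
    rw [hl]
    apply Nat.div_le_of_le_mul
    nlinarith
  have hl0 : (0 : ℝ) < l := by
    have : 0 < l := by omega
    exact_mod_cast this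
  -- `a b ≤ 4 L0 l`
  have h1 : (a : ℝ) * b ≤ 4 * L0 * l := by
    have h2 : a * b < 2 * L0 * (l + 1) := by
      have h3 := Nat.lt_div_mul_add (a := a * b) (b := 2 * L0) (by omega)
      rw [← hl] at h3
      calc a * b < l * (2 * L0) + 2 * L0 := h3
        _ = _ := by ring
    have h4 : 2 * L0 * (l + 1) ≤ 4 * L0 * l := by nlinarith
    exact_mod_cast h2.le.trans h4
  have hrho : 1 ≤ (L0 : ℝ) / a := by
    rw [le_div_iff₀ ha0]
    linarith
  -- `b / l + 1`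
  have h5 : ((b / l + 1 : ℕ) : ℝ) ≤ 5 * (L0 / a) := by
    have h6 : ((b / l : ℕ) : ℝ) ≤ b / l := Nat.cast_div_le
    have h7 : (b : ℝ) / l ≤ 4 * (L0 / a) := by
      rw [div_le_iff₀ hl0]
      have h8' : (a : ℝ) * b / a ≤ 4 * L0 * l / a := by gcongr
      rw [mul_div_cancel_left₀ _ ha0.ne'] at h8'
      calc (b : ℝ) ≤ 4 * L0 * l / a := h8'
        _ = _ := by ring
    push_cast
    linarith
  -- `b / q + 1`
  have hq1 : 1 ≤ q := by omega
  have hq0 : (0 : ℝ) < q := by exact_mod_cast hq1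
  have hlq : (l : ℝ) ≤ 8 * q := by
    have : l ≤ 8 * q := by omega
    exact_mod_cast this
  have h9 : (((b + 1) / 2 / q + 1 : ℕ) : ℝ) ≤ 33 * (L0 / a) := by
    have h6 : (((b + 1) / 2 / q : ℕ) : ℝ) ≤ b / q := by
      have h7 : (b + 1) / 2 / q ≤ b / q := Nat.div_le_div_right (by omega)
      calc (((b + 1) / 2 / q : ℕ) : ℝ) ≤ ((b / q : ℕ) : ℝ) := by exact_mod_cast h7
        _ ≤ b / q := Nat.cast_div_le
    have h7 : (b : ℝ) / q ≤ 32 * (L0 / a) := by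
      rw [div_le_iff₀ hq0]
      have h8' : (a : ℝ) * b / a ≤ 4 * L0 * (8 * q) / a :=
        div_le_div_of_nonneg_right (h1.trans (by gcongr)) ha0.le
      rw [mul_div_cancel_left₀ _ ha0.ne'] at h8'
      calc (b : ℝ) ≤ 4 * L0 * (8 * q) / a := h8'
        _ = _ := by ring
    push_cast at h6 ⊢
    linarith
  have hsz := size_le ha (by omega : 1 ≤ b) hb2
  have h10 : ((Mc + 1 : ℕ) : ℝ) ≤ (C0 + 1) * (4 * Real.log a) ^ 32 * (33 * (L0 / a)) ^ 4 := by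
    have h11 : (Mc : ℝ) ≤ C0 * (4 * Real.log a) ^ 32 * (33 * (L0 / a)) ^ 4 := by
      rw [hMc]
      rw [Nat.cast_mul, Nat.cast_mul, Nat.cast_pow, Nat.cast_pow]
      gcongr
    have h12 : (1 : ℝ) ≤ (4 * Real.log a) ^ 32 * (33 * (L0 / a)) ^ 4 := by
      have h13 : (1 : ℝ) ≤ (4 * Real.log a) ^ 32 := one_le_pow₀ (by linarith)
      have h14 : (1 : ℝ) ≤ (33 * ((L0 : ℝ) / a)) ^ 4 := one_le_pow₀ (by linarith)
      calc (1 : ℝ) = 1 * 1 := by ring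
        _ ≤ _ := by gcongr
    push_cast
    calc (Mc : ℝ) + 1 ≤ C0 * (4 * Real.log a) ^ 32 * (33 * (L0 / a)) ^ 4 +
          (4 * Real.log a) ^ 32 * (33 * (L0 / a)) ^ 4 := by linarith
      _ = _ := by ring
  refine ⟨hl4, hla, ?_⟩
  calc (M : ℝ) = K * ((Mc + 1 : ℕ) : ℝ) * ((b / l + 1 : ℕ) : ℝ) := by
        rw [hM, Nat.cast_mul, Nat.cast_mul]
    _ ≤ K * ((C0 + 1) * (4 * Real.log a) ^ 32 * (33 * (L0 / a)) ^ 4) * (5 * (L0 / a)) := by
        gcongr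
    _ = _ := by ring

/-- The integer inequality. -/
lemma int8 {a b K l Mc M : ℕ} (hl : 1 ≤ l) (hla : l ≤ a) (hab : 2 * a ≤ b)
    (hM : M = K * (Mc + 1) * (b / l + 1)) (hK : 2 ≤ K)
    (hK2 : 2 * (b / 2) ≤ (K - 2) * (b / 2 - a)) :
    Mc ≤ M ∧ (b / 2) * (2 * Mc + 1) ≤ ((M - Mc) * l / (b / 2) - 2 * Mc) * (b / 2 - a) := by
  have hMc : Mc ≤ M := by
    rw [hM]
    calc Mc ≤ 1 * (Mc + 1) * 1 := by omega
      _ ≤ K * (Mc + 1) * (b / l + 1) :=
        Nat.mul_le_mul (Nat.mul_le_mul_right _ (by omega)) (Nat.le_add_left 1 _)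
  refine ⟨hMc, ?_⟩
  have h1 : b < (b / l + 1) * l := by
    have := Nat.lt_div_mul_add (a := b) (b := l) (by omega)
    calc b < b / l * l + l := this
      _ = _ := by ring
  have h2 : K * (Mc + 1) * b ≤ M * l := by
    calc K * (Mc + 1) * b ≤ K * (Mc + 1) * ((b / l + 1) * l) := by gcongr
      _ = M * l := by rw [hM]; ring
  have h3 : K * (Mc + 1) * (b / 2) ≤ (M - Mc) * l := by
    have h4 : Mc * l ≤ (Mc + 1) * (b / 2) := by
      apply Nat.mul_le_mul (by omega) (by omega)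
    have h5 : K * (Mc + 1) * (b / 2) + (Mc + 1) * (b / 2) ≤ K * (Mc + 1) * b := by
      have h6 : 2 * (b / 2) ≤ b := by omega
      have h7 : K * (Mc + 1) * (2 * (b / 2)) ≤ K * (Mc + 1) * b := by gcongr
      have h8 : 1 * ((Mc + 1) * (b / 2)) ≤ K * ((Mc + 1) * (b / 2)) := by gcongr; omega
      have h9 : K * (Mc + 1) * (2 * (b / 2)) =
        K * (Mc + 1) * (b / 2) + K * ((Mc + 1) * (b / 2)) := by ring
      omega
    have h6 : (M - Mc) * l = M * l - Mc * l := Nat.sub_mul _ _ _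
    omega
  have h4 : K * (Mc + 1) ≤ (M - Mc) * l / (b / 2) := by
    rw [Nat.le_div_iff_mul_le (by omega)]
    exact h3
  have h5 : (K - 2) * (Mc + 1) ≤ (M - Mc) * l / (b / 2) - 2 * Mc := by
    have h6 : (K - 2) * (Mc + 1) = K * (Mc + 1) - 2 * (Mc + 1) := Nat.sub_mul _ _ _
    omega
  calc (b / 2) * (2 * Mc + 1) ≤ (b / 2) * (2 * (Mc + 1)) := by gcongr; omega
    _ = (2 * (b / 2)) * (Mc + 1) := by ring
    _ ≤ ((K - 2) * (b / 2 - a)) * (Mc + 1) := by gcongr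
    _ = ((K - 2) * (Mc + 1)) * (b / 2 - a) := by ring
    _ ≤ _ := by gcongr

/-- The exponential inequality. -/
lemma exp8 {a b L0 M m S : ℕ} {e1 : ℝ} (ha : 3 ≤ a) (hab : 2 * a ≤ b) (hbL : b ≤ L0)
    (he1 : 0 < e1) (he2 : e1 ≤ 1 / 4) (hba : e1 * b ≤ ((b / 2 - a : ℕ) : ℝ))
    (h12 : 12 * Real.log a * L0 ≤ e1 * (a * b))
    (hMb : (M : ℝ) * Real.log a * L0 ≤ (e1 / 4) * b ^ 2)
    (hS : S ≤ M * a) (hm : m + S = a * b) :
    (a : ℝ) ^ S * ((m + b / 2 - 1).choose (b / 2 - 1) : ℝ) ≤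
      Real.exp (((b / 2 - a : ℕ) : ℝ) * (m : ℝ) / ((b / 2 + L0 : ℕ) : ℝ)) := by
  have ha' : (3 : ℝ) ≤ a := by exact_mod_cast ha
  have ha0 : (0 : ℝ) < a := by linarith
  have hab' : 2 * (a : ℝ) ≤ b := by exact_mod_cast hab
  have hbL' : (b : ℝ) ≤ L0 := by exact_mod_cast hbL
  have hb0 : (0 : ℝ) < b := by linarith
  have hL0 : (0 : ℝ) < L0 := by linarith
  have hl1 : 1 ≤ Real.log a := by
    rw [Real.le_log_iff_exp_le ha0]
    have := Real.exp_one_lt_d9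
    linarith
  have q1 : (a : ℝ) ^ S = Real.exp (S * Real.log a) := by
    rw [mul_comm, Real.exp_mul, Real.exp_log ha0, Real.rpow_natCast]
  have q2 := choose_le_exp (a := a) (b := b) (m := m) (N := b / 2) ha (by omega) (by omega)
    (by omega)
  -- `M ≤ b / 4`
  have hM4 : 4 * (M : ℝ) ≤ b := by
    have h1 : (M : ℝ) * b ≤ (M : ℝ) * Real.log a * L0 := by
      calc (M : ℝ) * b = M * 1 * b := by ring
        _ ≤ _ := by gcongr
    have h2 : (4 * (M : ℝ)) * b ≤ b * b := by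
      calc (4 * (M : ℝ)) * b = 4 * (M * b) := by ring
        _ ≤ 4 * ((e1 / 4) * b ^ 2) := by linarith
        _ = e1 * (b * b) := by ring
        _ ≤ 1 * (b * b) := by gcongr; linarith
        _ = b * b := one_mul _
    exact le_of_mul_le_mul_right h2 hb0
  have hS' : (S : ℝ) ≤ M * a := by exact_mod_cast hS
  have hm' : (m : ℝ) + S = a * b := by exact_mod_cast hm
  have hm34 : (3 / 4) * ((a : ℝ) * b) ≤ m := by
    have h1 : 4 * ((M : ℝ) * a) ≤ b * a := by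
      calc 4 * ((M : ℝ) * a) = (4 * M) * a := by ring
        _ ≤ b * a := by gcongr
    linarith
  have hden : (((b / 2 + L0 : ℕ) : ℝ)) ≤ (3 / 2) * L0 := by
    have h1 : ((b / 2 : ℕ) : ℝ) ≤ b / 2 := Nat.cast_div_le
    push_cast at h1 ⊢
    linarith
  have hden0 : (0 : ℝ) < ((b / 2 + L0 : ℕ) : ℝ) := by
    push_cast
    positivity
  have hgain : e1 / 2 * (a * b ^ 2 / L0) ≤
      ((b / 2 - a : ℕ) : ℝ) * (m : ℝ) / ((b / 2 + L0 : ℕ) : ℝ) := by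
    rw [le_div_iff₀ hden0]
    calc e1 / 2 * (a * b ^ 2 / L0) * ((b / 2 + L0 : ℕ) : ℝ)
        ≤ e1 / 2 * (a * b ^ 2 / L0) * ((3 / 2) * L0) := by gcongr
      _ = (e1 * b) * ((3 / 4) * (a * b)) := by
        field_simp
        ring
      _ ≤ _ := by gcongr
  have c1 : (S : ℝ) * Real.log a ≤ e1 / 4 * (a * b ^ 2 / L0) := by
    rw [← mul_div_assoc, le_div_iff₀ hL0]
    calc (S : ℝ) * Real.log a * L0 ≤ (M * a) * Real.log a * L0 := by gcongr
      _ = a * (M * Real.log a * L0) := by ring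
      _ ≤ a * ((e1 / 4) * b ^ 2) := by gcongr
      _ = _ := by ring
  have c2 : 3 * Real.log a * b ≤ e1 / 4 * (a * b ^ 2 / L0) := by
    rw [← mul_div_assoc, le_div_iff₀ hL0]
    calc 3 * Real.log a * b * L0 = (1 / 4) * (12 * Real.log a * L0) * b := by ring
      _ ≤ (1 / 4) * (e1 * (a * b)) * b := by gcongr
      _ = _ := by ring
  calc _ ≤ Real.exp (S * Real.log a) * Real.exp (3 * Real.log a * b) := by
        rw [q1]
        gcongr
    _ = Real.exp (S * Real.log a + 3 * Real.log a * b) := by rw [Real.exp_add]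
    _ ≤ _ := by
        apply Real.exp_le_exp.2
        linarith

/-- The choice of the numbers. -/
lemma core8 {a b L0 C0 K : ℕ} {e1 z : ℝ} (ha : 3 ≤ a) (hab : 2 * a ≤ b) (hbL : b ≤ L0)
    (he1 : 0 < e1) (he2 : e1 ≤ 1 / 4) (hba : e1 * b ≤ ((b / 2 - a : ℕ) : ℝ))
    (hK : 2 ≤ K) (hKe : 1 ≤ ((K - 2 : ℕ) : ℝ) * e1)
    (hz0 : 0 < z) (hs1 : (L0 : ℝ) ^ 6 * z ≤ a ^ 5 * b ^ 2)
    (hz1 : (K * (C0 + 1) * 4 ^ 32 * 33 ^ 4 * 5) * Real.log a ^ 33 ≤ (e1 / 4) * z)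
    (hz2 : (12 / e1) ^ 6 * Real.log a ^ 6 ≤ z) :
    ∃ l q M Mc : ℕ, Mc = C0 * (Nat.size b) ^ 32 * (((b + 1) / 2) / q + 1) ^ 4 ∧
      1 ≤ q ∧ 4 * q ≤ l ∧ l ≤ a ∧ a ≤ b / 2 ∧ l * L0 + M * a ≤ a * b ∧ Mc ≤ M ∧ 4 * M ≤ b ∧
      (b / 2) * (2 * Mc + 1) ≤ ((M - Mc) * l / (b / 2) - 2 * Mc) * (b / 2 - a) ∧
      ∀ m S : ℕ, S ≤ M * a → m + S = a * b →
        (a : ℝ) ^ S * ((m + b / 2 - 1).choose (b / 2 - 1) : ℝ) ≤
          Real.exp (((b / 2 - a : ℕ) : ℝ) * (m : ℝ) / ((b / 2 + L0 : ℕ) : ℝ)) := by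
  have ha' : (3 : ℝ) ≤ a := by exact_mod_cast ha
  have ha0 : (0 : ℝ) < a := by linarith
  have hab' : 2 * (a : ℝ) ≤ b := by exact_mod_cast hab
  have hbL' : (b : ℝ) ≤ L0 := by exact_mod_cast hbL
  have hb0 : (0 : ℝ) < b := by linarith
  have hL0 : (0 : ℝ) < L0 := by linarith
  have hl1 : 1 ≤ Real.log a := by
    rw [Real.le_log_iff_exp_le ha0]
    have := Real.exp_one_lt_d9
    linarith
  have h12e : 48 ≤ 12 / e1 := by
    rw [le_div_iff₀ he1]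
    linarith
  have hz1' : 1 ≤ z := by
    refine le_trans ?_ hz2
    calc (1 : ℝ) = 1 * 1 := by ring
      _ ≤ _ := by
        gcongr
        · exact one_le_pow₀ (by linarith)
        · exact one_le_pow₀ hl1
  -- `12 log a L0 ≤ e1 a b`
  have h12 : 12 * Real.log a * L0 ≤ e1 * (a * b) := by
    have h1 : (12 / e1 * Real.log a * L0) ^ 6 ≤ ((a : ℝ) * b) ^ 6 := by
      calc (12 / e1 * Real.log a * L0) ^ 6 = ((12 / e1) ^ 6 * Real.log a ^ 6) * (L0 : ℝ) ^ 6 := by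
            ring
        _ ≤ z * (L0 : ℝ) ^ 6 := by gcongr
        _ = (L0 : ℝ) ^ 6 * z := by ring
        _ ≤ a ^ 5 * b ^ 2 := hs1
        _ = (a : ℝ) ^ 5 * b ^ 2 * 1 := by ring
        _ ≤ (a : ℝ) ^ 5 * b ^ 2 * (a * b ^ 4) := by
          gcongr
          have h2 : (1 : ℝ) ≤ (b : ℝ) ^ 4 := one_le_pow₀ (by linarith)
          calc (1 : ℝ) = 1 * 1 := by ring
            _ ≤ _ := by
              gcongr
              linarith
        _ = _ := by ring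
    have h2 : 12 / e1 * Real.log a * L0 ≤ (a : ℝ) * b :=
      le_of_pow_le_pow_left₀ (by norm_num) (by positivity) h1
    have h3 : e1 * (12 / e1 * Real.log a * L0) ≤ e1 * ((a : ℝ) * b) := by gcongr
    have h4 : e1 * (12 / e1 * Real.log a * L0) = 12 * Real.log a * L0 := by
      field_simp
    linarith
  have h8 : 8 * L0 ≤ a * b := by
    have h1 : 8 * (L0 : ℝ) ≤ a * b := by
      have h2 : 12 * 1 * (L0 : ℝ) ≤ 12 * Real.log a * L0 := by gcongr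
      have h3 : e1 * ((a : ℝ) * b) ≤ 1 * ((a : ℝ) * b) := by gcongr; linarith
      linarith
    exact_mod_cast h1
  -- `b ≤ a ^ 2`
  have hb2 : b ≤ a ^ 2 := by
    have h1 : ((b : ℝ)) ^ 6 ≤ a ^ 5 * b ^ 2 := by
      calc ((b : ℝ)) ^ 6 = b ^ 6 * 1 := by ring
        _ ≤ (L0 : ℝ) ^ 6 * z := by gcongr
        _ ≤ _ := hs1
    have h2 : (b : ℝ) ^ 2 * (b : ℝ) ^ 4 ≤ (b : ℝ) ^ 2 * ((a : ℝ) ^ 2) ^ 4 := by
      calc (b : ℝ) ^ 2 * (b : ℝ) ^ 4 = (b : ℝ) ^ 6 := by ring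
        _ ≤ (a : ℝ) ^ 5 * (b : ℝ) ^ 2 := h1
        _ = (b : ℝ) ^ 2 * (a : ℝ) ^ 5 := by ring
        _ ≤ (b : ℝ) ^ 2 * (a : ℝ) ^ 8 := by
          gcongr
          · linarith
          · norm_num
        _ = _ := by ring
    have h3 : (b : ℝ) ^ 4 ≤ ((a : ℝ) ^ 2) ^ 4 := le_of_mul_le_mul_left h2 (by positivity)
    have h4 : (b : ℝ) ≤ (a : ℝ) ^ 2 := le_of_pow_le_pow_left₀ (by norm_num) (by positivity) h3
    exact_mod_cast h4
  set l : ℕ := a * b / (2 * L0) with hl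
  set q : ℕ := l / 4 with hq
  set Mc : ℕ := C0 * (Nat.size b) ^ 32 * (((b + 1) / 2) / q + 1) ^ 4 with hMc
  set M : ℕ := K * (Mc + 1) * (b / l + 1) with hM
  obtain ⟨hl4, hla, hMle⟩ := par8 ha hab hbL hb2 h8 hl hq hMc hM
  -- `M log a L0 ≤ (e1 / 4) b ^ 2`
  have hMb : (M : ℝ) * Real.log a * L0 ≤ (e1 / 4) * b ^ 2 := by
    have h1 : (M : ℝ) * Real.log a * L0 ≤ ((K * (C0 + 1) * 4 ^ 32 * 33 ^ 4 * 5) *
        Real.log a ^ 32 * ((L0 : ℝ) / a) ^ 5) * Real.log a * L0 := by gcongr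
    refine h1.trans ?_
    have h2 : ((K * (C0 + 1) * 4 ^ 32 * 33 ^ 4 * 5) *
        Real.log a ^ 32 * ((L0 : ℝ) / a) ^ 5) * Real.log a * L0 =
        ((K * (C0 + 1) * 4 ^ 32 * 33 ^ 4 * 5) * Real.log a ^ 33) * (L0 : ℝ) ^ 6 / a ^ 5 := by
      field_simp
    rw [h2, div_le_iff₀ (by positivity)]
    calc ((K * (C0 + 1) * 4 ^ 32 * 33 ^ 4 * 5) * Real.log a ^ 33) * (L0 : ℝ) ^ 6
        ≤ ((e1 / 4) * z) * (L0 : ℝ) ^ 6 := by gcongr
      _ = (e1 / 4) * ((L0 : ℝ) ^ 6 * z) := by ring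
      _ ≤ (e1 / 4) * (a ^ 5 * b ^ 2) := by gcongr
      _ = _ := by ring
  have hM4 : 4 * M ≤ b := by
    have h1 : (M : ℝ) * b ≤ (M : ℝ) * Real.log a * L0 := by
      calc (M : ℝ) * b = M * 1 * b := by ring
        _ ≤ _ := by gcongr
    have h2 : (4 * (M : ℝ)) * b ≤ b * b := by
      calc (4 * (M : ℝ)) * b = 4 * (M * b) := by ring
        _ ≤ 4 * ((e1 / 4) * b ^ 2) := by linarith
        _ = e1 * (b * b) := by ring
        _ ≤ 1 * (b * b) := by gcongr; linarith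
        _ = b * b := one_mul _
    have h3 : 4 * (M : ℝ) ≤ b := le_of_mul_le_mul_right h2 hb0
    exact_mod_cast h3
  have hK2 : 2 * (b / 2) ≤ (K - 2) * (b / 2 - a) := by
    have h1 : (b : ℝ) ≤ ((K - 2 : ℕ) : ℝ) * ((b / 2 - a : ℕ) : ℝ) := by
      calc (b : ℝ) = 1 * b := (one_mul _).symm
        _ ≤ (((K - 2 : ℕ) : ℝ) * e1) * b := by gcongr
        _ = ((K - 2 : ℕ) : ℝ) * (e1 * b) := by ring
        _ ≤ _ := by gcongr
    have h2 : b ≤ (K - 2) * (b / 2 - a) := by exact_mod_cast h1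
    omega
  obtain ⟨hMcM, hint⟩ := int8 (by omega : 1 ≤ l) hla hab hM hK hK2
  refine ⟨l, q, M, Mc, hMc, by omega, by omega, hla, by omega, ?_, hMcM, hM4, hint, ?_⟩
  · have h1 : 2 * (l * L0) ≤ a * b := by
      calc 2 * (l * L0) = l * (2 * L0) := by ring
        _ ≤ a * b := by
          rw [hl]
          exact Nat.div_mul_le_self _ _
    have h2 : 4 * (M * a) ≤ a * b := by
      calc 4 * (M * a) = (4 * M) * a := by ring
        _ ≤ b * a := by gcongr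
        _ = a * b := by ring
    omega
  · intro m S hS hm
    exact exp8 ha hab hbL he1 he2 hba h12 hMb hS hm

/-- Leaf (R4) of S8. -/
theorem num_stmt8 : NumStmt8 := by
  intro ε δ hε hδ C0
  set e1 : ℝ := ε / (4 * (2 + ε)) with he1
  have he1p : 0 < e1 := by positivity
  have he14 : e1 ≤ 1 / 4 := by
    rw [he1, div_le_div_iff₀ (by positivity) (by norm_num)]
    linarith
  set K : ℕ := 2 + ⌈1 / e1⌉₊ with hK
  have hKe : 1 ≤ ((K - 2 : ℕ) : ℝ) * e1 := by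
    have h1 : K - 2 = ⌈1 / e1⌉₊ := by omega
    rw [h1]
    have h2 := Nat.le_ceil (1 / e1)
    calc (1 : ℝ) = (1 / e1) * e1 := by field_simp
      _ ≤ _ := by gcongr
  set C1 : ℝ := K * (C0 + 1) * 4 ^ 32 * 33 ^ 4 * 5 with hC1
  filter_upwards [ev_logn (4 / e1 * C1) (6 * δ) 33 (by norm_num) (by linarith),
    ev_logn ((12 / e1) ^ 6) (6 * δ) 6 (by norm_num) (by linarith), eventually_ge_atTop 3,
    eventually_ge_atTop ⌈1 / e1⌉₊] with a h1 h2 ha h3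
  intro b L0 hab hbL hL
  have ha' : (3 : ℝ) ≤ a := by exact_mod_cast ha
  have ha0 : (0 : ℝ) < a := by linarith
  have ha3 : 1 / e1 ≤ a := (Nat.le_ceil _).trans (by exact_mod_cast h3)
  have ha4 : 1 ≤ e1 * a := by
    rw [div_le_iff₀ he1p] at ha3
    linarith
  have hab2 : 2 * (a : ℝ) ≤ b := by nlinarith
  have hab3 : 2 * a ≤ b := by exact_mod_cast hab2
  have hb0 : (0 : ℝ) < b := by linarith
  have hba : e1 * b ≤ ((b / 2 - a : ℕ) : ℝ) := by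
    rw [Nat.cast_sub (by omega)]
    have h4 : (b : ℝ) ≤ 2 * ((b / 2 : ℕ) : ℝ) + 1 := by
      have : b ≤ 2 * (b / 2) + 1 := by omega
      exact_mod_cast this
    have h5 : (a : ℝ) ≤ b / (2 + ε) := by
      rw [le_div_iff₀ (by positivity)]
      linarith
    have h6 : (b : ℝ) / (2 + ε) = b / 2 - 2 * e1 * b := by
      rw [he1]
      field_simp
      ring
    have h7 : e1 * a ≤ e1 * b := by
      gcongr
      linarith
    linarith
  have hs1 : (L0 : ℝ) ^ 6 * (a : ℝ) ^ (6 * δ) ≤ a ^ 5 * b ^ 2 := by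
    have h4 : (L0 : ℝ) ^ 6 ≤ ((a : ℝ) ^ (5 / 6 - δ) * (b : ℝ) ^ (1 / 3 : ℝ)) ^ 6 := by gcongr
    have h5 : ((a : ℝ) ^ (5 / 6 - δ) * (b : ℝ) ^ (1 / 3 : ℝ)) ^ 6 =
        (a : ℝ) ^ (5 - 6 * δ) * b ^ 2 := by
      rw [mul_pow, ← Real.rpow_natCast ((a : ℝ) ^ (5 / 6 - δ)) 6, ← Real.rpow_mul ha0.le,
        ← Real.rpow_natCast ((b : ℝ) ^ (1 / 3 : ℝ)) 6, ← Real.rpow_mul hb0.le]
      congr 1
      · congr 1
        push_cast
        ring
      · rw [← Real.rpow_natCast (b : ℝ) 2]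
        congr 1
        push_cast
        norm_num
    rw [h5] at h4
    calc (L0 : ℝ) ^ 6 * (a : ℝ) ^ (6 * δ) ≤ ((a : ℝ) ^ (5 - 6 * δ) * b ^ 2) * (a : ℝ) ^ (6 * δ) := by
          gcongr
      _ = ((a : ℝ) ^ (5 - 6 * δ) * (a : ℝ) ^ (6 * δ)) * b ^ 2 := by ring
      _ = a ^ 5 * b ^ 2 := by
          rw [← Real.rpow_add ha0]
          have : (5 - 6 * δ + 6 * δ : ℝ) = ((5 : ℕ) : ℝ) := by push_cast; ring
          rw [this, Real.rpow_natCast]
  refine core8 ha hab3 hbL he1p he14 hba (by omega) hKe (by positivity) hs1 ?_ h2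
  calc C1 * Real.log a ^ 33 = (e1 / 4) * (4 / e1 * C1 * Real.log a ^ 33) := by
        field_simp
    _ ≤ _ := by gcongr

end Vale.Agent.P181.H921
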