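import Vale.Agent.P181.H921.WPlus
import Vale.Agent.P181.H403.WNum

/-!
P181: helper403's literal form of the weighted tail theorem.
-/

set_option autoImplicit false

namespace Vale.Agent.P181.TW

open Vale.Agent.P181

theorem w_plus : T8.WPlus := by
  intro a b n lam L Y s ha _ _ hY1 hY hs h
  have hc : Finset.univ \ L = Lᶜ := (Finset.compl_eq_univ_sdiff L).symm
  rw [hc] at h
  refine plethMult_of_KW lam ?_
  refine KW_all (stepB_all n) (N := a) (Lt := L) (Y := Y) ha hY1 ?_ hs (Nat.le_succ a) h
  intro r hr
  have h1 := hY r hr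
  rw [hc] at h1
  have h2 : (r + 1) * Y r = Y r + r * Y r := by ring
  unfold H310.SH
  rw [h2]
  dsimp only
  omega

end Vale.Agent.P181.TW
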