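import Vale.Agent.P181.H921.WTay

/-!
P181, weighted tail slopes: the coefficients along the last variables vanish by induction.
-/

set_option autoImplicit false

open MvPolynomial

namespace Vale.Agent.P181.TW

open Vale.Agent.P181 Vale.Agent.P181.H536 Vale.Agent.P181.H280 Vale.Agent.P181.TN

variable {n : ℕ}

/-- The coefficients as multilinear forms. -/
noncomputable def DWm (e : Fin n → ℕ) (x : ℂ) {a : ℕ} (F : Fm n a) : Fm n a :=
  ∑ φ ∈ (Finset.univ : Finset (Fin a → Option (Fin n))).filter (fun φ => co φ = e),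
    mulArg F (fun j => vv x (φ j))

lemma DWm_apply (e : Fin n → ℕ) (x : ℂ) {a : ℕ} (F : Fm n a) (g : Fin a → Sn n) :
    DWm e x F g = DW e x F g := by
  rw [DWm, sum_apply, DW]
  rfl

lemma vv_mem (x : ℂ) (o : Option (Fin n)) : vv x o ∈ linS (n + 2) := by
  cases o with
  | none => exact ln_mem x
  | some i => exact X_mem_linS _

lemma zs_mem (c : Fin n → ℂ) : ∑ i, c i • (X i.succ.succ : Sn n) ∈ ZZ n :=
  Submodule.sum_mem _ fun i _ => (ZZ n).smul_mem _ (Submodule.subset_span ⟨i, rfl⟩)

lemma DWm_symm (e : Fin n → ℕ) (x : ℂ) {a : ℕ} {F : Fm n a} (hF : IsSymm F) :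
    IsSymm (DWm e x F) := by
  classical
  intro σ P
  rw [DWm_apply, DWm_apply, DW, DW]
  refine Finset.sum_bij' (fun φ _ => fun j => φ (σ.symm j)) (fun φ _ => fun j => φ (σ j))
    ?_ ?_ ?_ ?_ ?_
  · intro φ hφ
    rw [Finset.mem_filter] at hφ ⊢
    refine ⟨Finset.mem_univ _, ?_⟩
    rw [← hφ.2]
    funext i
    unfold co
    refine Finset.card_bij' (fun j _ => σ.symm j) (fun j _ => σ j) ?_ ?_ ?_ ?_
    · intro j hj
      rw [Finset.mem_filter] at hj ⊢
      exact ⟨Finset.mem_univ _, hj.2⟩
    · intro j hj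
      rw [Finset.mem_filter] at hj ⊢
      refine ⟨Finset.mem_univ _, ?_⟩
      change φ (σ.symm (σ j)) = some i
      rw [Equiv.symm_apply_apply]
      exact hj.2
    · intro j _
      exact Equiv.apply_symm_apply _ _
    · intro j _
      exact Equiv.symm_apply_apply _ _
  · intro φ hφ
    rw [Finset.mem_filter] at hφ ⊢
    refine ⟨Finset.mem_univ _, ?_⟩
    rw [← hφ.2]
    funext i
    unfold co
    refine Finset.card_bij' (fun j _ => σ j) (fun j _ => σ.symm j) ?_ ?_ ?_ ?_
    · intro j hj
      rw [Finset.mem_filter] at hj ⊢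
      exact ⟨Finset.mem_univ _, hj.2⟩
    · intro j hj
      rw [Finset.mem_filter] at hj ⊢
      refine ⟨Finset.mem_univ _, ?_⟩
      change φ (σ (σ.symm j)) = some i
      rw [Equiv.apply_symm_apply]
      exact hj.2
    · intro j _
      exact Equiv.symm_apply_apply _ _
    · intro j _
      exact Equiv.apply_symm_apply _ _
  · intro φ _
    funext j
    exact congrArg φ (Equiv.symm_apply_apply _ _)
  · intro φ _
    funext j
    exact congrArg φ (Equiv.apply_symm_apply _ _)
  · intro φ _
    rw [← hF σ (fun j => vv x (φ (σ.symm j)) * P j)]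
    congr 1
    funext j
    rw [Equiv.symm_apply_apply]

/-- The coefficients are in the kernel. -/
lemma DWm_isK (e : Fin n → ℕ) (x : ℂ) {a b : ℕ} {F : Fm n a}
    (hF : IsK (linS (n + 2)) (b + 1) F) : IsK (linS (n + 2)) b (DWm e x F) := by
  intro m hm hmL
  rw [DWm_apply]
  have h1 : PW x F (fun _ => m.prod) = 0 := by
    apply MvPolynomial.funext
    intro c
    rw [eval_PW, map_zero]
    have h2 := hF ((ln n x + ∑ i, c i • X i.succ.succ) ::ₘ m) (by rw [Multiset.card_cons, hm]) (by
      intro y hy
      rcases Multiset.mem_cons.1 hy with rfl | hy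
      · exact line_mem (zs_mem c) x
      · exact hmL y hy)
    rw [Multiset.prod_cons] at h2
    exact h2
  have h2 := coeff_PW x F (fun _ => m.prod) (Finsupp.equivFunOnFinite.symm e)
  rw [h1, coeff_zero] at h2
  exact h2.symm

lemma scw_vv (c : Fin n → ℂ) (x : ℂ) (o : Option (Fin n)) :
    scw c (vv x o) = cc c o • vv x o := by
  cases o with
  | none =>
    change scw c (ln n x) = (1 : ℂ) • ln n x
    rw [scw_ln, one_smul]
  | some i => exact scw_succ c i

/-- The scaling identity of the coefficients. -/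
lemma DW_scw {a b : ℕ} {w : Fin n → ℕ} {F : Fm n a} (hH : HomW (b + 1) w F) (e : Fin n → ℕ)
    (x : ℂ) (c : Fin n → ℂ) (hc : ∀ i, c i ≠ 0) {g : Fin a → Sn n} (hg : Dg b g) :
    (∏ i, c i ^ e i) * DW e x F (fun j => scw c (g j)) = (∏ i, c i ^ w i) * DW e x F g := by
  rw [DW, DW, Finset.mul_sum, Finset.mul_sum]
  apply Finset.sum_congr rfl
  intro φ hφ
  have h1 := hH c hc (fun j => vv x (φ j) * g j) (by
    intro j
    rw [pow_succ']
    exact Submodule.mul_mem_mul (vv_mem x _) (hg j))
  rw [← h1]
  have h2 : (fun j => scw c (vv x (φ j) * g j)) =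
      fun j => cc c (φ j) • (vv x (φ j) * scw c (g j)) := by
    funext j
    rw [map_mul, scw_vv, smul_mul_assoc]
  rw [h2, MultilinearMap.map_smul_univ, prod_cc, smul_eq_mul, (Finset.mem_filter.1 hφ).2]

/-- The weight of the coefficients. -/
lemma DWm_homW {a b : ℕ} {w : Fin n → ℕ} {F : Fm n a} (hH : HomW (b + 1) w F) (e : Fin n → ℕ)
    (he : e ≤ w) (x : ℂ) : HomW b (w - e) (DWm e x F) := by
  intro c hc P hP
  rw [DWm_apply, DWm_apply]
  have h1 := DW_scw hH e x c hc hP
  have hck : (∏ i, c i ^ e i) ≠ 0 := Finset.prod_ne_zero_iff.2 fun i _ => pow_ne_zero _ (hc i)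
  apply mul_left_cancel₀ hck
  rw [h1, ← mul_assoc, ← Finset.prod_mul_distrib]
  congr 1
  apply Finset.prod_congr rfl
  intro i _
  rw [← pow_add, Pi.sub_apply, Nat.add_sub_cancel' (he i)]

lemma prod_one (i₀ : Fin n) (v : Fin n → ℕ) (c : ℂ) :
    (∏ i, (if i = i₀ then c else 1 : ℂ) ^ v i) = c ^ v i₀ := by
  rw [Finset.prod_eq_single i₀]
  · rw [if_pos rfl]
  · intro i _ hi
    rw [if_neg hi, one_pow]
  · intro h
    exact absurd (Finset.mem_univ _) h

/-- Coefficients of too large weight are zero. -/
lemma DW_zero_of_weight {a b : ℕ} {w : Fin n → ℕ} {F : Fm n a} (hH : HomW (b + 1) w F)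
    (e : Fin n → ℕ) (i₀ : Fin n) (he : w i₀ < e i₀) (x : ℂ) {g : Fin a → Sn n} (hg : Dg b g) :
    DW e x F g = 0 := by
  choose R hR using fun i => scw_poly i₀ (g i)
  obtain ⟨q, hq⟩ := poly_exists (DWm e x F) R
  have h1 : Polynomial.X ^ (e i₀ - w i₀) * q = Polynomial.C (DW e x F g) := by
    apply Polynomial.eq_of_infinite_eval_eq
    apply Set.Infinite.mono (s := ({0} : Set ℂ)ᶜ)
    · intro c hc
      have hc0 : c ≠ 0 := hc
      rw [Set.mem_ofPred_eq, Polynomial.eval_mul, Polynomial.eval_pow, Polynomial.eval_X,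
        Polynomial.eval_C, hq]
      simp only [hR]
      have h2 := DW_scw hH e x (fun i => if i = i₀ then c else 1) (by
        intro i
        split_ifs
        · exact hc0
        · exact one_ne_zero) hg
      rw [prod_one, prod_one] at h2
      have h3 : c ^ e i₀ = c ^ w i₀ * c ^ (e i₀ - w i₀) := by
        rw [← pow_add, Nat.add_sub_cancel' he.le]
      rw [h3, mul_assoc] at h2
      rw [DWm_apply]
      exact mul_left_cancel₀ (pow_ne_zero _ hc0) h2
    · exact (Set.finite_singleton (0 : ℂ)).infinite_compl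
  have h2 := congrArg (Polynomial.eval (0 : ℂ)) h1
  rw [Polynomial.eval_mul, Polynomial.eval_pow, Polynomial.eval_X, Polynomial.eval_C,
    zero_pow (by omega), zero_mul] at h2
  exact h2.symm

/-- Invariance of a coefficient when all larger coefficients vanish. -/
lemma DW_shear1 {a b : ℕ} {F : Fm n a} (hI : Inv (b + 1) F) (e : Fin n → ℕ) (x : ℂ)
    (hz : ∀ d : Fin n → ℕ, e ≤ d → d ≠ e → ∀ g : Fin a → Sn n, Dg b g → DW d x F g = 0)
    (i₀ : Fin n) (ζ : ℂ) {g : Fin a → Sn n} (hg : Dg b g) :
    DW e x F (fun j => sh n (ζ • X i₀.succ.succ) (g j)) = DW e x F g := by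
  classical
  have hzm : (ζ • (X i₀.succ.succ : Sn n)) ∈ ZZ n :=
    (ZZ n).smul_mem _ (Submodule.subset_span ⟨i₀, rfl⟩)
  have hg' : Dg b (fun j => sh n (ζ • X i₀.succ.succ) (g j)) := fun j => sh_mem hzm (hg j)
  set g' : Fin a → Sn n := fun j => sh n (ζ • X i₀.succ.succ) (g j) with hg'def
  have hkey : aeval (fun k => (X k + C (if k = i₀ then ζ else 0) : MvPolynomial (Fin n) ℂ))
      (PW x F g') = PW x F g := by
    apply MvPolynomial.funext
    intro c
    have h1 : eval c (aeval (fun k => (X k + C (if k = i₀ then ζ else 0) :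
        MvPolynomial (Fin n) ℂ)) (PW x F g')) =
          eval (fun k => c k + if k = i₀ then ζ else 0) (PW x F g') := by
      have h2 : ((aeval c : MvPolynomial (Fin n) ℂ →ₐ[ℂ] ℂ).comp
          (aeval (fun k => (X k + C (if k = i₀ then ζ else 0) : MvPolynomial (Fin n) ℂ)))) =
            aeval (fun k => c k + if k = i₀ then ζ else 0) := by
        apply MvPolynomial.algHom_ext
        intro k
        rw [AlgHom.comp_apply, aeval_X, map_add, aeval_X, aeval_C, aeval_X]
        rfl
      have h3 := congrArg (fun f : MvPolynomial (Fin n) ℂ →ₐ[ℂ] ℂ => f (PW x F g')) h2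
      exact h3
    rw [h1, eval_PW, eval_PW, ← hI _ hzm (fun j => (ln n x + ∑ i, c i • X i.succ.succ) * g j) (by
      intro j
      rw [pow_succ']
      exact Submodule.mul_mem_mul (line_mem (zs_mem c) x) (hg j))]
    congr 1
    funext j
    rw [map_mul, map_add, sh_ln, sh_Z (zs_mem c), hg'def]
    congr 1
    have h4 : ∀ i : Fin n, (c i + if i = i₀ then ζ else 0) • (X i.succ.succ : Sn n) =
        c i • X i.succ.succ + (if i = i₀ then ζ • (X i₀.succ.succ : Sn n) else 0) := by
      intro i
      by_cases hi : i = i₀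
      · subst hi
        rw [if_pos rfl, if_pos rfl, add_smul]
      · rw [if_neg hi, if_neg hi, add_zero, add_zero]
    rw [Finset.sum_congr rfl (fun i _ => h4 i), Finset.sum_add_distrib, Finset.sum_ite_eq',
      if_pos (Finset.mem_univ _)]
    abel
  have h5 := coeff_shift1 i₀ ζ (PW x F g') (Finsupp.equivFunOnFinite.symm e) (by
    intro d hd hne
    rw [coeff_PW]
    apply hz d _ _ g' hg'
    · intro i
      exact hd i
    · intro h
      apply hne
      ext i
      exact congrFun h i)
  rw [hkey, coeff_PW, coeff_PW] at h5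
  exact h5.symm

lemma sh_comp {y : Sn n} (hy : y ∈ ZZ n) (z : Sn n) :
    sh n (y + z) = (sh n z).comp (sh n y) := by
  apply MvPolynomial.algHom_ext
  intro i
  rw [AlgHom.comp_apply]
  refine Fin.cases ?_ (fun i => ?_) i
  · rw [sh_X0, sh_X0, map_add, sh_X0, sh_Z hy]
    abel
  · refine Fin.cases ?_ (fun i => ?_) i
    · change sh n (y + z) (X 1) = sh n z (sh n y (X 1))
      rw [sh_X1, sh_X1, sh_X1]
    · rw [shr_succ, shr_succ, shr_succ]

lemma sh_zero (p : Sn n) : sh n 0 p = p := by
  have h1 : sh n 0 = AlgHom.id ℂ (Sn n) := by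
    apply MvPolynomial.algHom_ext
    intro i
    rw [AlgHom.id_apply]
    refine Fin.cases ?_ (fun i => ?_) i
    · rw [sh_X0, add_zero]
    · refine Fin.cases ?_ (fun i => ?_) i
      · exact sh_X1 _
      · rw [shr_succ]
  rw [h1, AlgHom.id_apply]

/-- Invariance under all the shears from the shears of one variable. -/
lemma inv_of_one {a b : ℕ} (G : Fm n a) (h : ∀ (i : Fin n) (ζ : ℂ) (P : Fin a → Sn n), Dg b P →
    G (fun j => sh n (ζ • X i.succ.succ) (P j)) = G P) : Inv b G := by
  intro z hz
  have main : ∀ (c : ℂ) (P : Fin a → Sn n), Dg b P → G (fun j => sh n (c • z) (P j)) = G P := by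
    rw [ZZ] at hz
    induction hz using Submodule.span_induction with
    | mem x hx =>
      obtain ⟨i, rfl⟩ := hx
      exact fun c P hP => h i c P hP
    | zero =>
      intro c P hP
      rw [smul_zero]
      congr 1
      funext j
      exact sh_zero _
    | add x y hx hy ihx ihy =>
      intro c P hP
      have hx' : c • x ∈ ZZ n := (ZZ n).smul_mem _ hx
      rw [smul_add, sh_comp hx']
      have h1 := ihy c (fun j => sh n (c • x) (P j)) (fun j => sh_mem hx' (hP j))
      rw [ihx c P hP] at h1
      exact h1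
    | smul r x _ ihx =>
      intro c P hP
      rw [smul_smul]
      exact ihx (c * r) P hP
  intro P hP
  have h1 := main 1 P hP
  rw [one_smul] at h1
  exact h1

/-- **tstep in weight form.** -/
theorem tstepW {a b : ℕ} {w : Fin n → ℕ} (E : Set (Fin n → ℕ))
    (hup : ∀ e ∈ E, ∀ e', e ≤ e' → e' ∈ E) (hK : ∀ e ∈ E, e ≤ w → KW n a b (w - e))
    (F : Fm n a) (hsy : IsSymm F) (hI : Inv (b + 1) F) (hH : HomW (b + 1) w F)
    (hF : IsK (linS (n + 2)) (b + 1) F) :
    ∀ e ∈ E, ∀ (x : ℂ) (g : Fin a → Sn n), Dg b g → DW e x F g = 0 := by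
  have main : ∀ (d : ℕ) (e : Fin n → ℕ), a < ∑ i, e i + d → e ∈ E → ∀ (x : ℂ)
      (g : Fin a → Sn n), Dg b g → DW e x F g = 0 := by
    intro d
    induction d with
    | zero =>
      intro e he _ x g _
      exact DW_of_lt (by omega) x F g
    | succ d ih =>
      intro e he heE x g hg
      by_cases hew : e ≤ w
      · have hV : Van b (DWm e x F) := by
          apply hK e heE hew
          · exact DWm_symm e x hsy
          · apply inv_of_one
            intro i ζ P hP
            rw [DWm_apply, DWm_apply]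
            apply DW_shear1 hI e x _ i ζ hP
            intro d' hd' hne g' hg'
            apply ih d' _ (hup e heE d' hd') x g' hg'
            have h1 : ∑ i, e i < ∑ i, d' i := by
              apply Finset.sum_lt_sum (fun i _ => hd' i)
              by_contra hcon
              push Not at hcon
              apply hne
              funext i
              exact le_antisymm (hcon i (Finset.mem_univ i)) (hd' i)
            omega
          · exact DWm_homW hH e hew x
          · exact DWm_isK e x hF
        rw [← DWm_apply]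
        exact hV g hg
      · have h1 : ∃ i, w i < e i := by
          by_contra hcon
          push Not at hcon
          exact hew hcon
        obtain ⟨i₀, hi₀⟩ := h1
        exact DW_zero_of_weight hH e i₀ hi₀ x hg
  intro e he x g hg
  exact main (a + 1) e (by omega) he x g hg

end Vale.Agent.P181.TW
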