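import Vale.Agent.P181.H411.UDefs
import Vale.Agent.P181.H72.WTorus

/-!
P181, the upper bound for the kernel: the weight of the coefficients of the form of a highest
weight vector.
-/

set_option autoImplicit false

open MvPolynomial

namespace Vale.Agent.P181.H411.UB

open Vale.Agent.P181 Vale.Agent.P181.H536 Vale.Agent.P181.H280 Vale.Agent.P181.TN
  Vale.Agent.P181.TW

variable {n : ℕ}

/-- A diagonal scaling. -/
noncomputable def scd (n : ℕ) (d : Fin (n + 2) → ℂ) : Sn n →ₐ[ℂ] Sn n :=
  aeval (fun k => d k • X k)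

lemma scd_X (d : Fin (n + 2) → ℂ) (k : Fin (n + 2)) : scd n d (X k) = d k • X k :=
  aeval_X _ _

lemma borel_diag {d : Fin (n + 2) → ℂ} (hd : ∀ k, d k ≠ 0) : IsBorel (Matrix.diagonal d) := by
  constructor
  · intro i j hij
    exact Matrix.diagonal_apply_ne _ (ne_of_gt hij)
  · intro i
    rw [Matrix.diagonal_apply_eq]
    exact hd i

lemma formOf_scd {a b : ℕ} (lam : Fin (n + 2) → ℕ)
    (l : (Fin a → Fin b → (Fin (n + 2) → ℂ)) →₀ ℂ)
    (hx : elOf l ∈ hwSpace lam (plethAct a b (n + 2))) (d : Fin (n + 2) → ℂ)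
    (hd : ∀ k, d k ≠ 0) (P : Fin a → Sn n) (hP : Dg b P) :
    formOf l (fun i => scd n d (P i)) = (∏ k, d k ^ lam k) * formOf l P := by
  let Φ : MultilinearMap ℂ (fun _ : Fin a => MvPolynomial (Fin (n + 2)) ℂ) ℂ :=
    comp (formOf l) (scd n d) - (∏ k, d k ^ lam k) • formOf l
  have hΦ : Φ P = 0 := by
    apply multilinear_zero_of_span Φ
      (Set.range (fun c : Fin b → Fin (n + 2) => ∏ j, (X (c j) : MvPolynomial (Fin (n + 2)) ℂ)))
    · intro w hw
      choose e he using hw
      have hw' : w = fun i => ∏ j, X (e i j) := by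
        funext i; exact (he i).symm
      have h1 := formOf_act lam l hx (Matrix.diagonal d) e (fun i j => scd n d (X (e i j)))
        (borel_diag hd) (fun i j => by
          funext v
          rw [Matrix.toLin'_apply, Matrix.mulVec_diagonal, scd_X, map_smul, evL_X]
          rfl)
      have h3 : ∏ k, Matrix.diagonal d k k ^ lam k = ∏ k, d k ^ lam k :=
        Finset.prod_congr rfl fun k _ => by rw [Matrix.diagonal_apply_eq]
      rw [h3] at h1
      rw [hw']
      have h2 : Φ (fun i => ∏ j, X (e i j)) =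
          formOf l (fun i => scd n d (∏ j, X (e i j))) -
            (∏ k, d k ^ lam k) * formOf l (fun i => ∏ j, X (e i j)) := rfl
      rw [h2]
      simp only [map_prod]
      rw [h1, sub_self]
    · intro i
      exact span_pow_eq _ _ (hP i)
  have h1 : Φ P = formOf l (fun i => scd n d (P i)) -
      (∏ k, d k ^ lam k) * formOf l P := rfl
  rw [h1, sub_eq_zero] at hΦ
  exact hΦ

lemma hom_mono (b : ℕ) (μ : Fin (n + 1) →₀ ℕ) : hom n b (monomial μ 1) =
    if μ.degree ≤ b then X 0 ^ (b - μ.degree) * ∏ k, X k.succ ^ μ k else 0 := by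
  have h1 : (basisMonomials (Fin (n + 1)) ℂ) μ = monomial μ 1 := by
    rw [coe_basisMonomials]
  rw [hom, ← h1, Module.Basis.constr_basis]
  have h2 : rename Fin.succ (monomial μ (1 : ℂ)) =
      ∏ k, (X k.succ : MvPolynomial (Fin (n + 2)) ℂ) ^ μ k := by
    rw [monomial_eq, C_1, one_mul, Finsupp.prod_fintype _ _ (fun _ => pow_zero _), map_prod]
    exact Finset.prod_congr rfl fun k _ => by rw [map_pow, rename_X]
  rw [h2]

lemma prod_mem_linS (s : Finset (Fin (n + 1))) (μ : Fin (n + 1) → ℕ) :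
    ∏ k ∈ s, (X k.succ : MvPolynomial (Fin (n + 2)) ℂ) ^ μ k ∈
      linS (n + 2) ^ (∑ k ∈ s, μ k) := by
  classical
  induction s using Finset.induction_on with
  | empty =>
    rw [Finset.prod_empty, Finset.sum_empty, pow_zero]
    exact Submodule.one_le.1 le_rfl
  | insert k s hk ih =>
    rw [Finset.prod_insert hk, Finset.sum_insert hk, pow_add]
    exact Submodule.mul_mem_mul (Submodule.pow_mem_pow _ (X_mem_linS _) _) ih

lemma hom_mem (b : ℕ) (μ : Fin (n + 1) →₀ ℕ) : hom n b (monomial μ 1) ∈ linS (n + 2) ^ b := by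
  rw [hom_mono]
  split_ifs with h
  · have h1 : linS (n + 2) ^ b = linS (n + 2) ^ (b - μ.degree) * linS (n + 2) ^ (∑ k, μ k) := by
      rw [← pow_add]
      congr 1
      rw [Finsupp.degree_eq_sum] at h ⊢
      omega
    rw [h1]
    exact Submodule.mul_mem_mul (Submodule.pow_mem_pow _ (X_mem_linS _) _)
      (prod_mem_linS _ _)
  · exact Submodule.zero_mem _

lemma scd_hom (b : ℕ) (μ : Fin (n + 1) →₀ ℕ) (d : Fin (n + 2) → ℂ) (hd : d 0 = 1) :
    scd n d (hom n b (monomial μ 1)) = (∏ k, d k.succ ^ μ k) • hom n b (monomial μ 1) := by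
  rw [hom_mono]
  split_ifs with h
  · rw [map_mul, map_pow, scd_X, hd, one_smul, map_prod, ← mul_smul_comm]
    congr 1
    have h1 : ∀ k : Fin (n + 1), scd n d (X k.succ ^ μ k) = C (d k.succ ^ μ k) * X k.succ ^ μ k := by
      intro k
      rw [map_pow, scd_X, smul_eq_C_mul, mul_pow, map_pow]
    rw [Finset.prod_congr rfl (fun k _ => h1 k), Finset.prod_mul_distrib, smul_eq_C_mul,
      map_prod]
  · rw [map_zero, smul_zero]

/-- The exponent of an entry. -/
noncomputable def mo : Option (Fin (n + 1)) → (Fin (n + 1) →₀ ℕ)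
  | none => 0
  | some i => Finsupp.single i 1

lemma el_eq (o : Option (Fin (n + 1))) : el o = monomial (mo o) 1 := by
  cases o with
  | none => rfl
  | some i => rfl

lemma mo_apply (o : Option (Fin (n + 1))) (i : Fin (n + 1)) :
    mo o i = if o = some i then 1 else 0 := by
  cases o with
  | none =>
    rw [if_neg (by simp)]
    rfl
  | some k =>
    change Finsupp.single k 1 i = _
    rw [Finsupp.single_apply]
    by_cases h : k = i
    · rw [if_pos h, if_pos (by rw [h])]
    · rw [if_neg h, if_neg (by simpa using h)]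

lemma prod_el {N : ℕ} (T : Fin N → Option (Fin (n + 1))) :
    ∏ j, el (T j) = monomial (∑ j, mo (T j)) 1 := by
  rw [monomial_sum_one]
  exact Finset.prod_congr rfl fun j _ => el_eq _

/-- The weight of the coefficients. -/
theorem cf_weight {a b N : ℕ} (lam : Fin (n + 2) → ℕ)
    (l : (Fin a → Fin b → (Fin (n + 2) → ℂ)) →₀ ℂ)
    (hx : elOf l ∈ hwSpace lam (plethAct a b (n + 2))) {v : Fin N → Fin (n + 1) → ℕ}
    (h : cf b v (formOf l) ≠ 0) : ∀ i, ∑ j, v j i = lam i.succ := by
  classical
  intro i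
  rw [cf] at h
  obtain ⟨T, hT, hne⟩ := Finset.exists_ne_zero_of_sum_ne_zero h
  rw [Finset.mem_filter] at hT
  let d : Fin (n + 2) → ℂ := fun k => if k = i.succ then 2 else 1
  have hd : ∀ k, d k ≠ 0 := by
    intro k
    by_cases hk : k = i.succ
    · simp [d, hk]
    · simp [d, hk]
  have hd0 : d 0 = 1 := if_neg (Fin.succ_ne_zero i).symm
  simp only [prod_el] at hne
  have h1 := formOf_scd lam l hx d hd
    (fun s => hom n b (monomial (∑ j, mo (T s j)) 1)) (fun s => hom_mem b _)
  simp only [scd_hom b _ d hd0] at h1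
  rw [MultilinearMap.map_smul_univ, smul_eq_mul] at h1
  have h2 := mul_right_cancel₀ hne h1
  have hpow : ∀ e : Fin (n + 1) → ℕ, ∏ k : Fin (n + 1), d k.succ ^ e k = 2 ^ e i := by
    intro e
    rw [Finset.prod_eq_single i]
    · change (if i.succ = i.succ then (2 : ℂ) else 1) ^ e i = _
      rw [if_pos rfl]
    · intro k _ hk
      change (if k.succ = i.succ then (2 : ℂ) else 1) ^ e k = 1
      rw [if_neg (fun hh => hk (Fin.succ_injective _ hh)), one_pow]
    · intro hh
      exact absurd (Finset.mem_univ _) hh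
  rw [Fin.prod_univ_succ (fun k => d k ^ lam k), hd0, one_pow, one_mul,
    hpow (fun k => lam k.succ)] at h2
  simp only [hpow] at h2
  rw [Finset.prod_pow_eq_pow_sum] at h2
  have h3 : ∑ s, (∑ j, mo (T s j)) i = lam i.succ := by
    have h4 : ((2 ^ (∑ s, (∑ j, mo (T s j)) i) : ℕ) : ℂ) = ((2 ^ lam i.succ : ℕ) : ℂ) := by
      rw [Nat.cast_pow, Nat.cast_pow, Nat.cast_ofNat]
      exact h2
    exact Nat.pow_right_injective le_rfl (Nat.cast_injective h4)
  rw [← h3]
  simp only [Finsupp.coe_finsetSum, Finset.sum_apply, mo_apply]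
  rw [Finset.sum_comm]
  refine Finset.sum_congr rfl fun j _ => ?_
  rw [← hT.2 j, co, Finset.card_filter]

end Vale.Agent.P181.H411.UB
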