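import Vale.Agent.P181.H921.WTStep

/-!
P181, weighted tail slopes: consequences of the vanishing of the coefficients.
-/

set_option autoImplicit false

open MvPolynomial

namespace Vale.Agent.P181.TW

open Vale.Agent.P181 Vale.Agent.P181.H536 Vale.Agent.P181.H280 Vale.Agent.P181.TN

variable {n : ℕ}

/-- The condition `QQ` from the vanishing of the coefficients of order at least `s`. -/
theorem qq_of_DW {a b s : ℕ} (F : Fm n a)
    (h : ∀ e : Fin n → ℕ, s ≤ ∑ i, e i → ∀ (x : ℂ) (g : Fin a → Sn n), Dg b g → DW e x F g = 0) :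
    QQ s (b + 1) F := by
  classical
  intro x z hz g hg
  rw [Nat.add_sub_cancel] at hg
  obtain ⟨ζ, hζ⟩ := (Submodule.mem_span_range_iff_exists_fun ℂ).1 hz
  refine ⟨∑ e ∈ bx n a, Polynomial.C ((∏ i, ζ i ^ e i) * DW e x F g) *
    Polynomial.X ^ (∑ i, e i), ?_, ?_⟩
  · rw [Polynomial.degree_lt_iff_coeff_zero]
    intro k hk
    rw [Polynomial.finsetSum_coeff]
    apply Finset.sum_eq_zero
    intro e _
    rw [Polynomial.coeff_C_mul, Polynomial.coeff_X_pow]
    by_cases hke : k = ∑ i, e i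
    · rw [h e (hke ▸ hk) x g hg, mul_zero, zero_mul]
    · rw [if_neg hke, mul_zero]
  · intro c
    have h1 : (fun i => (ln n x + c • z) * g i) =
        fun j => (ln n x + ∑ i, (c * ζ i) • (X i.succ.succ : Sn n)) * g j := by
      funext j
      rw [← hζ, Finset.smul_sum]
      congr 2
      apply Finset.sum_congr rfl
      intro i _
      rw [smul_smul]
    rw [h1, genW, Polynomial.eval_finsetSum]
    apply Finset.sum_congr rfl
    intro e _
    rw [Polynomial.eval_mul, Polynomial.eval_C, Polynomial.eval_pow, Polynomial.eval_X]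
    have h2 : ∏ i, (c * ζ i) ^ e i = c ^ (∑ i, e i) * ∏ i, ζ i ^ e i := by
      rw [← Finset.prod_pow_eq_pow_sum, ← Finset.prod_mul_distrib]
      apply Finset.prod_congr rfl
      intro i _
      rw [mul_pow]
    rw [h2]
    ring

/-- Independence of the light variables. -/
theorem q2_of_DW {a b : ℕ} (L : Finset (Fin n)) (F : Fm n a)
    (h : ∀ e : Fin n → ℕ, (∃ i ∈ L, 1 ≤ e i) → ∀ (x : ℂ) (g : Fin a → Sn n), Dg b g →
      DW e x F g = 0) (x : ℂ) (c : Fin n → ℂ) (g : Fin a → Sn n) (hg : Dg b g) :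
    F (fun j => (ln n x + ∑ i, c i • (X i.succ.succ : Sn n)) * g j) =
      F (fun j => (ln n x + ∑ i, (if i ∈ L then 0 else c i) • (X i.succ.succ : Sn n)) * g j) := by
  classical
  rw [genW, genW x F g (fun i => if i ∈ L then 0 else c i)]
  apply Finset.sum_congr rfl
  intro e _
  by_cases he : ∃ i ∈ L, 1 ≤ e i
  · rw [h e he x g hg, mul_zero, mul_zero]
  · push Not at he
    congr 1
    apply Finset.prod_congr rfl
    intro i _
    by_cases hi : i ∈ L
    · have : e i = 0 := by
        have := he i hi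
        omega
      rw [this, pow_zero, pow_zero]
    · rw [if_neg hi]

/-- Stage `s` with the light variables `L`: both consequences of the induction hypothesis. -/
theorem stage {a b s : ℕ} {w : Fin n → ℕ} (hs : 1 ≤ s) (L : Finset (Fin n))
    (hK : ∀ e : Fin n → ℕ, e ≤ w →
      s ≤ ∑ i ∈ Finset.univ.filter (fun i => i ∉ L), e i + s * ∑ i ∈ L, e i → KW n a b (w - e))
    (F : Fm n a) (hsy : IsSymm F) (hI : Inv (b + 1) F) (hH : HomW (b + 1) w F)
    (hF : IsK (linS (n + 2)) (b + 1) F) :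
    QQ s (b + 1) F ∧ ∀ (x : ℂ) (c : Fin n → ℂ) (g : Fin a → Sn n), Dg b g →
      F (fun j => (ln n x + ∑ i, c i • (X i.succ.succ : Sn n)) * g j) =
      F (fun j => (ln n x + ∑ i, (if i ∈ L then 0 else c i) • (X i.succ.succ : Sn n)) * g j) := by
  classical
  have h0 := tstepW {e : Fin n → ℕ |
    s ≤ ∑ i ∈ Finset.univ.filter (fun i => i ∉ L), e i + s * ∑ i ∈ L, e i} (by
      intro e he e' hee'
      have he1 : s ≤ ∑ i ∈ Finset.univ.filter (fun i => i ∉ L), e i + s * ∑ i ∈ L, e i := he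
      change s ≤ ∑ i ∈ Finset.univ.filter (fun i => i ∉ L), e' i + s * ∑ i ∈ L, e' i
      refine he1.trans (Nat.add_le_add (Finset.sum_le_sum fun i _ => hee' i)
        (Nat.mul_le_mul_left _ (Finset.sum_le_sum fun i _ => hee' i))))
    (fun e he hew => hK e hew he) F hsy hI hH hF
  refine ⟨qq_of_DW F ?_, q2_of_DW L F ?_⟩
  · intro e he x g hg
    refine h0 e ?_ x g hg
    change s ≤ ∑ i ∈ Finset.univ.filter (fun i => i ∉ L), e i + s * ∑ i ∈ L, e i
    have h1 : ∑ i, e i = ∑ i ∈ Finset.univ.filter (fun i => i ∉ L), e i + ∑ i ∈ L, e i := by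
      rw [← Finset.sum_filter_add_sum_filter_not Finset.univ (fun i => i ∉ L) e]
      congr 1
      apply Finset.sum_congr _ (fun _ _ => rfl)
      ext i
      simp
    have h2 : ∑ i ∈ L, e i ≤ s * ∑ i ∈ L, e i := Nat.le_mul_of_pos_left _ (by omega)
    omega
  · intro e ⟨i, hiL, hi⟩ x g hg
    refine h0 e ?_ x g hg
    change s ≤ ∑ i ∈ Finset.univ.filter (fun i => i ∉ L), e i + s * ∑ i ∈ L, e i
    have h1 : 1 ≤ ∑ i ∈ L, e i := hi.trans (Finset.single_le_sum (fun _ _ => Nat.zero_le _) hiL)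
    have h2 : s * 1 ≤ s * ∑ i ∈ L, e i := Nat.mul_le_mul_left _ h1
    omega

end Vale.Agent.P181.TW
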