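import Vale.Agent.P181.T9.Sub

set_option autoImplicit false

/-!
# P181, T9: class sizes and totals of the marks, unequal rows
-/

namespace Vale.Agent.P181.T9

open Finset

/-- **[C-TOT]** -/
theorem totB : TotB := by
  intro μ T k R M Θ hμ hk hR hsum hlev hT hΘ1 hΘ2
  have hRpos : 0 < R := by omega
  let t1 : ℕ → ℕ := fun i => T i + k * i + (μ i - T i) % k
  let w1 : ℕ → ℕ := fun i => (μ i - T i) / k - i
  have hkR : ∀ i < R, k * i + k + k ≤ k * (R + 1) := by
    intro i hi
    have h1 : k * (i + 2) ≤ k * (R + 1) := Nat.mul_le_mul_left _ (by omega)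
    have h2 : k * (i + 2) = k * i + k + k := by ring
    omega
  have hx : ∀ i, 1 ≤ i → i < R → i < (μ i - T i) / k := by
    intro i hi1 hi
    rw [Nat.lt_div_iff_mul_lt hk]
    have h1 := hT i hi1 hi
    have h2 := hkR i hi
    have h3 : k * i = i * k := Nat.mul_comm _ _
    omega
  have h1 : ∀ i, 1 ≤ i → i < R → μ i = k * w1 i + t1 i := by
    intro i hi1 hi
    have h2 := Nat.div_add_mod (μ i - T i) k
    have h3 := hx i hi1 hi
    have h4 := hT i hi1 hi
    have h5 : k * w1 i + k * i = k * ((μ i - T i) / k) := by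
      rw [← Nat.mul_add]
      congr 1
      change (μ i - T i) / k - i + i = _
      omega
    change μ i = k * w1 i + (T i + k * i + (μ i - T i) % k)
    omega
  have ht1 : ∀ i, 1 ≤ i → i < R → T i + k ≤ t1 i ∧ t1 i + k ≤ T i + k * (R + 1) := by
    intro i hi1 hi
    have h2 := Nat.mod_lt (μ i - T i) hk
    have h3 := hkR i hi
    have h4 : k * 1 ≤ k * i := Nat.mul_le_mul_left _ hi1
    rw [Nat.mul_one] at h4
    change T i + k ≤ T i + k * i + (μ i - T i) % k ∧
      T i + k * i + (μ i - T i) % k + k ≤ T i + k * (R + 1)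
    omega
  set S := ∑ i ∈ Ico 1 R, t1 i with hS
  set V := ∑ i ∈ Ico 1 R, w1 i with hV
  have hSle : S ≤ ∑ i ∈ Ico 1 R, (T i + k * (R + 1)) := by
    rw [hS]
    refine Finset.sum_le_sum fun i hi => ?_
    have := ht1 i (Finset.mem_Ico.1 hi).1 (Finset.mem_Ico.1 hi).2
    omega
  have hSge : ∑ i ∈ Ico 1 R, T i + k ≤ S := by
    have h2 : ∑ i ∈ Ico 1 R, (T i + k) ≤ S := by
      rw [hS]
      exact Finset.sum_le_sum fun i hi =>
        (ht1 i (Finset.mem_Ico.1 hi).1 (Finset.mem_Ico.1 hi).2).1
    rw [Finset.sum_add_distrib, Finset.sum_const, Nat.card_Ico, smul_eq_mul] at h2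
    have h3 : 1 * k ≤ (R - 1) * k := Nat.mul_le_mul_right _ (by omega)
    omega
  have hSΘ : S ≤ Θ := hSle.trans hΘ2
  have ht0 : Θ - S ≤ T 1 := by omega
  have hsumμ : ∑ i ∈ range R, μ i = μ 0 + (k * V + S) := by
    rw [Finset.range_eq_Ico, Finset.sum_eq_sum_Ico_succ_bot hRpos]
    congr 1
    rw [hV, hS, Finset.mul_sum, ← Finset.sum_add_distrib]
    refine Finset.sum_congr (by simp) fun i hi => ?_
    exact h1 i (Finset.mem_Ico.1 hi).1 (Finset.mem_Ico.1 hi).2
  have hT1 := hT 1 le_rfl (by omega)
  have hμ01 : μ 1 ≤ μ 0 := hμ (by omega)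
  have hVM : V ≤ M := by
    have h2 : k * V ≤ k * M := by omega
    exact Nat.le_of_mul_le_mul_left h2 hk
  have hkV : k * V ≤ k * M := Nat.mul_le_mul_left _ hVM
  have h5 : k * (M - V) = k * M - k * V := Nat.mul_sub _ _ _
  refine ⟨fun i => if i = 0 then M - V else w1 i, fun i => if i = 0 then Θ - S else t1 i,
    ?_, ?_, ?_, ?_, ?_, ?_, ?_⟩
  · intro i hi
    rcases Nat.eq_zero_or_pos i with h0 | h0
    · subst h0
      simp only [if_true]
      omega
    · simp only [show i ≠ 0 by omega, if_false]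
      exact h1 i h0 hi
  · rw [Finset.range_eq_Ico, Finset.sum_eq_sum_Ico_succ_bot hRpos]
    have : ∑ i ∈ Ico (0 + 1) R, (if i = 0 then Θ - S else t1 i) = S := by
      rw [hS]
      refine Finset.sum_congr (by simp) fun i hi => ?_
      rw [if_neg (by have := (Finset.mem_Ico.1 hi).1; omega)]
    rw [this]
    simp only [if_true]
    omega
  · rw [Finset.range_eq_Ico, Finset.sum_eq_sum_Ico_succ_bot hRpos]
    have : ∑ i ∈ Ico (0 + 1) R, (if i = 0 then M - V else w1 i) = V := by
      rw [hV]
      refine Finset.sum_congr (by simp) fun i hi => ?_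
      rw [if_neg (by have := (Finset.mem_Ico.1 hi).1; omega)]
    rw [this]
    simp only [if_true]
    omega
  · intro i hi
    rcases Nat.eq_zero_or_pos i with h0 | h0
    · subst h0
      simp only [zero_add, show (1 : ℕ) ≠ 0 by omega, if_false, if_true]
      have h2 := h1 1 le_rfl (by omega)
      have h3 := (ht1 1 le_rfl (by omega)).1
      have h6 : k * w1 1 < k * (M - V) := by
        rw [h5]
        omega
      exact Nat.lt_of_mul_lt_mul_left h6
    · simp only [show i ≠ 0 by omega, show i + 1 ≠ 0 by omega, if_false]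
      rcases hlev i h0 hi with hl | hl
      · have h2 := hx (i + 1) (by omega) hi
        have h3 : (μ (i + 1) - T (i + 1)) / k ≤ (μ i - T i) / k := by
          rw [hl]
          exact Nat.div_le_div_right (Nat.sub_le_sub_right (hμ (by omega)) _)
        change (μ (i + 1) - T (i + 1)) / k - (i + 1) < (μ i - T i) / k - i
        omega
      · have h2 := h1 i h0 (by omega)
        have h3 := h1 (i + 1) (by omega) hi
        have h4 := (ht1 i h0 (by omega)).2
        have h6 : k * w1 (i + 1) < k * w1 i := by omega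
        exact Nat.lt_of_mul_lt_mul_left h6
  · intro i hi1 hi
    simp only [show i ≠ 0 by omega, if_false]
    have := ht1 i hi1 hi
    exact ⟨by omega, by omega⟩
  · simp only [if_true]
    exact ht0
  · simp only [if_true]
    omega

end Vale.Agent.P181.T9
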