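import Vale.Agent.P181.H403.Dec2
import Vale.Agent.P181.T9.Spec

set_option autoImplicit false

/-! # P181, T9: the reduction with prescribed numbers of columns -/

namespace Vale.Agent.P181.T9

open Vale.Agent.P181.T4 Vale.Agent.P181.T7 Vale.Agent.P181.H280 Vale.Agent.P181.H463
open Vale.Agent.P181.H403

/-- the numbers of columns of the shape. -/
lemma ex_shp_step {a R : ℕ} {lam : Fin a → ℕ} (hRa : R < a) (f : ℕ → ℕ) {j : ℕ} (hj : 1 ≤ j)
    (hjR : j ≤ R) : ex (shp lam R f) (j - 1) = ex (shp lam R f) j + f j := by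
  have hrI : j ∈ Finset.Icc 1 R := Finset.mem_Icc.2 ⟨hj, hjR⟩
  rw [ex_shp lam hRa.le, ex_shp lam hRa.le, max_eq_right hjR, max_eq_right (by omega : j - 1 ≤ R),
    add_assoc]
  congr 1
  rw [← Finset.add_sum_erase _ _ hrI, ← Finset.add_sum_erase _ (fun i =>
    if j < i then f i else 0) hrI, if_pos (by omega), if_neg (lt_irrefl j), zero_add, add_comm]
  congr 1
  refine Finset.sum_congr rfl fun i hi => ?_
  rw [Finset.mem_erase] at hi
  by_cases h : j < i
  · rw [if_pos h, if_pos (by omega)]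
  · rw [if_neg h, if_neg (by omega)]

/-- **(DecB)** -/
theorem decB : DecB := by
  intro a b R X k0 e lam hlam hsum hR1 hRa hk0 hk0a hX heg hZ hb hER
  classical
  set Z : ℕ := R * ex lam R + 2 * a * R ^ 2 + ∑ i, low R lam i with hZdef
  set E : ℕ := ∑ j ∈ Finset.Icc 1 R, j * e j with hE
  obtain ⟨i, hiI, hmax⟩ := Finset.exists_max_image (Finset.Icc 1 R) (fun j => j * cg lam j)
    ⟨1, Finset.mem_Icc.2 ⟨le_rfl, hR1⟩⟩
  obtain ⟨hi, hiR⟩ := Finset.mem_Icc.1 hiI
  obtain ⟨k, hkk0, hkk1, hka, hdk⟩ := ar4 hi hk0a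
  have hk1 : 1 ≤ k := by omega
  have hkR : k ≤ k0 + 2 * R := by omega
  have hegc : ∀ j, 1 ≤ j → j ≤ R → e j ≤ cg lam j := by
    intro j h1 h2
    have := heg j h1 h2
    unfold cg
    omega
  set rr : ℕ → ℕ := fun j => e j + (cg lam j - e j) % (2 * a) with hrr
  set c : ℕ → ℕ := fun j => (cg lam j - e j) / (2 * a) with hc
  have hrc : ∀ j, 1 ≤ j → j ≤ R → j ≠ i → cg lam j = rr j + 2 * a * c j := by
    intro j hj1 hj2 _
    have h1 := Nat.mod_add_div (cg lam j - e j) (2 * a)
    have h2 := hegc j hj1 hj2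
    simp only [hrr, hc]
    omega
  set S : ℕ := ∑ j ∈ (Finset.Icc 1 R).erase i, j * c j with hS
  set D' : ℕ := lng lam R + ∑ j ∈ (Finset.Icc 1 R).erase i, j * rr j with hD'
  -- the number of the cells
  have hcells := sum_cells hlam hRa.le
  rw [hsum] at hcells
  have htot2 : ∑ j ∈ Finset.Icc 1 R, j * cg lam j = i * cg lam i +
      (∑ j ∈ (Finset.Icc 1 R).erase i, j * rr j + 2 * a * S) := by
    rw [← Finset.add_sum_erase _ _ hiI]
    congr 1
    rw [hS, Finset.mul_sum, ← Finset.sum_add_distrib]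
    refine Finset.sum_congr rfl fun j hj => ?_
    rw [Finset.mem_erase, Finset.mem_Icc] at hj
    rw [hrc j hj.2.1 hj.2.2 hj.1]
    ring
  have htot3 : a * b = i * cg lam i + D' + 2 * a * S := by
    rw [hcells, htot2, hD']
    ring
  have ha0 : 0 < a := by omega
  have hSb : 2 * S ≤ b := by
    by_contra hlt
    have h1 : a * (b + 1) ≤ a * (2 * S) := Nat.mul_le_mul_left _ (by omega)
    have h2 : a * (2 * S) = 2 * a * S := by ring
    have h3 : a * (b + 1) = a * b + a := by ring
    omega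
  obtain ⟨B', hB'⟩ : ∃ B', B' = b - 2 * S := ⟨_, rfl⟩
  have haB : a * B' = i * cg lam i + D' := by
    have h1 : a * b = a * B' + 2 * a * S := by
      have : b = B' + 2 * S := by omega
      rw [this]
      ring
    omega
  -- bounds of the remainders
  have hlng : lng lam R = R * ex lam R + ∑ i, low R lam i := lng_eq hRa.le lam
  have hE2 : i * e i + ∑ j ∈ (Finset.Icc 1 R).erase i, j * e j = E :=
    Finset.add_sum_erase _ (fun j => j * e j) hiI
  have hsumrr : ∑ j ∈ (Finset.Icc 1 R).erase i, j * rr j + i * e i =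
      ∑ j ∈ (Finset.Icc 1 R).erase i, j * ((cg lam j - e j) % (2 * a)) + E := by
    have h1 : ∑ j ∈ (Finset.Icc 1 R).erase i, j * rr j =
        ∑ j ∈ (Finset.Icc 1 R).erase i, j * e j +
        ∑ j ∈ (Finset.Icc 1 R).erase i, j * ((cg lam j - e j) % (2 * a)) := by
      rw [← Finset.sum_add_distrib]
      refine Finset.sum_congr rfl fun j _ => ?_
      simp only [hrr]
      ring
    omega
  have h3 := sum_mul_le (a := a) (R := R) ((Finset.Icc 1 R).erase i) (Finset.erase_subset _ _)
    (fun j => (cg lam j - e j) % (2 * a)) (fun j _ => (Nat.mod_lt _ (by omega)).le)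
  have hDie : D' + i * e i ≤ Z + E := by
    rw [hD', hlng, hZdef]
    omega
  have hDie2 : E ≤ D' + i * e i := by
    rw [hD']
    omega
  -- the number of the letters
  set W : ℕ := D' + i * e i with hW
  have hlng2 : 2 * lng lam R ≤ X * a := by
    calc 2 * lng lam R ≤ k0 * X := by rw [hlng]; omega
      _ ≤ a * X := Nat.mul_le_mul_right _ hk0a
      _ = X * a := Nat.mul_comm _ _
  have hsumcg : ∑ j ∈ Finset.Icc 1 R, j * cg lam j ≤ R * (i * cg lam i) := by
    calc ∑ j ∈ Finset.Icc 1 R, j * cg lam j ≤ ∑ _j ∈ Finset.Icc 1 R, i * cg lam i :=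
          Finset.sum_le_sum fun j hj => hmax j hj
      _ = R * (i * cg lam i) := by simp
  have har1 : a * X ≤ 2 * (i * cg lam i) := by
    refine Nat.le_of_mul_le_mul_left (c := R) ?_ (by omega)
    have h4 : a * ((R + 1) * X) ≤ a * (2 * b) := Nat.mul_le_mul_left _ hb
    have h5 : a * ((R + 1) * X) = R * (a * X) + X * a := by ring
    have h6 : a * (2 * b) = 2 * (a * b) := by ring
    have h7 : R * (2 * (i * cg lam i)) = 2 * (R * (i * cg lam i)) := by ring
    omega
  have har2 : 2 * (W + k) ≤ k * X := by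
    calc 2 * (W + k) ≤ k0 * X := by omega
      _ ≤ k * X := Nat.mul_le_mul_right _ hkk0
  obtain ⟨N, hNB, hdvd, hkN2, hkN⟩ := ar3 (i := i) ha0 hk1 hi har2 har1
    (show i * cg lam i ≤ a * B' by omega)
  have hiN : i ≤ N := by
    have h1 : R < N := by
      refine Nat.lt_of_mul_lt_mul_left (a := k) ?_
      calc k * R ≤ (k0 + 2 * R) * R := Nat.mul_le_mul_right _ hkR
        _ ≤ E := hER
        _ ≤ W := hDie2
        _ < k * N := hkN2
    omega
  obtain ⟨ri, hri1, hri2, hri3⟩ := dec_use hlam hsum hRa hi hiR hiN rr c hrc hka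
    hdk (by rw [← hS]; omega) (by
      rw [← hS]
      have : b - (N + 2 * S) = B' - N := by omega
      rw [this]
      exact hdvd) (by rw [← hD']; omega)
  rw [← hD'] at hri1
  have hri4 : e i ≤ ri := by
    refine Nat.le_of_mul_le_mul_left (c := i) ?_ (by omega)
    omega
  have hri5 : ri ≤ e i + 2 * k := by
    refine Nat.le_of_mul_le_mul_left (c := i) ?_ (by omega)
    rw [Nat.mul_add]
    omega
  set f : ℕ → ℕ := Function.update rr i ri with hf
  have hf1 : ∀ j, e j ≤ f j := by
    intro j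
    by_cases hj : j = i
    · rw [hj, hf, Function.update_self]
      exact hri4
    · rw [hf, Function.update_of_ne hj]
      exact Nat.le_add_right _ _
  have hf2 : ∀ j, f j ≤ e j + 2 * a := by
    intro j
    by_cases hj : j = i
    · rw [hj, hf, Function.update_self]
      omega
    · rw [hf, Function.update_of_ne hj]
      exact Nat.add_le_add_left (Nat.mod_lt _ (by omega)).le _
  refine ⟨N, k, shp lam R f, shp_anti hlam R f, hri2, hkk0, hkR, hka, ?_, ?_, hri3⟩
  · intro s hs
    rw [ex_shp lam hRa.le, max_eq_left hs, Finset.sum_eq_zero, add_zero]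
    intro j hj
    rw [Finset.mem_Icc] at hj
    rw [if_neg (by omega)]
  · intro j hj1 hj2
    have h4 := ex_shp_step (lam := lam) hRa f hj1 hj2
    have h5 := hf1 j
    have h6 := hf2 j
    omega

end Vale.Agent.P181.T9
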