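import Vale.Agent.P181.T6.Spec
import Vale.Agent.P181.H539.Growth
import Vale.Agent.P181.H921.Num

set_option autoImplicit false

/-! # P181, T6: the numerical statement `NumStmt6` -/

namespace Vale.Agent.P181.H921

open Filter Real Vale.Agent.P181.T4 Vale.Agent.P181.H463 Vale.Agent.P181.T6

/-- The first `l / 2` rows of `eta` have length at least `nu / 2`. -/
lemma rows_long {n R l cells nu : ℕ} {lam : Fin n → ℕ} (hlam : Antitone lam)
    {eta : Fin (n - R) → ℕ} (hle : ∀ i, eta i ≤ low R lam i)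
    (hsum : ∑ i, low R lam i ≤ ∑ i, eta i + cells) (heta : Antitone eta)
    (hRl : 8 * R ≤ l) (hla : l ≤ n)
    (hn : nu = ex lam (l - 1)) (hcost : 16 * cells < 3 * (l * nu))
    (i : Fin (n - R)) (hi : (i : ℕ) < l / 2) : nu ≤ 2 * eta i := by
  by_contra hcon
  push Not at hcon
  have h1 : ∀ j : Fin (n - R), 2 * eta j + (if i ≤ j ∧ (j : ℕ) < l - R then nu else 0) ≤
      2 * low R lam j := by
    intro j
    have h2 := hle j
    split_ifs with hj
    · have h3 : eta j ≤ eta i := heta hj.1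
      have h4 : nu ≤ low R lam j := by
        rw [hn]
        exact ex_anti hlam (by omega)
      omega
    · omega
  have h2 := Finset.sum_le_sum (fun j (_ : j ∈ Finset.univ) => h1 j)
  rw [Finset.sum_add_distrib, ← Finset.mul_sum, ← Finset.mul_sum, ← Finset.sum_filter,
    Finset.sum_const, smul_eq_mul] at h2
  have h3 : l - R - i ≤ (Finset.univ.filter
      (fun j : Fin (n - R) => i ≤ j ∧ (j : ℕ) < l - R)).card := by
    rw [← Nat.card_Ico]
    refine Finset.card_le_card_of_injOn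
      (fun k => if h : k < n - R then (⟨k, h⟩ : Fin (n - R)) else i) ?_ ?_
    · intro k hk
      rw [Finset.coe_Ico, Set.mem_Ico] at hk
      have hk2 : k < n - R := by omega
      simp only [hk2, dif_pos, Finset.coe_filter, Finset.mem_univ, true_and, Set.mem_ofPred_eq]
      exact ⟨hk.1, hk.2⟩
    · intro k hk k' hk' hkk
      rw [Finset.coe_Ico, Set.mem_Ico] at hk hk'
      have hk2 : k < n - R := by omega
      have hk2' : k' < n - R := by omega
      simp only [hk2, hk2', dif_pos, Fin.mk.injEq] at hkk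
      exact hkk
  have h4 : 3 * l ≤ 8 * (l - R - i) := by omega
  have h5 : 3 * l * nu ≤ 8 * ((Finset.univ.filter
      (fun j : Fin (n - R) => i ≤ j ∧ (j : ℕ) < l - R)).card * nu) := by
    calc 3 * l * nu ≤ 8 * (l - R - i) * nu := Nat.mul_le_mul_right _ h4
      _ ≤ 8 * (Finset.univ.filter
      (fun j : Fin (n - R) => i ≤ j ∧ (j : ℕ) < l - R)).card * nu := by gcongr
      _ = _ := by ring
  have h6 : 3 * l * nu = 3 * (l * nu) := by ring
  omega

lemma sum_low_le {n R : ℕ} (hR : R ≤ n) (lam : Fin n → ℕ) :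
    ∑ i, low R lam i ≤ ∑ i, lam i := by
  rw [sum_split hR lam]
  exact Nat.le_add_left _ _

lemma one_add_ge_exp {x : ℝ} (h0 : 0 ≤ x) (h1 : x ≤ 1) : Real.exp (x / 2) ≤ 1 + x := by
  have h2 : 1 - x / 2 ≤ Real.exp (-(x / 2)) := by
    have := Real.add_one_le_exp (-(x / 2))
    linarith
  have h3 : Real.exp (x / 2) * Real.exp (-(x / 2)) = 1 := by
    rw [← Real.exp_add]
    simp
  have h4 : Real.exp (x / 2) * (1 - x / 2) ≤ 1 :=
    (mul_le_mul_of_nonneg_left h2 (Real.exp_pos _).le).trans h3.le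
  have h5 : 0 < 1 - x / 2 := by linarith
  have h6 : 1 ≤ (1 + x) * (1 - x / 2) := by nlinarith
  nlinarith

/-- the gain -/
lemma gain6 {a N l n0 : ℕ} {mu : ℝ} (hl5 : 5 ≤ l) (haN : 10 * a ≤ N) (hlog : 1 ≤ Real.log a)
    (hmu0 : 0 ≤ mu) (hmul : mu ≤ l)
    (hn0 : mu / (3 * Real.log a * l) ≤ (n0 : ℝ) / N) :
    Real.exp ((6 / 100) * ((N : ℝ) * mu / Real.log a)) ≤
      (1 + (n0 : ℝ) / N) ^ (l / 2 * (N - a)) := by
  set k : ℕ := l / 2 * (N - a) with hk
  have hlR : (0 : ℝ) < l := by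
    have : 0 < l := by omega
    exact_mod_cast this
  have hk1 : (9 / 25) * ((N : ℝ) * l) ≤ k := by
    have h1 : (2 * l : ℝ) ≤ 5 * (l / 2 : ℕ) := by
      have : 2 * l ≤ 5 * (l / 2) := by omega
      exact_mod_cast this
    have h2 : (9 * N : ℝ) ≤ 10 * (N - a : ℕ) := by
      have : 9 * N ≤ 10 * (N - a) := by omega
      exact_mod_cast this
    rw [hk, Nat.cast_mul]
    have h3 : (0 : ℝ) ≤ (l / 2 : ℕ) := Nat.cast_nonneg _
    have h4 : (0 : ℝ) ≤ (9 * N : ℝ) := by positivity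
    calc (9 / 25) * ((N : ℝ) * l) = (2 * l) * (9 * N) / 50 := by ring
      _ ≤ (5 * (l / 2 : ℕ)) * (10 * (N - a : ℕ)) / 50 := by gcongr
      _ = _ := by ring
  set x : ℝ := mu / (3 * Real.log a * l) with hx
  have hx0 : 0 ≤ x := by positivity
  have hx1 : x ≤ 1 := by
    rw [hx, div_le_one (by positivity)]
    calc mu ≤ l := hmul
      _ = 1 * l := (one_mul _).symm
      _ ≤ 3 * Real.log a * l := by
        gcongr
        linarith
  have h5 := one_add_ge_exp hx0 hx1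
  calc Real.exp ((6 / 100) * ((N : ℝ) * mu / Real.log a))
      = Real.exp ((9 / 25) * ((N : ℝ) * l) * (x / 2)) := by
        congr 1
        rw [hx]
        field_simp
        ring
    _ ≤ Real.exp (k * (x / 2)) := by
        apply Real.exp_le_exp.2
        gcongr
    _ = (Real.exp (x / 2)) ^ k := by rw [Real.exp_nat_mul]
    _ ≤ (1 + x) ^ k := by gcongr
    _ ≤ _ := by gcongr

/-- the cost -/
lemma cost_le {a b L R N cells m : ℕ} {mu : ℝ} (ha : 3 ≤ a)
    (hL : (L : ℝ) + a ≤ (a : ℝ) ^ 4)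
    (hlog : 2 ≤ Real.log a) (hN : 1 ≤ N) (hNb : N ≤ b) (hm : m ≤ a * b)
    (hbN : (b : ℝ) ≤ 3 * Real.log a * N)
    (hc : 100 * (cells : ℝ) * Real.log a ^ 3 ≤ (N : ℝ) * mu)
    (hR : 400 * Real.log a ^ 2 * (a * R) ≤ N * mu)
    (hmu : 375 * Real.log a ^ 3 ≤ mu) :
    ((L : ℝ) + 1) ^ (a * R) * (a : ℝ) ^ cells * ((m + N - 1).choose (N - 1) : ℝ) *
      Real.exp (2 * b) ≤ Real.exp ((6 / 100) * ((N : ℝ) * mu / Real.log a)) := by
  have ha' : (3 : ℝ) ≤ a := by exact_mod_cast ha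
  have hlog0 : 0 < Real.log a := by linarith
  have hN' : (1 : ℝ) ≤ N := by exact_mod_cast hN
  have hmu0 : 0 ≤ mu := le_trans (by positivity) hmu
  have q1 := L_pow_le_exp (R := R) (L := L) ha hL
  have q2 : (a : ℝ) ^ cells = Real.exp (cells * Real.log a) := by
    rw [mul_comm, Real.exp_mul, Real.exp_log (by linarith), Real.rpow_natCast]
  have q3 := choose_le_exp (a := a) (b := b) (m := m) (N := N) ha hm hN hNb
  have r1 : 4 * Real.log a * (a * R) ≤ (1 / 100) * ((N : ℝ) * mu / Real.log a) := by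
    rw [← mul_div_assoc, le_div_iff₀ hlog0]
    linarith
  have r2 : (cells : ℝ) * Real.log a ≤ (1 / 100) * ((N : ℝ) * mu / Real.log a) := by
    rw [← mul_div_assoc, le_div_iff₀ hlog0]
    have h1 : 100 * (cells : ℝ) * Real.log a ^ 2 * 1 ≤
        100 * (cells : ℝ) * Real.log a ^ 2 * Real.log a := by
      gcongr
      linarith
    have h2 : 100 * (cells : ℝ) * Real.log a ^ 2 * Real.log a =
        100 * (cells : ℝ) * Real.log a ^ 3 := by ring
    linarith
  have r3 : 3 * Real.log a * (b : ℝ) + 2 * b ≤ (4 / 100) * ((N : ℝ) * mu / Real.log a) := by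
    rw [← mul_div_assoc, le_div_iff₀ hlog0]
    have h1 : 2 * (b : ℝ) ≤ Real.log a * b := by gcongr
    have h2 : (3 * Real.log a * (b : ℝ) + 2 * b) * Real.log a ≤
        (3 * Real.log a * (b : ℝ) + Real.log a * b) * Real.log a := by gcongr
    have h3 : (3 * Real.log a * (b : ℝ) + Real.log a * b) * Real.log a =
        4 * Real.log a ^ 2 * b := by ring
    have h4 : 4 * Real.log a ^ 2 * (b : ℝ) ≤ 4 * Real.log a ^ 2 * (3 * Real.log a * N) := by
      gcongr
    have h5 : 4 * Real.log a ^ 2 * (3 * Real.log a * N) = 12 * Real.log a ^ 3 * N := by ring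
    have h6 : 375 * Real.log a ^ 3 * (N : ℝ) ≤ mu * N := by gcongr
    have h7 : (0 : ℝ) ≤ Real.log a ^ 3 * N := by positivity
    linarith
  calc _ ≤ Real.exp (4 * Real.log a * (a * R)) * Real.exp (cells * Real.log a) *
        Real.exp (3 * Real.log a * b) * Real.exp (2 * b) := by
        rw [q2]
        gcongr
    _ = Real.exp (4 * Real.log a * (a * R) + cells * Real.log a +
        3 * Real.log a * b + 2 * b) := by
        rw [Real.exp_add, Real.exp_add, Real.exp_add]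
    _ ≤ _ := by
        apply Real.exp_le_exp.2
        linarith

/-- the bound for the number of top rows -/
lemma top_rows {a k l N R : ℕ} {y : ℝ} (ha : 3 ≤ a) (hlog : 2 ≤ Real.log a)
    (hy : 3600 * Real.log a ^ 4 ≤ y) (hk0 : 0 < k)
    (hk2 : (a : ℝ) * y ^ 4 ≤ (k : ℝ) ^ 2) (hl : l ≤ a) (hl1 : 1 ≤ l)
    (hN : (a : ℝ) * y ^ 2 ≤ 3 * Real.log a * N)
    (hkR : (k : ℝ) * R ≤ y * (k + l)) :
    400 * Real.log a ^ 2 * (a * R) ≤ N * ((min k l : ℕ) : ℝ) := by
  have ha' : (3 : ℝ) ≤ a := by exact_mod_cast ha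
  have ha0 : (0 : ℝ) < a := by linarith
  have hlog0 : 0 < Real.log a := by linarith
  have hkR0 : (0 : ℝ) < k := by exact_mod_cast hk0
  have hlR : (1 : ℝ) ≤ l := by exact_mod_cast hl1
  have hla : (l : ℝ) ≤ a := by exact_mod_cast hl
  have hlog4 : 16 ≤ Real.log a ^ 4 := by
    calc (16 : ℝ) = 2 ^ 4 := by norm_num
      _ ≤ Real.log a ^ 4 := pow_le_pow_left₀ (by norm_num) hlog 4
  have hy0 : 1 ≤ y := by linarith
  have hlog3 : 2400 * Real.log a ^ 3 ≤ y := by
    have h1 : Real.log a ^ 3 * 1 ≤ Real.log a ^ 3 * Real.log a := by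
      gcongr
      linarith
    have h2 : Real.log a ^ 3 * Real.log a = Real.log a ^ 4 := by ring
    linarith
  -- `1200 log^2 a * a * y ≤ N`-type inequality
  have hN2 : 800 * Real.log a ^ 2 * (a * y) ≤ N := by
    have h1 : 3 * Real.log a * (800 * Real.log a ^ 2 * (a * y)) ≤ 3 * Real.log a * N := by
      calc 3 * Real.log a * (800 * Real.log a ^ 2 * (a * y))
          = (2400 * Real.log a ^ 3) * (a * y) := by ring
        _ ≤ y * (a * y) := by gcongr
        _ = (a : ℝ) * y ^ 2 := by ring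
        _ ≤ _ := hN
    exact le_of_mul_le_mul_left h1 (by positivity)
  have key : (k : ℝ) * (400 * Real.log a ^ 2 * (a * R)) ≤ k * (N * ((min k l : ℕ) : ℝ)) := by
    have h0 : (k : ℝ) * (400 * Real.log a ^ 2 * (a * R)) ≤
        400 * Real.log a ^ 2 * (a * (y * (k + l))) := by
      calc (k : ℝ) * (400 * Real.log a ^ 2 * (a * R))
          = 400 * Real.log a ^ 2 * (a * (k * R)) := by ring
        _ ≤ _ := by gcongr
    refine h0.trans ?_
    rcases le_total l k with h | h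
    · have hlk : (l : ℝ) ≤ k := by exact_mod_cast h
      rw [min_eq_right h]
      calc 400 * Real.log a ^ 2 * (a * (y * (k + l)))
          ≤ 400 * Real.log a ^ 2 * (a * (y * (k + k))) := by gcongr
        _ = k * ((800 * Real.log a ^ 2 * (a * y)) * 1) := by ring
        _ ≤ k * (N * l) := by gcongr
    · have hlk : (k : ℝ) ≤ l := by exact_mod_cast h
      rw [min_eq_left h]
      have hy4 : y * (2 * a) ≤ 2 * (k : ℝ) ^ 2 := by
        calc y * (2 * a) = 2 * (a * (y * 1)) := by ring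
          _ ≤ 2 * (a * (y * y ^ 3)) := by
            gcongr
            exact one_le_pow₀ hy0
          _ = 2 * (a * y ^ 4) := by ring
          _ ≤ _ := by gcongr
      have hN3 : 800 * Real.log a ^ 2 * (a * 1) ≤ N := by
        refine le_trans ?_ hN2
        gcongr
      calc 400 * Real.log a ^ 2 * (a * (y * (k + l)))
          ≤ 400 * Real.log a ^ 2 * (a * (y * (a + a))) := by
            gcongr
            exact h.trans hl
        _ = 400 * Real.log a ^ 2 * (a * (y * (2 * a))) := by ring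
        _ ≤ 400 * Real.log a ^ 2 * (a * (2 * (k : ℝ) ^ 2)) := by gcongr
        _ = (800 * Real.log a ^ 2 * (a * 1)) * (k * k) := by ring
        _ ≤ N * (k * k) := by gcongr
        _ = k * (N * k) := by ring
  exact le_of_mul_le_mul_left key hkR0

/-- `l` and `k` are large -/
lemma big_of {a l : ℕ} {y : ℝ} (hlog : 2 ≤ Real.log a) (hy : 3600 * Real.log a ^ 4 ≤ y)
    (hly : y ^ 2 ≤ (1 + Real.log a) * l) : 375 * Real.log a ^ 3 ≤ l := by
  have hlog0 : 0 < Real.log a := by linarith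
  have hlog4 : 16 ≤ Real.log a ^ 4 := by
    calc (16 : ℝ) = 2 ^ 4 := by norm_num
      _ ≤ Real.log a ^ 4 := pow_le_pow_left₀ (by norm_num) hlog 4
  have hy1 : 1 ≤ y := by linarith
  have hlog15 : 1 + Real.log a ≤ (3 / 2) * Real.log a := by linarith
  have h1 : Real.log a * (375 * Real.log a ^ 3) ≤ Real.log a * l := by
    have h2 : (3 / 2) * (Real.log a * (375 * Real.log a ^ 3)) ≤ (3 / 2) * (Real.log a * l) := by
      calc (3 / 2) * (Real.log a * (375 * Real.log a ^ 3))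
          = (1125 / 2) * Real.log a ^ 4 := by ring
        _ ≤ 3600 * Real.log a ^ 4 := by linarith
        _ ≤ y := hy
        _ = y * 1 := (mul_one _).symm
        _ ≤ y * y := by gcongr
        _ = y ^ 2 := by ring
        _ ≤ (1 + Real.log a) * l := hly
        _ ≤ ((3 / 2) * Real.log a) * l := by gcongr
        _ = _ := by ring
    linarith
  exact le_of_mul_le_mul_left h1 hlog0

lemma N_big {a N : ℕ} {y : ℝ} (hlog : 2 ≤ Real.log a) (hy : 3600 * Real.log a ^ 4 ≤ y)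
    (hNy : (a : ℝ) * y ^ 2 ≤ 3 * Real.log a * N) : 10 * a ≤ N := by
  have hlog0 : 0 < Real.log a := by linarith
  have hlog4 : 16 ≤ Real.log a ^ 4 := by
    calc (16 : ℝ) = 2 ^ 4 := by norm_num
      _ ≤ Real.log a ^ 4 := pow_le_pow_left₀ (by norm_num) hlog 4
  have hy1 : 1 ≤ y := by linarith
  have hyl : 100 * Real.log a ≤ y := by
    have h1 : Real.log a * 1 ≤ Real.log a * Real.log a ^ 3 := by
      gcongr
      exact one_le_pow₀ (by linarith)
    have h2 : Real.log a * Real.log a ^ 3 = Real.log a ^ 4 := by ring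
    linarith
  have h1 : Real.log a * (10 * (a : ℝ)) ≤ Real.log a * N := by
    have h2 : 3 * (Real.log a * (10 * (a : ℝ))) ≤ 3 * (Real.log a * N) := by
      calc 3 * (Real.log a * (10 * (a : ℝ))) = a * (30 * Real.log a) := by ring
        _ ≤ a * y := by gcongr; linarith
        _ = a * (y * 1) := by ring
        _ ≤ a * (y * y) := by gcongr
        _ = a * y ^ 2 := by ring
        _ ≤ 3 * Real.log a * N := hNy
        _ = _ := by ring
    linarith
  have h3 : (10 * (a : ℝ)) ≤ N := le_of_mul_le_mul_left h1 hlog0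
  exact_mod_cast h3

lemma cells_small {a k l N nu mu cells : ℕ} (hlog : 2 ≤ Real.log a) (hmu : mu ≤ k)
    (hc : 100 * (cells : ℝ) * Real.log a ^ 3 ≤ (N : ℝ) * mu)
    (hkN : 2 * ((k : ℝ) * N) ≤ 3 * Real.log a * (l * nu)) (hlnu : (0 : ℝ) < l * nu) :
    16 * cells < 3 * (l * nu) := by
  have hlog0 : 0 < Real.log a := by linarith
  have hmuk : (mu : ℝ) ≤ k := by exact_mod_cast hmu
  have h1 : 200 * (cells : ℝ) * Real.log a ^ 3 ≤ 3 * Real.log a * (l * nu) := by
    calc 200 * (cells : ℝ) * Real.log a ^ 3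
        = 2 * (100 * (cells : ℝ) * Real.log a ^ 3) := by ring
      _ ≤ 2 * ((N : ℝ) * mu) := by gcongr
      _ ≤ 2 * ((N : ℝ) * k) := by gcongr
      _ = 2 * ((k : ℝ) * N) := by ring
      _ ≤ _ := hkN
  have h2 : Real.log a * (200 * (cells : ℝ) * Real.log a ^ 2) ≤
      Real.log a * (3 * (l * nu)) := by
    calc _ = 200 * (cells : ℝ) * Real.log a ^ 3 := by ring
      _ ≤ _ := h1
      _ = _ := by ring
  have h3 : 200 * (cells : ℝ) * Real.log a ^ 2 ≤ 3 * (l * nu) :=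
    le_of_mul_le_mul_left h2 hlog0
  have h4 : 200 * (cells : ℝ) * 1 ≤ 200 * (cells : ℝ) * Real.log a ^ 2 := by
    gcongr
    exact one_le_pow₀ (by linarith)
  have h6 : 16 * (cells : ℝ) < 3 * (l * nu) := by
    have : (0 : ℝ) ≤ cells := Nat.cast_nonneg _
    rcases this.eq_or_lt with h7 | h7
    · rw [← h7]
      linarith
    · linarith
  exact_mod_cast h6

lemma rate {a k l N nu mu : ℕ} (hlog : 2 ≤ Real.log a) (hmu : mu ≤ k) (hN0 : (0 : ℝ) < N)
    (hl : (1 : ℝ) ≤ l) (hkN : 2 * ((k : ℝ) * N) ≤ 3 * Real.log a * (l * nu)) :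
    (mu : ℝ) / (3 * Real.log a * l) ≤ (((nu + 1) / 2 : ℕ) : ℝ) / N := by
  have hlog0 : 0 < Real.log a := by linarith
  have hmuk : (mu : ℝ) ≤ k := by exact_mod_cast hmu
  rw [div_le_div_iff₀ (by positivity) hN0]
  have h1 : (nu : ℝ) ≤ 2 * ((nu + 1) / 2 : ℕ) := by
    have : nu ≤ 2 * ((nu + 1) / 2) := by omega
    exact_mod_cast this
  have h2 : 2 * ((mu : ℝ) * N) ≤ 2 * ((((nu + 1) / 2 : ℕ) : ℝ) * (3 * Real.log a * l)) := by
    calc 2 * ((mu : ℝ) * N) ≤ 2 * ((k : ℝ) * N) := by gcongr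
      _ ≤ 3 * Real.log a * (l * nu) := hkN
      _ ≤ 3 * Real.log a * (l * (2 * ((nu + 1) / 2 : ℕ))) := by gcongr
      _ = _ := by ring
  linarith

lemma row0_le {a k b n : ℕ} {lam : Fin n → ℕ} (ha : 3 ≤ a) (hn : 0 < n) (hka : k ≤ a)
    (hb2 : b ≤ a ^ 2) (hs : ∑ i, lam i = k * b) : (ex lam 0 : ℝ) + a ≤ (a : ℝ) ^ 4 := by
  have ha' : (3 : ℝ) ≤ a := by exact_mod_cast ha
  have h1 : ex lam 0 ≤ a ^ 3 := by
    rw [ex_of_lt lam hn]
    calc lam ⟨0, hn⟩ ≤ ∑ i, lam i :=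
          Finset.single_le_sum (fun i _ => Nat.zero_le (lam i)) (Finset.mem_univ _)
      _ = k * b := hs
      _ ≤ a * a ^ 2 := Nat.mul_le_mul hka hb2
      _ = a ^ 3 := by ring
  have h2 : (ex lam 0 : ℝ) ≤ (a : ℝ) ^ 3 := by exact_mod_cast h1
  have h3 : (a : ℝ) ≤ (a : ℝ) ^ 3 := by
    calc (a : ℝ) = a ^ 1 := (pow_one _).symm
      _ ≤ (a : ℝ) ^ 3 := pow_le_pow_right₀ (by linarith) (by norm_num)
  calc (ex lam 0 : ℝ) + a ≤ (a : ℝ) ^ 3 + (a : ℝ) ^ 3 := by linarith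
    _ = 2 * (a : ℝ) ^ 3 := by ring
    _ ≤ a * (a : ℝ) ^ 3 := by gcongr; linarith
    _ = (a : ℝ) ^ 4 := by ring

lemma l_ge {a k b l nu : ℕ} {y ε : ℝ} (ha : 3 ≤ a) (hlog : 2 ≤ Real.log a) (hy : 0 < y)
    (hyy : (a : ℝ) ^ ε = y ^ 2) (hkb : (0 : ℝ) < (k : ℝ) * b)
    (hmass : ((k : ℝ) * b) ≤ (1 + Real.log a) * (l * nu))
    (hnx : (nu : ℝ) ≤ (a : ℝ) ^ (-ε) * ((k : ℝ) * b)) : y ^ 2 ≤ (1 + Real.log a) * l := by
  have ha' : (3 : ℝ) ≤ a := by exact_mod_cast ha
  have ha0 : (0 : ℝ) < a := by linarith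
  have h1 : (k : ℝ) * b ≤ (1 + Real.log a) * (l * ((a : ℝ) ^ (-ε) * ((k : ℝ) * b))) := by
    refine hmass.trans ?_
    gcongr
  have h2 : ((k : ℝ) * b) * 1 ≤ ((k : ℝ) * b) * ((1 + Real.log a) * l * (a : ℝ) ^ (-ε)) := by
    calc ((k : ℝ) * b) * 1 = (k : ℝ) * b := mul_one _
      _ ≤ _ := h1
      _ = _ := by ring
  have h3 : 1 ≤ (1 + Real.log a) * l * (a : ℝ) ^ (-ε) := le_of_mul_le_mul_left h2 hkb
  rw [Real.rpow_neg ha0.le, hyy, ← div_eq_mul_inv, le_div_iff₀ (by positivity)] at h3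
  linarith

/-- The inequality from the numbers. -/
lemma core6t {a k b n : ℕ} {lam : Fin n → ℕ} {y : ℝ} (ha : 3 ≤ a) (hna : n ≤ a)
    (hlog : 2 ≤ Real.log a) (hy : 3600 * Real.log a ^ 4 ≤ y)
    (hka : k ≤ a) (hb2 : b ≤ a ^ 2) (hlam : Antitone lam) (hs : ∑ i, lam i = k * b)
    (hk2 : (a : ℝ) * y ^ 4 ≤ (k : ℝ) ^ 2) (hky : y ^ 2 ≤ k)
    {R N l cells : ℕ} {eta : Fin (n - R) → ℕ} (hl1 : 1 ≤ l) (hln : l ≤ n)
    (hly : y ^ 2 ≤ (1 + Real.log a) * l)
    (hmass : ((k : ℝ) * b) ≤ (1 + Real.log a) * (l * ex lam (l - 1))) (hRl : 8 * R ≤ l)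
    (hkR : (k : ℝ) * R ≤ y * (k + l)) (hNb : N ≤ b) (hbN3 : (b : ℝ) ≤ 3 * Real.log a * N)
    (hNy : (a : ℝ) * y ^ 2 ≤ 3 * Real.log a * N)
    (hc : 100 * (cells : ℝ) * Real.log a ^ 3 ≤ (N : ℝ) * (min k l : ℕ))
    (heta : Antitone eta)
    (hle : ∀ i, eta i ≤ low R lam i) (hsum : ∑ i, low R lam i ≤ ∑ i, eta i + cells) :
    ((ex lam 0 : ℝ) + 1) ^ (a * R) * (a : ℝ) ^ cells *
        (((∑ i, eta i) + N - 1).choose (N - 1) : ℝ) * (gt (n - R) a eta : ℝ) *
        Real.exp (2 * b) ≤ (gt (n - R) N eta : ℝ) := by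
  set nu : ℕ := ex lam (l - 1) with hnudef
  set mu : ℕ := min k l with hmudef
  have hlog0 : 0 < Real.log a := by linarith
  have hlog4 : 16 ≤ Real.log a ^ 4 := by
    calc (16 : ℝ) = 2 ^ 4 := by norm_num
      _ ≤ Real.log a ^ 4 := pow_le_pow_left₀ (by norm_num) hlog 4
  have hy0 : 0 < y := by linarith
  have hkpos : (0 : ℝ) < k := lt_of_lt_of_le (by positivity) hky
  have hk0 : 0 < k := by exact_mod_cast hkpos
  have hlR : (1 : ℝ) ≤ l := by exact_mod_cast hl1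
  have hl375 := big_of hlog hy hly
  have hk375 : 375 * Real.log a ^ 3 ≤ k := big_of (l := k) hlog hy (by
    refine hky.trans ?_
    calc (k : ℝ) = 1 * k := (one_mul _).symm
      _ ≤ (1 + Real.log a) * k := by gcongr; linarith)
  have hmu375 : 375 * Real.log a ^ 3 ≤ (mu : ℝ) := by
    rw [hmudef, Nat.cast_min]
    exact le_min hk375 hl375
  have hl5 : 5 ≤ l := by
    have h1 : 8 ≤ Real.log a ^ 3 := by
      calc (8 : ℝ) = 2 ^ 3 := by norm_num
        _ ≤ Real.log a ^ 3 := pow_le_pow_left₀ (by norm_num) hlog 3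
    have : (5 : ℝ) ≤ l := by linarith
    exact_mod_cast this
  have haN : 10 * a ≤ N := N_big hlog hy hNy
  have hN1 : 1 ≤ N := by omega
  have hN0 : (0 : ℝ) < N := by exact_mod_cast hN1
  have hNb' : (N : ℝ) ≤ b := by exact_mod_cast hNb
  have hkN : 2 * ((k : ℝ) * N) ≤ 3 * Real.log a * (l * nu) := by
    calc 2 * ((k : ℝ) * N) ≤ 2 * ((k : ℝ) * b) := by gcongr
      _ ≤ 2 * ((1 + Real.log a) * (l * nu)) := by gcongr
      _ = (2 * (1 + Real.log a)) * (l * nu) := by ring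
      _ ≤ (3 * Real.log a) * (l * nu) :=
        mul_le_mul_of_nonneg_right (by linarith) (by positivity)
  have hlnu : (0 : ℝ) < l * nu := by
    by_contra h
    push Not at h
    have h1 : 3 * Real.log a * (l * nu) ≤ 0 :=
      mul_nonpos_of_nonneg_of_nonpos (by positivity) h
    have h2 : (0 : ℝ) < 2 * ((k : ℝ) * N) := by positivity
    linarith
  have hmul : (mu : ℝ) ≤ l := by
    have : mu ≤ l := min_le_right _ _
    exact_mod_cast this
  have hcost : 16 * cells < 3 * (l * nu) :=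
    cells_small hlog (min_le_left _ _) hc hkN hlnu
  have hrows := rows_long hlam hle hsum heta hRl hln hnudef hcost
  have hgrow := Vale.Agent.P181.H539.gt_growth_rows (n := n - R) (a := a) (N := N) (l := l / 2)
    (n0 := (nu + 1) / 2) (by omega) (by omega) (by omega) heta (by omega)
    (fun i hi => by
      have := hrows i hi
      omega)
  have hgain := gain6 (a := a) (N := N) (l := l) (n0 := (nu + 1) / 2) (mu := (mu : ℝ)) hl5 haN
    (by linarith) (Nat.cast_nonneg _) hmul (rate hlog (min_le_left _ _) hN0 hlR hkN)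
  have hm : ∑ i, eta i ≤ a * b :=
    (Finset.sum_le_sum fun i _ => hle i).trans ((sum_low_le (by omega) lam).trans
      (hs.le.trans (Nat.mul_le_mul_right _ hka)))
  have hL : (ex lam 0 : ℝ) + a ≤ (a : ℝ) ^ 4 := row0_le ha (by omega) hka hb2 hs
  have htop := top_rows (k := k) (l := l) (N := N) (R := R) (y := y) ha hlog hy hk0 hk2
    (hln.trans hna) hl1 hNy hkR
  have hcst := cost_le (a := a) (b := b) (L := ex lam 0) (R := R) (N := N) (cells := cells)
    (m := ∑ i, eta i) (mu := (mu : ℝ)) ha hL hlog hN1 hNb hm hbN3 hc htop hmu375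
  have hG : (0 : ℝ) ≤ (gt (n - R) a eta : ℝ) := Nat.cast_nonneg _
  calc _ = (((ex lam 0 : ℝ) + 1) ^ (a * R) * (a : ℝ) ^ cells *
        (((∑ i, eta i) + N - 1).choose (N - 1) : ℝ) * Real.exp (2 * b)) *
        (gt (n - R) a eta : ℝ) := by ring
    _ ≤ (1 + (((nu + 1) / 2 : ℕ) : ℝ) / N) ^ (l / 2 * (N - a)) * (gt (n - R) a eta : ℝ) :=
        mul_le_mul_of_nonneg_right (hcst.trans hgain) hG
    _ = (gt (n - R) a eta : ℝ) * (1 + (((nu + 1) / 2 : ℕ) : ℝ) / N) ^ (l / 2 * (N - a)) :=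
        mul_comm _ _
    _ ≤ _ := hgrow

/-- The numbers, for one `a`. -/
lemma core6s {ε : ℝ} {a k b n : ℕ} {lam : Fin n → ℕ} (ha : 3 ≤ a)
    (hlog : 2 ≤ Real.log a) (hy : 3600 * Real.log a ^ 4 ≤ (a : ℝ) ^ (ε / 2))
    (hH : Hyp ε a k b n lam) {R N l cells : ℕ} {eta : Fin (n - R) → ℕ}
    (hNu : Nums ε a k b n lam R N l cells) (heta : Antitone eta)
    (hle : ∀ i, eta i ≤ low R lam i) (hsum : ∑ i, low R lam i ≤ ∑ i, eta i + cells) :
    ((ex lam 0 : ℝ) + 1) ^ (a * R) * (a : ℝ) ^ cells *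
        (((∑ i, eta i) + N - 1).choose (N - 1) : ℝ) * (gt (n - R) a eta : ℝ) *
        Real.exp (2 * b) ≤ (gt (n - R) N eta : ℝ) := by
  obtain ⟨hna, hk, hka, hb, hb2, hlam, hs, hx⟩ := hH
  obtain ⟨hl1, hln, hmass, hRl, hkR, hNb, hbN, hc⟩ := hNu
  set y : ℝ := (a : ℝ) ^ (ε / 2) with hydef
  have ha' : (3 : ℝ) ≤ a := by exact_mod_cast ha
  have ha0 : (0 : ℝ) < a := by linarith
  have hlog0 : 0 < Real.log a := by linarith
  have hlog4 : 16 ≤ Real.log a ^ 4 := by
    calc (16 : ℝ) = 2 ^ 4 := by norm_num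
      _ ≤ Real.log a ^ 4 := pow_le_pow_left₀ (by norm_num) hlog 4
  have hy0 : 0 < y := by linarith
  have hyy : (a : ℝ) ^ ε = y ^ 2 := by
    rw [hydef, ← Real.rpow_natCast, ← Real.rpow_mul ha0.le]
    congr 1
    push_cast
    ring
  have hb' : (a : ℝ) * y ^ 2 ≤ b := by
    rw [Real.rpow_add ha0, Real.rpow_one, hyy] at hb
    exact hb
  have hk2 : (a : ℝ) * y ^ 4 ≤ (k : ℝ) ^ 2 := by
    rw [Real.rpow_add ha0, hyy] at hk
    have h1 : ((a : ℝ) ^ (1 / 2 : ℝ)) ^ 2 = a := by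
      rw [← Real.rpow_natCast, ← Real.rpow_mul ha0.le]
      norm_num
    calc (a : ℝ) * y ^ 4 = ((a : ℝ) ^ (1 / 2 : ℝ)) ^ 2 * y ^ 4 := by rw [h1]
      _ = ((a : ℝ) ^ (1 / 2 : ℝ) * y ^ 2) ^ 2 := by ring
      _ ≤ (k : ℝ) ^ 2 := by gcongr
  have hky : y ^ 2 ≤ k := by
    rw [Real.rpow_add ha0, hyy] at hk
    have h1 : 1 ≤ (a : ℝ) ^ (1 / 2 : ℝ) := Real.one_le_rpow (by linarith) (by norm_num)
    calc y ^ 2 = 1 * y ^ 2 := (one_mul _).symm
      _ ≤ (a : ℝ) ^ (1 / 2 : ℝ) * y ^ 2 := by gcongr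
      _ ≤ k := hk
  have hkpos : (0 : ℝ) < k := lt_of_lt_of_le (by positivity) hky
  have hbpos : (0 : ℝ) < b := lt_of_lt_of_le (by positivity) hb'
  have hnx : (ex lam (l - 1) : ℝ) ≤ (a : ℝ) ^ (-ε) * ((k : ℝ) * b) := by
    refine le_trans ?_ hx
    have : ex lam (l - 1) ≤ ex lam 0 := ex_anti hlam (by omega)
    exact_mod_cast this
  have hbN3 : (b : ℝ) ≤ 3 * Real.log a * N := by
    calc (b : ℝ) ≤ 2 * (1 + Real.log a) * N := hbN
      _ ≤ 2 * ((3 / 2) * Real.log a) * N := by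
        gcongr
        linarith
      _ = _ := by ring
  exact core6t ha hna hlog hy hka hb2 hlam hs hk2 hky hl1 hln
    (l_ge ha hlog hy0 hyy (by positivity) hmass hnx) hmass hRl hkR hNb hbN3
    (hb'.trans hbN3) hc heta hle hsum

/-- **(H1')** the numerical inequality of T6. -/
theorem num_stmt6 : NumStmt6 := by
  intro ε hε hε1
  have hlog : ∀ᶠ a : ℕ in atTop, 2 ≤ Real.log a :=
    (Real.tendsto_log_atTop.comp tendsto_natCast_atTop_atTop).eventually_ge_atTop 2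
  filter_upwards [ev_log 60 (ε / 4) (by linarith), eventually_ge_atTop 3, hlog] with a h1 h2 h3
  intro k b n lam hH R N l cells eta hNu heta hle hsum
  refine core6s h2 h3 ?_ hH hNu heta hle hsum
  have ha0 : (0 : ℝ) ≤ a := Nat.cast_nonneg _
  have h4 : (a : ℝ) ^ (ε / 2) = ((a : ℝ) ^ (ε / 4)) ^ 2 := by
    rw [← Real.rpow_natCast, ← Real.rpow_mul ha0]
    congr 1
    push_cast
    ring
  rw [h4]
  calc 3600 * Real.log a ^ 4 = (60 * Real.log a ^ 2) ^ 2 := by ring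
    _ ≤ _ := by gcongr

end Vale.Agent.P181.H921
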