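import Vale.Agent.P181.H921.WQ
import Vale.Agent.P181.H503.WMixT
import Vale.Agent.P181.H503.WLemmaI
import Vale.Agent.P181.R2.H866.NHL
import Vale.Agent.P181.R2.H940.NDescent

/-!
P181, weighted tail slopes: the ordinary step in the number of slots.
-/

set_option autoImplicit false

open MvPolynomial

namespace Vale.Agent.P181.TW

open Vale.Agent.P181 Vale.Agent.P181.H536 Vale.Agent.P181.H280 Vale.Agent.P181.TN

variable {n : ℕ}

/-- A vector below `r` with a smaller sum. -/
lemma exists_below (r : Fin n → ℕ) (k : ℕ) (hk : k ≤ ∑ i, r i) :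
    ∃ r₁ : Fin n → ℕ, r₁ ≤ r ∧ ∑ i, r₁ i = k := by
  classical
  induction k with
  | zero => exact ⟨fun _ => 0, fun i => Nat.zero_le _, by simp⟩
  | succ k ih =>
    obtain ⟨r₁, h1, h2⟩ := ih (by omega)
    have h3 : ∃ i, r₁ i < r i := by
      by_contra hcon
      push Not at hcon
      have := Finset.sum_le_sum (s := Finset.univ) (fun i _ => hcon i)
      omega
    obtain ⟨i, hi⟩ := h3
    refine ⟨fun j => r₁ j + if j = i then 1 else 0, ?_, ?_⟩
    · intro j
      by_cases hj : j = i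
      · subst hj
        simp only [if_true]
        omega
      · simp only [if_neg hj]
        exact h1 j
    · rw [Finset.sum_add_distrib, h2]
      simp

lemma mz_add (r₁ r₂ : Fin n → ℕ) : mz (r₁ + r₂) = mz r₁ * mz r₂ := by
  rw [mz, mz, mz, ← Finset.prod_mul_distrib]
  apply Finset.prod_congr rfl
  intro i _
  rw [Pi.add_apply, pow_add]

lemma sum_sub_of_le {r w : Fin n → ℕ} (h : r ≤ w) :
    ∑ i, (w - r) i + ∑ i, r i = ∑ i, w i := by
  rw [← Finset.sum_add_distrib]
  apply Finset.sum_congr rfl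
  intro i _
  rw [Pi.sub_apply, Nat.sub_add_cancel (h i)]

/-- **The ordinary step.** -/
theorem stepA {m b s : ℕ} {w : Fin n → ℕ} (hs : 2 ≤ s) (hmb : m ≤ b) (h2m : 2 * m ≤ b + 1)
    (F : Fm n (m + 1)) (hsy : IsSymm F) (hI : Inv (b + 1) F) (hH : HomW (b + 1) w F)
    (hQ : QQ s (b + 1) F) (hK1 : ∀ w' : Fin n → ℕ, w' ≤ w → KW n m (b + 1) w') (i₀ : Fin n)
    (hc : (s - 1) * (b + 1) + 2 * m + 2 ≤ (∑ i, w i) + w i₀) : Van (b + 1) F := by
  apply descent F
  intro k hkb hT w₀ hw₀ A hA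
  refine van_curry_of_mz F A ?_ hw₀
  intro r hr
  have hA' : A ∈ U2 n ^ (b + 1 - ∑ i, r i) := by rw [hr]; exact hA
  by_cases hrw : r ≤ w
  swap
  · have h1 : ∃ i, w i < r i := by
      by_contra hcon
      push Not at hcon
      exact hrw hcon
    obtain ⟨i, hi⟩ := h1
    exact curry_zeroW (by omega) i hi F hH hA'
  have hrz : mz r ∈ ZZ n ^ k := hr ▸ mz_mem r
  have hs' : IsSymm (F.curryLeft (mz r * A)) := hsy.curryLeft _
  have hI' := curry_inv hkb F hI hT hrz hA
  have hH' := curry_homW (by omega : ∑ i, r i ≤ b + 1) hrw F hH hA'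
  refine hK1 (w - r) (fun i => Nat.sub_le _ _) _ hs' hI' hH' ?_
  by_cases hkm : k ≤ m
  · have hQ' := light (by omega : 1 ≤ s) (by omega : k < b + 1) (by omega) F hQ hT hrz hA
    refine lemmaIW_gen (w := w - r) (fun c => scw c) scw_zero scw_one scw_succ
      (by omega : 1 ≤ b + 1) (by omega : 1 ≤ s) i₀ ?_ _ hI' hH' hQ'
    have h1 := sum_sub_of_le hrw
    have h2 : r i₀ ≤ ∑ i, r i := Finset.single_le_sum (fun _ _ => Nat.zero_le _)
      (Finset.mem_univ i₀)
    have h3 : (w - r) i₀ + r i₀ = w i₀ := Nat.sub_add_cancel (hrw i₀)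
    omega
  · push Not at hkm
    obtain ⟨r₁, hr₁, hr₁s⟩ := exists_below r (m + 1) (by omega)
    have hsplit : r = r₁ + (r - r₁) := by
      funext i
      have h6 : r₁ i ≤ r i := hr₁ i
      rw [Pi.add_apply, Pi.sub_apply]
      omega
    have hr₂s : ∑ i, (r - r₁) i = k - (m + 1) := by
      have := sum_sub_of_le hr₁
      omega
    have hw₁ : mz r₁ ∈ ZZ n ^ (m + 1) := hr₁s ▸ mz_mem r₁
    have h3 := mixedW_gen (r := r₁) (w := w) (fun c => scw c) scw_zero scw_one scw_succ hs
      (by omega : ∑ i, r₁ i ≤ b + 1) F hI hH i₀ (by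
        rw [hr₁s]
        intro B hB
        exact heavy_full (by omega : 1 ≤ b + 1) (by omega : 1 ≤ s) (by omega : m + 1 ≤ b + 1)
          le_rfl F hQ hw₁ hB) (by
        have h2 : r₁ i₀ ≤ ∑ i, r₁ i := Finset.single_le_sum (fun _ _ => Nat.zero_le _)
          (Finset.mem_univ i₀)
        omega) (mz (r - r₁) * A) (by
        rw [hr₁s]
        have h4 : b + 1 - (m + 1) = (k - (m + 1)) + (b + 1 - k) := by omega
        rw [h4, pow_add]
        refine Submodule.mul_mem_mul (pow_le_pow_left' ZZ_le _ ?_) (pow_le_pow_left' U2_le _ hA)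
        rw [← hr₂s]
        exact mz_mem _)
    have h5 : mz r * A = (∏ i, (X i.succ.succ : Sn n) ^ r₁ i) * (mz (r - r₁) * A) := by
      conv_lhs => rw [hsplit, mz_add]
      rw [mul_assoc]
      rfl
    rw [h5]
    exact h3

end Vale.Agent.P181.TW
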