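import Vale.Agent.P181.H261.MatG
import Vale.Agent.P181.S10.Spec

/-!
# P181, S10: the orbit inequality for long columns

The design is used for the complements of the columns. The rows of the special point are
orthogonal to a generic vector supported on every star.
-/

set_option autoImplicit false

namespace Vale.Agent.P181.TW.Dual

open Finset MvPolynomial
open Vale.Agent.P181 Vale.Agent.P181.H280 Vale.Agent.P181.FR Vale.Agent.P181.H188W
open Vale.Agent.P181.T4 Vale.Agent.P181.H463 Vale.Agent.P181.H59 Vale.Agent.P181.H261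
open Vale.Agent.P181.H261.Mat5

/-- the vector supported on the star. -/
noncomputable def yv {b R : ℕ} (st : Fin R → Finset (Fin b)) (t : Fin R × Fin b → ℂ)
    (i : Fin R) (p : Fin b) : ℂ :=
  if p ∈ st i then t (i, p) else 0

/-- the vector supported on the star, polynomial version. -/
noncomputable def yP {b R : ℕ} (st : Fin R → Finset (Fin b)) (i : Fin R) (p : Fin b) :
    MvPolynomial (Fin R × Fin b) ℂ :=
  if p ∈ st i then X (i, p) else 0

/-- the minor of the vectors at the representatives. -/
noncomputable def sdrP {b R : ℕ} (st : Fin R → Finset (Fin b)) (φ : Fin R → Fin b) :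
    MvPolynomial (Fin R × Fin b) ℂ :=
  Matrix.det (Matrix.of fun i j : Fin R => yP st i (φ j))

lemma eval_sdrP {b R : ℕ} (st : Fin R → Finset (Fin b)) (φ : Fin R → Fin b)
    (t : Fin R × Fin b → ℂ) :
    eval t (sdrP st φ) = Matrix.det (Matrix.of fun i j : Fin R => yv st t i (φ j)) := by
  rw [sdrP, RingHom.map_det]
  congr 1
  ext i j
  rw [RingHom.mapMatrix_apply, Matrix.map_apply, Matrix.of_apply, Matrix.of_apply, yP, yv]
  split_ifs
  · rw [eval_X]
  · rw [map_zero]

lemma sdrP_ne {b R : ℕ} (st : Fin R → Finset (Fin b)) (φ : Fin R → Fin b)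
    (hφ : Function.Injective φ) (hs : ∀ i, φ i ∈ st i) : sdrP st φ ≠ 0 := by
  classical
  intro hz
  have h1 : eval (fun x : Fin R × Fin b => if x.2 = φ x.1 then (1 : ℂ) else 0)
      (sdrP st φ) = 0 := by rw [hz, map_zero]
  rw [eval_sdrP] at h1
  have h2 : (Matrix.of fun i j : Fin R =>
      yv st (fun x : Fin R × Fin b => if x.2 = φ x.1 then (1 : ℂ) else 0) i (φ j)) = 1 := by
    ext i j
    rw [Matrix.of_apply, Matrix.one_apply, yv]
    by_cases h : i = j
    · subst h
      rw [if_pos (hs i), if_pos rfl, if_pos rfl]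
    · rw [if_neg h]
      have h3 : ¬ φ j = φ i := fun h' => h (hφ h').symm
      rw [if_neg h3]
      split_ifs <;> rfl
  rw [h2, Matrix.det_one] at h1
  exact one_ne_zero h1

/-- a projection onto the orthogonal space of the vectors `y i`. -/
lemma exists_proj {b R : ℕ} (y : Fin R → Fin b → ℂ) :
    ∃ P : (Fin b → ℂ) →ₗ[ℂ] (Fin b → ℂ), (∀ v i, ∑ p, y i p * P v p = 0) ∧
      ∀ v, (∀ i, ∑ p, y i p * v p = 0) → P v = v := by
  let S : Submodule ℂ (Fin b → ℂ) := LinearMap.ker (Matrix.mulVecLin (Matrix.of y))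
  have hS : ∀ v, v ∈ S ↔ ∀ i, ∑ p, y i p * v p = 0 := by
    intro v
    rw [LinearMap.mem_ker, Matrix.mulVecLin_apply]
    constructor
    · intro h i
      have := congrFun h i
      rw [Matrix.mulVec, dotProduct] at this
      exact this
    · intro h
      funext i
      rw [Matrix.mulVec, dotProduct]
      exact h i
  obtain ⟨g, hg⟩ := LinearMap.exists_leftInverse_of_injective S.subtype
    (Submodule.ker_subtype S)
  refine ⟨S.subtype ∘ₗ g, fun v => (hS _).1 (g v).2, fun v hv => ?_⟩
  have h1 := LinearMap.congr_fun hg ⟨v, (hS v).2 hv⟩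
  rw [LinearMap.comp_apply, LinearMap.id_apply] at h1
  rw [LinearMap.comp_apply]
  have h2 : g v = ⟨v, (hS v).2 hv⟩ := h1
  rw [h2]
  rfl

/-- the configuration with rows in the range of `P`. -/
noncomputable def xv {b n : ℕ} (P : (Fin b → ℂ) →ₗ[ℂ] (Fin b → ℂ)) (t : Fin n × Fin b → ℂ) :
    Fin b → Fin n → ℂ :=
  fun p i => P (fun q => t (i, q)) p

/-- the configuration, polynomial version. -/
noncomputable def xP {b n : ℕ} (P : (Fin b → ℂ) →ₗ[ℂ] (Fin b → ℂ)) :
    Fin b → Fin n → MvPolynomial (Fin n × Fin b) ℂ :=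
  fun p i => ∑ q, C (P (fun j => if q = j then 1 else 0) p) * X (i, q)

lemma eval_xP {b n : ℕ} (P : (Fin b → ℂ) →ₗ[ℂ] (Fin b → ℂ)) (t : Fin n × Fin b → ℂ)
    (p : Fin b) (i : Fin n) : eval t (xP P p i) = xv P t p i := by
  rw [xP, xv, LinearMap.pi_apply_eq_sum_univ P, map_sum, Finset.sum_apply]
  refine sum_congr rfl fun q _ => ?_
  rw [map_mul, eval_C, eval_X, Pi.smul_apply, smul_eq_mul, mul_comm]

/-- the polynomial of the minor. -/
noncomputable def dminorP {b n l : ℕ} (P : (Fin b → ℂ) →ₗ[ℂ] (Fin b → ℂ)) (hn : l ≤ n)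
    (u : Fin l → Fin b) : MvPolynomial (Fin n × Fin b) ℂ :=
  Matrix.det (Matrix.of fun r s : Fin l => xP P (u r) (Fin.castLE hn s))

lemma eval_dminorP {b n l : ℕ} (P : (Fin b → ℂ) →ₗ[ℂ] (Fin b → ℂ)) (hn : l ≤ n)
    (u : Fin l → Fin b) (t : Fin n × Fin b → ℂ) :
    eval t (dminorP P hn u) = dt hn u (xv P t) := by
  rw [dminorP, RingHom.map_det, dt]
  congr 1
  ext r s
  rw [RingHom.mapMatrix_apply, Matrix.map_apply, Matrix.of_apply, Matrix.of_apply, eval_xP]

/-- the minor is a non-zero polynomial if the complement contains representatives. -/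
lemma dminorP_ne {b n l R : ℕ} (y : Fin R → Fin b → ℂ) (P : (Fin b → ℂ) →ₗ[ℂ] (Fin b → ℂ))
    (hP : ∀ v, (∀ i, ∑ p, y i p * v p = 0) → P v = v) (hn : l ≤ n) (u : Fin l → Fin b)
    (hu : Function.Injective u) (φ : Fin R → Fin b) (hφ : ∀ j s, φ j ≠ u s)
    (hdet : Matrix.det (Matrix.of fun i j : Fin R => y i (φ j)) ≠ 0) :
    dminorP P hn u ≠ 0 := by
  classical
  set M : Matrix (Fin R) (Fin R) ℂ := Matrix.of fun i j : Fin R => y i (φ j) with hM
  let α : Fin l → Fin R → ℂ := fun s => M⁻¹.mulVec fun i => - y i (u s)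
  have hα : ∀ s i, ∑ j, y i (φ j) * α s j = - y i (u s) := by
    intro s i
    have h1 : M.mulVec (α s) = fun i => - y i (u s) := by
      rw [Matrix.mulVec_mulVec, Matrix.mul_nonsing_inv _ (isUnit_iff_ne_zero.2 hdet),
        Matrix.one_mulVec]
    have h2 := congrFun h1 i
    rw [Matrix.mulVec, dotProduct] at h2
    exact h2
  let v : Fin l → Fin b → ℂ := fun s p =>
    (if p = u s then 1 else 0) + ∑ j, (if p = φ j then α s j else 0)
  have hv1 : ∀ s i, ∑ p, y i p * v s p = 0 := by
    intro s i
    simp only [v, mul_add, sum_add_distrib, mul_sum]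
    rw [sum_comm]
    have h1 : ∑ p, y i p * (if p = u s then (1 : ℂ) else 0) = y i (u s) := by
      rw [sum_eq_single (u s)]
      · rw [if_pos rfl, mul_one]
      · intro p _ hp
        rw [if_neg hp, mul_zero]
      · intro h
        exact absurd (mem_univ _) h
    have h2 : ∀ j, ∑ p, y i p * (if p = φ j then α s j else 0) = y i (φ j) * α s j := by
      intro j
      rw [sum_eq_single (φ j)]
      · rw [if_pos rfl]
      · intro p _ hp
        rw [if_neg hp, mul_zero]
      · intro h
        exact absurd (mem_univ _) h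
    rw [h1, sum_congr rfl fun j _ => h2 j, hα]
    exact add_neg_cancel _
  have hv2 : ∀ s r, v s (u r) = if r = s then 1 else 0 := by
    intro s r
    simp only [v]
    have h1 : ∑ j, (if u r = φ j then α s j else 0) = 0 :=
      sum_eq_zero fun j _ => if_neg fun h => hφ j r h.symm
    rw [h1, add_zero]
    by_cases h : r = s
    · subst h
      rw [if_pos rfl, if_pos rfl]
    · rw [if_neg h, if_neg fun h' => h (hu h')]
  intro hz
  let t : Fin n × Fin b → ℂ := fun x => if h : (x.1 : ℕ) < l then v ⟨x.1, h⟩ x.2 else 0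
  have h1 : eval t (dminorP P hn u) = 0 := by rw [hz, map_zero]
  rw [eval_dminorP, dt] at h1
  have h2 : (Matrix.of fun r s : Fin l => xv P t (u r) (Fin.castLE hn s)) = 1 := by
    ext r s
    rw [Matrix.of_apply, Matrix.one_apply, xv]
    have h3 : (fun q => t (Fin.castLE hn s, q)) = v s := by
      funext q
      have h4 : ((Fin.castLE hn s : Fin n) : ℕ) < l := by
        rw [Fin.val_castLE]
        exact s.2
      simp only [t]
      rw [dif_pos h4]
      rfl
    rw [h3, hP _ (hv1 s), hv2]
  rw [h2, Matrix.det_one] at h1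
  exact one_ne_zero h1

/-- the minor vanishes if the column contains a star. -/
lemma dt_xv_zero {b n l : ℕ} (y : Fin b → ℂ) (T : Finset (Fin b)) (hy : y ≠ 0)
    (hyT : ∀ p, p ∉ T → y p = 0) (P : (Fin b → ℂ) →ₗ[ℂ] (Fin b → ℂ))
    (hP : ∀ v, ∑ p, y p * P v p = 0) (t : Fin n × Fin b → ℂ) (hn : l ≤ n) (u : Fin l → Fin b)
    (hu : Function.Injective u) (huT : ∀ p ∈ T, ∃ r, u r = p) : dt hn u (xv P t) = 0 := by
  classical
  rw [dt]
  apply Matrix.exists_vecMul_eq_zero_iff.1
  refine ⟨fun r => y (u r), ?_, ?_⟩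
  · intro h
    apply hy
    funext p
    by_cases hp : p ∈ T
    · obtain ⟨r, hr⟩ := huT p hp
      rw [← hr]
      exact congrFun h r
    · exact hyT p hp
  · funext s
    rw [Matrix.vecMul, dotProduct, Pi.zero_apply]
    simp only [Matrix.of_apply, xv]
    rw [← hP (fun q => t (Fin.castLE hn s, q))]
    have h1 : ∑ r, y (u r) * P (fun q => t (Fin.castLE hn s, q)) (u r) =
        ∑ p ∈ univ.image u, y p * P (fun q => t (Fin.castLE hn s, q)) p :=
      (sum_image (f := fun p => y p * P (fun q => t (Fin.castLE hn s, q)) p)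
        fun r _ r' _ h => hu h).symm
    rw [h1]
    refine sum_subset (subset_univ _) fun p _ hp => ?_
    have h2 : p ∉ T := by
      intro h3
      obtain ⟨r, hr⟩ := huT p h3
      exact hp (mem_image.2 ⟨r, mem_univ _, hr⟩)
    rw [hyT p h2, zero_mul]

end Vale.Agent.P181.TW.Dual

namespace Vale.Agent.P181.TW

open Finset MvPolynomial
open Vale.Agent.P181 Vale.Agent.P181.H280 Vale.Agent.P181.FR Vale.Agent.P181.H188W
open Vale.Agent.P181.T4 Vale.Agent.P181.H463 Vale.Agent.P181.H59 Vale.Agent.P181.H261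
open Vale.Agent.P181.H261.Mat5 Vale.Agent.P181.TW.Dual

/-- **The orbit inequality for long columns**, degree `k`, `n` rows. -/
theorem mat_dual_g (n k b R N : ℕ) (len : Fin N → ℕ) (lam η : Fin n → ℕ) (hb : 0 < b)
    (hD : Design b R N (fun c => b - len c)) (hlen : ∀ c, len c ≤ n ∧ len c + R ≤ b)
    (hη : Antitone η)
    (hcol : ∀ i : Fin n, (univ.filter fun c => (i : ℕ) < len c).card + η i = lam i)
    (hsum : ∑ i, lam i = k * b) :
    gt n b η ≤ ((∑ i, η i) + b - 1).choose (b - 1) * (b.factorial * plethMult b k n lam) := by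
  classical
  obtain ⟨st, hst⟩ := hD
  obtain ⟨d, hd, hds⟩ := exists_balanced b (∑ i, η i) hb
  -- sizes
  have hlenC : ∀ c, (univ.filter fun i : Fin n => (i : ℕ) < len c).card = len c := by
    intro c
    rw [Fin.card_filter_val_lt, min_eq_right (hlen c).1]
  have hlenb : ∀ c, len c ≤ b := fun c => le_trans (Nat.le_add_right _ _) (hlen c).2
  have hsum2 : ∑ c, len c + ∑ i, η i = k * b := by
    rw [← hsum]
    have h1 : ∑ i, lam i = ∑ i : Fin n, ((univ.filter fun c => (i : ℕ) < len c).card + η i) :=
      sum_congr rfl fun i _ => (hcol i).symm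
    rw [h1, sum_add_distrib]
    congr 1
    calc ∑ c, len c = ∑ c, (univ.filter fun i : Fin n => (i : ℕ) < len c).card :=
          sum_congr rfl fun c _ => (hlenC c).symm
      _ = ∑ i : Fin n, (univ.filter fun c => (i : ℕ) < len c).card := by
          simp only [card_filter]
          exact sum_comm
  have hda : ∀ p, d p ≤ k := by
    intro p
    by_contra h
    push Not at h
    have h1 : ∀ q, k ≤ d q := fun q => by have := hd p q; omega
    have h2 : ∑ q : Fin b, k < ∑ q, d q :=
      sum_lt_sum (fun q _ => h1 q) ⟨p, mem_univ p, h⟩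
    rw [sum_const, card_univ, Fintype.card_fin, smul_eq_mul, hds, mul_comm] at h2
    omega
  -- the degrees of the columns
  have hesum : ∑ p, (k - d p) = ∑ c, len c := by
    have h2 : ∑ p, (k - d p) + ∑ p, d p = k * b := by
      rw [← sum_add_distrib]
      have h3 : ∀ p : Fin b, k - d p + d p = k := fun p => Nat.sub_add_cancel (hda p)
      rw [sum_congr rfl fun p _ => h3 p, sum_const, card_univ, Fintype.card_fin, smul_eq_mul,
        mul_comm]
    omega
  have hlensum : ∑ c, (b - len c) + ∑ c, len c = N * b := by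
    rw [← sum_add_distrib]
    have h3 : ∀ c : Fin N, b - len c + len c = b := fun c => Nat.sub_add_cancel (hlenb c)
    rw [sum_congr rfl fun c _ => h3 c, sum_const, card_univ, Fintype.card_fin, smul_eq_mul]
  have heN : ∀ p, k - d p ≤ N := by
    intro p
    by_contra h
    push Not at h
    have h1 : ∀ q, N ≤ k - d q := fun q => by
      have := hd q p
      have := hda q
      have := hda p
      omega
    have h2 : ∑ q : Fin b, N < ∑ q, (k - d q) :=
      sum_lt_sum (fun q _ => h1 q) ⟨p, mem_univ p, h⟩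
    rw [sum_const, card_univ, Fintype.card_fin, smul_eq_mul, hesum, mul_comm] at h2
    omega
  -- the degree functions of the complements
  have hgd1 : ∀ τ : Equiv.Perm (Fin b), ∀ p q,
      N - (k - d (τ.symm p)) ≤ N - (k - d (τ.symm q)) + 1 := by
    intro τ p q
    have h1 := hd (τ.symm p) (τ.symm q)
    have h2 := hda (τ.symm p)
    have h3 := hda (τ.symm q)
    have h4 := heN (τ.symm p)
    have h5 := heN (τ.symm q)
    omega
  have hgd2 : ∀ τ : Equiv.Perm (Fin b),
      ∑ p, (N - (k - d (τ.symm p))) = ∑ c, (b - len c) := by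
    intro τ
    have h1 : ∑ p, (N - (k - d (τ.symm p))) = ∑ p, (N - (k - d p)) :=
      Equiv.sum_comp τ.symm fun p => N - (k - d p)
    have h2 : ∑ p, (N - (k - d p)) + ∑ p, (k - d p) = N * b := by
      rw [← sum_add_distrib]
      have h3 : ∀ p : Fin b, N - (k - d p) + (k - d p) = N := fun p =>
        Nat.sub_add_cancel (heN p)
      rw [sum_congr rfl fun p _ => h3 p, sum_const, card_univ, Fintype.card_fin, smul_eq_mul,
        mul_comm]
    rw [h1]
    omega
  have hex : ∀ τ : Equiv.Perm (Fin b), ∃ B : Fin N → Finset (Fin b),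
      (∀ c, (B c).card = b - len c) ∧ (∀ p, dgr B p = N - (k - d (τ.symm p))) ∧
      (∀ c, HasSDR st (B c)) ∧
      ∀ ρ : Equiv.Perm (Fin b), ρ ≠ 1 → ∃ c i, Disjoint ((B c).image ρ) (st i) := fun τ =>
    hst (fun p => N - (k - d (τ.symm p))) (hgd1 τ) (hgd2 τ)
  choose B hB1 hB2 hB3 hB4 using hex
  have hA1 : ∀ τ c, ((B τ c)ᶜ).card = len c := by
    intro τ c
    rw [card_compl, hB1, Fintype.card_fin]
    have := hlenb c
    omega
  choose φ hφi hφB using hB3
  let u : Equiv.Perm (Fin b) → (c : Fin N) → Fin (len c) → Fin b := fun τ c =>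
    ((B τ c)ᶜ).orderEmbOfFin (hA1 τ c)
  have hu : ∀ τ c, Function.Injective (u τ c) := fun τ c =>
    (((B τ c)ᶜ).orderEmbOfFin (hA1 τ c)).injective
  have huA : ∀ τ c s, u τ c s ∉ B τ c := fun τ c s =>
    mem_compl.1 (orderEmbOfFin_mem _ _ s)
  have huR : ∀ τ c p, p ∉ B τ c → ∃ r, u τ c r = p := by
    intro τ c p hp
    have hr : p ∈ Set.range (((B τ c)ᶜ).orderEmbOfFin (hA1 τ c)) := by
      rw [range_orderEmbOfFin]
      exact mem_coe.2 (mem_compl.2 hp)
    exact hr
  -- the vectors on the stars
  obtain ⟨ty, hty⟩ := exists_common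
    (fun x : Equiv.Perm (Fin b) × Fin N => sdrP st (φ x.1 x.2))
    (fun x => sdrP_ne st (φ x.1 x.2) (hφi x.1 x.2) fun i => (hφB x.1 x.2 i).2)
  obtain ⟨P, hP1, hP2⟩ := exists_proj (yv st ty)
  -- the common point
  obtain ⟨t, ht⟩ := exists_common
    (fun x : Equiv.Perm (Fin b) × Fin N => dminorP P (hlen x.2).1 (u x.1 x.2))
    (fun x => dminorP_ne (yv st ty) P hP2 (hlen x.2).1 (u x.1 x.2) (hu _ _) (φ x.1 x.2)
      (fun j s h => huA x.1 x.2 s (h ▸ (hφB x.1 x.2 j).1)) (by
        have h1 := hty x
        rw [eval_sdrP] at h1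
        exact h1))
  refine orbit_gtK hη len (fun c => (hlen c).1) hcol d hd hds
    (fun τ c s => τ.symm (u τ c s)) ?_ (xv P t) ?_
  · intro τ j
    have h1 : ∀ c, (univ.filter fun i => τ.symm (u τ c i) = j).card =
        if τ j ∈ B τ c then 0 else 1 := by
      intro c
      have hset : (univ.filter fun i => τ.symm (u τ c i) = j) =
          univ.filter fun i => u τ c i = τ j := by
        ext i
        simp only [mem_filter, mem_univ, true_and]
        rw [Equiv.symm_apply_eq]
      rw [hset]
      split_ifs with h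
      · rw [card_eq_zero, filter_eq_empty_iff]
        intro i _ hi
        exact huA τ c i (hi ▸ h)
      · obtain ⟨i0, hi0⟩ := huR τ c _ h
        rw [card_eq_one]
        refine ⟨i0, ?_⟩
        ext i
        simp only [mem_filter, mem_univ, true_and, mem_singleton]
        constructor
        · intro hi
          exact hu τ c (hi.trans hi0.symm)
        · intro hi
          rw [hi]
          exact hi0
    have h3 : ∑ c, (univ.filter fun i => τ.symm (u τ c i) = j).card + dgr (B τ) (τ j) = N := by
      rw [dgr, card_filter, ← sum_add_distrib]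
      have h4 : ∀ c : Fin N, (univ.filter fun i => τ.symm (u τ c i) = j).card +
          (if τ j ∈ B τ c then 1 else 0) = 1 := by
        intro c
        rw [h1 c]
        split_ifs <;> rfl
      rw [sum_congr rfl fun c _ => h4 c, sum_const, card_univ, Fintype.card_fin, smul_eq_mul,
        mul_one]
    have h2 := hB2 τ (τ j)
    rw [Equiv.symm_apply_apply] at h2
    rw [h2] at h3
    have h5 := heN j
    have h6 := hda j
    omega
  · intro τ σ
    constructor
    · intro h
      by_contra hne
      obtain ⟨c, i, hdis⟩ := hB4 τ (σ * τ⁻¹) (fun h' => hne (by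
        rw [mul_inv_eq_one] at h'
        exact h'))
      apply h
      refine prod_eq_zero (mem_univ c) ?_
      refine dt_xv_zero (yv st ty i) (st i) ?_ ?_ P (fun v => hP1 v i) t (hlen c).1 _ ?_ ?_
      · intro h0
        have h1 := hty (τ, c)
        rw [eval_sdrP] at h1
        apply h1
        refine Matrix.det_eq_zero_of_row_eq_zero i fun j => ?_
        rw [Matrix.of_apply, h0]
        rfl
      · intro p hp
        rw [yv, if_neg hp]
      · intro r r' h'
        exact hu τ c (τ.symm.injective (σ.injective h'))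
      · intro p hp
        have h1 : τ (σ.symm p) ∉ B τ c := by
          intro h2
          refine (Finset.disjoint_left.1 hdis) ?_ hp
          rw [mem_image]
          refine ⟨_, h2, ?_⟩
          change σ (τ.symm (τ (σ.symm p))) = p
          rw [Equiv.symm_apply_apply, Equiv.apply_symm_apply]
        obtain ⟨r, hr⟩ := huR τ c _ h1
        refine ⟨r, ?_⟩
        rw [hr, Equiv.symm_apply_apply, Equiv.apply_symm_apply]
    · intro h
      subst h
      rw [prod_ne_zero_iff]
      intro c _
      have h1 := ht (σ, c)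
      rw [eval_dminorP] at h1
      have h2 : (fun s => σ (σ.symm (u σ c s))) = u σ c := by
        funext s
        rw [Equiv.apply_symm_apply]
      rw [h2]
      exact h1

/-- **[S10-DUAL]** -/
theorem mat_dual : S10.MatDual := by
  intro a b R N len lam η hb hD hlen hη hcol hsum
  exact mat_dual_g a a b R N len lam η hb hD hlen hη hcol hsum

end Vale.Agent.P181.TW
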