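import Vale.Agent.P181.H921.Num

set_option autoImplicit false

/-! # P181, T6: numerics with fixed columns of total size `S` -/

namespace Vale.Agent.P181.H921

open Filter Real

/-- The factors: `(L+1)^(aR) a^S C(m+N-1,N-1) ≤ exp (4 l a R + l S + 3 l b)`. -/
lemma cost6 {a b R N L m S : ℕ} (ha : 3 ≤ a) (hL : (L : ℝ) + a ≤ (a : ℝ) ^ 4)
    (hm : m ≤ a * b) (hN : 1 ≤ N) (hNb : N ≤ b) :
    ((L : ℝ) + 1) ^ (a * R) * (a : ℝ) ^ S * ((m + N - 1).choose (N - 1) : ℝ)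
      ≤ Real.exp (4 * Real.log a * (a * R) + Real.log a * S + 3 * Real.log a * b) := by
  have ha' : (3 : ℝ) ≤ a := by exact_mod_cast ha
  have q1 := L_pow_le_exp (R := R) (L := L) ha hL
  have q3 := choose_le_exp (b := b) (N := N) ha hm hN hNb
  have q2 : (a : ℝ) ^ S = Real.exp (Real.log a * S) := by
    rw [Real.exp_mul, Real.exp_log (by linarith), Real.rpow_natCast]
  rw [Real.exp_add, Real.exp_add, q2]
  gcongr

/-- The same with a factor `b!`. -/
lemma cost6f {a b R N L m S : ℕ} (ha : 3 ≤ a) (hb2 : b ≤ a ^ 2)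
    (hL : (L : ℝ) + a ≤ (a : ℝ) ^ 4)
    (hm : m ≤ a * b) (hN : 1 ≤ N) (hNb : N ≤ b) :
    (b.factorial : ℝ) * (((L : ℝ) + 1) ^ (a * R) * (a : ℝ) ^ S *
      ((m + N - 1).choose (N - 1) : ℝ))
      ≤ Real.exp (4 * Real.log a * (a * R) + Real.log a * S + 5 * Real.log a * b) := by
  have ha' : (3 : ℝ) ≤ a := by exact_mod_cast ha
  have q := cost6 (R := R) (S := S) ha hL hm hN hNb
  have q2 : (b.factorial : ℝ) ≤ Real.exp (2 * Real.log a * b) := by
    have h1 : b.factorial ≤ (a ^ 2) ^ b :=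
      (Nat.factorial_le_pow b).trans (Nat.pow_le_pow_left hb2 b)
    have h2 : (b.factorial : ℝ) ≤ ((a : ℝ) ^ 2) ^ b := by exact_mod_cast h1
    refine h2.trans (le_of_eq ?_)
    rw [← pow_mul, ← Real.rpow_natCast, Real.rpow_def_of_pos (by linarith)]
    congr 1
    push_cast
    ring
  calc _ ≤ Real.exp (2 * Real.log a * b) * Real.exp (4 * Real.log a * (a * R)
        + Real.log a * S + 3 * Real.log a * b) := by gcongr
    _ = _ := by
      rw [← Real.exp_add]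
      congr 1
      ring

/-- deterministic core of `num6`: `y = a ^ θ` -/
lemma core6 {a b R N L m S : ℕ} {y : ℝ} (ha : 3 ≤ a) (hy : 128 * Real.log a ≤ y)
    (hy8 : y ^ 8 ≤ a) (hab : 2 * a ≤ b) (hb2 : b ≤ a ^ 2)
    (hL : (L : ℝ) ≤ b * y) (hR : (R : ℝ) ≤ y ^ 5) (hS : (S : ℝ) * y ^ 2 ≤ a * b)
    (hNb : N ≤ b) (hN : (b : ℝ) ≤ N + R * (L / a + 3)) (hm2 : m ≤ a * b)
    (hm1 : (a * b : ℝ) ≤ m + R * L + S) :
    a ≤ N ∧ (b.factorial : ℝ) * (((L : ℝ) + 1) ^ (a * R) * (a : ℝ) ^ S *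
      ((m + N - 1).choose (N - 1) : ℝ))
      ≤ Real.exp (((N - a : ℕ) : ℝ) * (m : ℝ) / ((N + L : ℕ) : ℝ)) := by
  have ha' : (3 : ℝ) ≤ a := by exact_mod_cast ha
  have ha0 : (0 : ℝ) < a := by linarith
  have hab' : 2 * (a : ℝ) ≤ b := by exact_mod_cast hab
  have hb2' : (b : ℝ) ≤ (a : ℝ) ^ 2 := by exact_mod_cast hb2
  have hb0 : (0 : ℝ) < b := by linarith
  have hl1 : 1 ≤ Real.log a := by
    rw [Real.le_log_iff_exp_le ha0]
    have := Real.exp_one_lt_d9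
    linarith
  have hy1 : 128 ≤ y := by linarith
  have hy0 : 0 < y := by linarith
  have e1 : y ≤ y ^ 2 := by nlinarith
  -- `R L / a ≤ b / y ^ 2`
  have hRLa : (R : ℝ) * L ≤ a * b / y ^ 2 := by
    rw [le_div_iff₀ (by positivity)]
    calc (R : ℝ) * L * y ^ 2 ≤ y ^ 5 * (b * y) * y ^ 2 := by gcongr
      _ = (y ^ 8) * b := by ring
      _ ≤ a * b := by gcongr
  have hy2 : (128 : ℝ) * 128 ≤ y ^ 2 := by nlinarith
  have hy2' : (0 : ℝ) < y ^ 2 := by positivity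
  have hR3 : (R : ℝ) * y ^ 3 ≤ a := by
    calc (R : ℝ) * y ^ 3 ≤ y ^ 5 * y ^ 3 := by gcongr
      _ = y ^ 8 := by ring
      _ ≤ a := hy8
  have hy33 : (128 : ℝ) * 128 ≤ y ^ 3 := by
    calc (128 : ℝ) * 128 ≤ y ^ 2 := hy2
      _ = y ^ 2 * 1 := by ring
      _ ≤ y ^ 2 * y := by gcongr; linarith
      _ = y ^ 3 := by ring
  have hR128 : (R : ℝ) * (128 * 128) ≤ a := by
    calc (R : ℝ) * (128 * 128) ≤ R * y ^ 3 := by gcongr
      _ ≤ a := hR3
  have hdiv2 : (a * b : ℝ) / y ^ 2 ≤ a * b / (128 * 128) := by gcongr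
  have hRLdiv : (R : ℝ) * (L / a) ≤ b / (128 * 128) := by
    rw [← mul_div_assoc, div_le_iff₀ ha0]
    calc (R : ℝ) * L ≤ a * b / y ^ 2 := hRLa
      _ ≤ a * b / (128 * 128) := hdiv2
      _ = b / (128 * 128) * a := by ring
  have hNlow : (3 / 4 : ℝ) * b ≤ N := by nlinarith
  have hNa : (b : ℝ) / 4 ≤ (N : ℝ) - a := by linarith
  have haN : a ≤ N := by
    have : (a : ℝ) ≤ N := by linarith
    exact_mod_cast this
  refine ⟨haN, ?_⟩
  have hN1 : 1 ≤ N := by omega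
  have hNpos : (0 : ℝ) < N := by exact_mod_cast hN1
  have hNb' : (N : ℝ) ≤ b := by exact_mod_cast hNb
  -- `m ≥ a b / 2`
  have hS' : (S : ℝ) ≤ a * b / y ^ 2 := by
    rw [le_div_iff₀ (by positivity)]
    exact hS
  have hm : (a * b : ℝ) / 2 ≤ m := by
    have hab0 : (0 : ℝ) < a * b := by positivity
    linarith
  -- the gain
  have hLy : (N : ℝ) + L ≤ 2 * b * y := by
    have : (b : ℝ) ≤ b * y := by
      calc (b : ℝ) = b * 1 := by ring
        _ ≤ b * y := by gcongr; linarith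
    linarith
  have hNL0 : (0 : ℝ) < (N : ℝ) + L := by positivity
  have hNa0 : (0 : ℝ) ≤ (N : ℝ) - a := by linarith
  have hgain : (a * b : ℝ) / (16 * y) ≤ ((N : ℝ) - a) * m / (N + L) := by
    rw [div_le_div_iff₀ (by positivity) hNL0]
    calc (a * b : ℝ) * (N + L) ≤ (a * b) * (2 * b * y) := by gcongr
      _ = (b / 4) * (a * b / 2) * (16 * y) := by ring
      _ ≤ ((N : ℝ) - a) * m * (16 * y) := by gcongr
  -- the cost
  have hLa : (L : ℝ) + a ≤ (a : ℝ) ^ 4 := by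
    have hya : y ≤ a := by
      calc y = y * 1 := by ring
        _ ≤ y * y ^ 7 := by
          gcongr
          exact one_le_pow₀ (by linarith)
        _ = y ^ 8 := by ring
        _ ≤ a := hy8
    have h1 : (L : ℝ) ≤ (a : ℝ) ^ 3 := by
      calc (L : ℝ) ≤ b * y := hL
        _ ≤ (a : ℝ) ^ 2 * a := by gcongr
        _ = (a : ℝ) ^ 3 := by ring
    have h2 : (a : ℝ) ≤ (a : ℝ) ^ 3 := by
      calc (a : ℝ) = a * 1 := by ring
        _ ≤ a * (a : ℝ) ^ 2 := by gcongr; nlinarith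
        _ = (a : ℝ) ^ 3 := by ring
    have h3 : 2 * (a : ℝ) ^ 3 ≤ (a : ℝ) ^ 4 := by
      calc 2 * (a : ℝ) ^ 3 ≤ a * (a : ℝ) ^ 3 := by gcongr; linarith
        _ = (a : ℝ) ^ 4 := by ring
    linarith
  have hcost := cost6f (R := R) (S := S) ha hb2 hLa hm2 hN1 hNb
  have hfin : 4 * Real.log a * (a * R) + Real.log a * S + 5 * Real.log a * b
      ≤ ((N : ℝ) - a) * m / (N + L) := by
    refine le_trans ?_ hgain
    rw [le_div_iff₀ (by positivity)]
    have c1 : 4 * Real.log a * (a * R) * (16 * y) ≤ (1 / 4) * (a * b) := by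
      have k1 : 128 * Real.log a * R ≤ a / (128 * 128) := by
        rw [le_div_iff₀ (by norm_num)]
        calc 128 * Real.log a * R * (128 * 128) ≤ y * R * y ^ 2 := by gcongr
          _ = R * y ^ 3 := by ring
          _ ≤ a := hR3
      have k2 : (R : ℝ) * y * (128 * Real.log a) ≤ a := by
        calc (R : ℝ) * y * (128 * Real.log a) ≤ R * y * y := by gcongr
          _ = R * y ^ 2 * 1 := by ring
          _ ≤ R * y ^ 2 * y := by gcongr; linarith
          _ = R * y ^ 3 := by ring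
          _ ≤ a := hR3
      calc 4 * Real.log a * (a * R) * (16 * y) = (1 / 2) * a * (R * y * (128 * Real.log a)) := by
            ring
        _ ≤ (1 / 2) * a * a := by gcongr
        _ = (1 / 4) * (a * (2 * a)) := by ring
        _ ≤ (1 / 4) * (a * b) := by gcongr
    have c2 : Real.log a * S * (16 * y) ≤ (1 / 8) * (a * b) := by
      calc Real.log a * S * (16 * y) = (1 / 8) * (S * (y * (128 * Real.log a))) := by ring
        _ ≤ (1 / 8) * (S * (y * y)) := by gcongr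
        _ = (1 / 8) * (S * y ^ 2) := by ring
        _ ≤ (1 / 8) * (a * b) := by gcongr
    have c3 : 5 * Real.log a * b * (16 * y) ≤ (1 / 8) * (a * b) * 5 := by
      have : y * (128 * Real.log a) ≤ a := by
        calc y * (128 * Real.log a) ≤ y * y := by gcongr
          _ = y ^ 2 * 1 := by ring
          _ ≤ y ^ 2 * y ^ 6 := by
            gcongr
            exact one_le_pow₀ (by linarith)
          _ = y ^ 8 := by ring
          _ ≤ a := hy8
      calc 5 * Real.log a * b * (16 * y) = (1 / 8) * ((y * (128 * Real.log a)) * b) * 5 := by ring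
        _ ≤ (1 / 8) * (a * b) * 5 := by gcongr
    have hab0 : (0 : ℝ) < a * b := by positivity
    calc (4 * Real.log a * (a * R) + Real.log a * S + 5 * Real.log a * b) * (16 * y)
        = 4 * Real.log a * (a * R) * (16 * y) + Real.log a * S * (16 * y)
          + 5 * Real.log a * b * (16 * y) := by ring
      _ ≤ (1 / 4) * (a * b) + (1 / 8) * (a * b) + (1 / 8) * (a * b) * 5 := by gcongr
      _ ≤ a * b := by linarith
  rw [Nat.cast_sub haN, Nat.cast_add]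
  exact hcost.trans (Real.exp_le_exp.2 hfin)

/-- **Numerics of T6**, with a factor `b!` to spare. -/
theorem num6f {θ : ℝ} (hθ : 0 < θ) (hθ1 : 8 * θ ≤ 1) :
    ∀ᶠ a : ℕ in atTop, ∀ b R N L m S : ℕ, 2 * a ≤ b → b ≤ a ^ 2 →
      (L : ℝ) ≤ b * (a : ℝ) ^ θ → (R : ℝ) ≤ (a : ℝ) ^ (5 * θ) →
      (S : ℝ) ≤ b * (a : ℝ) ^ (1 - 2 * θ) → N ≤ b → (b : ℝ) ≤ N + R * (L / a + 3) →
      m ≤ a * b → (a * b : ℝ) ≤ m + R * L + S →
      a ≤ N ∧ (b.factorial : ℝ) * (((L : ℝ) + 1) ^ (a * R) * (a : ℝ) ^ S *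
        ((m + N - 1).choose (N - 1) : ℝ))
        ≤ Real.exp (((N - a : ℕ) : ℝ) * (m : ℝ) / ((N + L : ℕ) : ℝ)) := by
  filter_upwards [ev_log 128 θ hθ, eventually_ge_atTop 3] with a ha1 ha
  intro b R N L m S hab hb2 hL hR hS hNb hN hm2 hm1
  have ha' : (3 : ℝ) ≤ a := by exact_mod_cast ha
  have ha0 : (0 : ℝ) < a := by linarith
  have hl1 : 1 ≤ Real.log a := by
    rw [Real.le_log_iff_exp_le ha0]
    have := Real.exp_one_lt_d9
    linarith
  refine core6 (y := (a : ℝ) ^ θ) ha ?_ ?_ hab hb2 hL ?_ ?_ hNb hN hm2 hm1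
  · refine le_trans ?_ ha1
    have : Real.log a ≤ Real.log a ^ 2 := by nlinarith
    linarith
  · rw [← Real.rpow_natCast, ← Real.rpow_mul ha0.le]
    calc (a : ℝ) ^ (θ * (8 : ℕ)) ≤ (a : ℝ) ^ (1 : ℝ) :=
          Real.rpow_le_rpow_of_exponent_le (by linarith) (by push_cast; linarith)
      _ = a := Real.rpow_one _
  · rw [← Real.rpow_natCast, ← Real.rpow_mul ha0.le]
    refine hR.trans (le_of_eq ?_)
    congr 1
    push_cast
    ring
  · rw [← Real.rpow_natCast, ← Real.rpow_mul ha0.le]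
    calc (S : ℝ) * (a : ℝ) ^ (θ * (2 : ℕ)) ≤ b * (a : ℝ) ^ (1 - 2 * θ) * (a : ℝ) ^ (θ * (2 : ℕ)) := by
          gcongr
      _ = b * ((a : ℝ) ^ (1 - 2 * θ) * (a : ℝ) ^ (θ * (2 : ℕ))) := by ring
      _ = b * a := by
          rw [← Real.rpow_add ha0]
          have : (1 - 2 * θ + θ * (2 : ℕ) : ℝ) = 1 := by push_cast; ring
          rw [this, Real.rpow_one]
      _ = a * b := by ring

/-- The same without `b!`. -/
theorem num6 {θ : ℝ} (hθ : 0 < θ) (hθ1 : 8 * θ ≤ 1) :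
    ∀ᶠ a : ℕ in atTop, ∀ b R N L m S : ℕ, 2 * a ≤ b → b ≤ a ^ 2 →
      (L : ℝ) ≤ b * (a : ℝ) ^ θ → (R : ℝ) ≤ (a : ℝ) ^ (5 * θ) →
      (S : ℝ) ≤ b * (a : ℝ) ^ (1 - 2 * θ) → N ≤ b → (b : ℝ) ≤ N + R * (L / a + 3) →
      m ≤ a * b → (a * b : ℝ) ≤ m + R * L + S →
      a ≤ N ∧ ((L : ℝ) + 1) ^ (a * R) * (a : ℝ) ^ S * ((m + N - 1).choose (N - 1) : ℝ)
        ≤ Real.exp (((N - a : ℕ) : ℝ) * (m : ℝ) / ((N + L : ℕ) : ℝ)) := by
  filter_upwards [num6f hθ hθ1] with a ha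
  intro b R N L m S h1 h2 h3 h4 h5 h6 h7 h8 h9
  obtain ⟨h10, h11⟩ := ha b R N L m S h1 h2 h3 h4 h5 h6 h7 h8 h9
  refine ⟨h10, le_trans ?_ h11⟩
  have h12 : (1 : ℝ) ≤ (b.factorial : ℝ) := by
    exact_mod_cast Nat.succ_le_of_lt (Nat.factorial_pos b)
  exact le_mul_of_one_le_left (by positivity) h12

/-- No top rows are cut (`R = 0`, `N = b`): for the orbit inequality
`dim H ≤ b! * plethMult b a`. -/
theorem num6b {θ : ℝ} (hθ : 0 < θ) (hθ1 : 8 * θ ≤ 1) :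
    ∀ᶠ a : ℕ in atTop, ∀ b L m S : ℕ, 2 * a ≤ b → b ≤ a ^ 2 →
      (L : ℝ) ≤ b * (a : ℝ) ^ θ → (S : ℝ) ≤ b * (a : ℝ) ^ (1 - 2 * θ) → m + S = a * b →
      (b.factorial : ℝ) * ((a : ℝ) ^ S * ((m + b - 1).choose (b - 1) : ℝ))
        ≤ Real.exp (((b - a : ℕ) : ℝ) * (m : ℝ) / ((b + L : ℕ) : ℝ)) := by
  filter_upwards [num6f hθ hθ1] with a ha
  intro b L m S h1 h2 h3 h4 h5
  have h6 := (ha b 0 b L m S h1 h2 h3 (by simp; positivity) h4 le_rfl (by simp) (by omega)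
    (by
      have : ((m + S : ℕ) : ℝ) = ((a * b : ℕ) : ℝ) := by rw [h5]
      push_cast at this
      push_cast
      linarith)).2
  simpa using h6

end Vale.Agent.P181.H921
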