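import Mathlib

/-!
P181, adding boxes to one row: injectivity of the evaluation of a homogeneous polynomial at the
combinations of `i` vectors with nonzero determinant.
-/

set_option autoImplicit false

open MvPolynomial

namespace Vale.Agent.P181.H921.P

section Inj

variable {R : Type*} [CommRing R]

/-- The substitution `y ↦ ∑ r, C_r l^(r)`. -/
noncomputable def sbs {i : ℕ} (L : Matrix (Fin i) (Fin i) R) :
    MvPolynomial (Fin i) R →ₐ[R] MvPolynomial (Fin i) R :=
  aeval (fun m => ∑ r, C (L r m) * X r)

lemma totalDegree_sbs_le [Nontrivial R] {i : ℕ} (L : Matrix (Fin i) (Fin i) R)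
    (H : MvPolynomial (Fin i) R) : (sbs L H).totalDegree ≤ H.totalDegree := by
  have h1 : ∀ m, (∑ r, C (L r m) * X r : MvPolynomial (Fin i) R).totalDegree ≤ 1 := by
    intro m
    refine totalDegree_finsetSum_le fun r _ => ?_
    refine (totalDegree_mul _ _).trans ?_
    rw [totalDegree_C, zero_add, totalDegree_X]
  rw [sbs, aeval_def, eval₂_eq']
  refine totalDegree_finsetSum_le fun α hα => ?_
  refine (totalDegree_mul _ _).trans ?_
  rw [algebraMap_eq, totalDegree_C, zero_add]
  refine (totalDegree_finsetProd _ _).trans ?_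
  refine le_trans (Finset.sum_le_sum (g := fun m => α m) fun m _ => ?_) ?_
  · refine (totalDegree_pow _ _).trans ?_
    calc α m * _ ≤ α m * 1 := Nat.mul_le_mul_left _ (h1 m)
      _ = α m := mul_one _
  · have h2 := le_totalDegree hα
    rwa [Finsupp.sum_fintype _ _ (fun _ => rfl)] at h2

lemma coeff_scale {σ : Type*} [Fintype σ] (d : R) (H : MvPolynomial σ R) (α : σ →₀ ℕ) :
    coeff α (aeval (fun m => C d * X m : σ → MvPolynomial σ R) H) =
      coeff α H * d ^ (∑ m, α m) := by
  classical
  have h1 : ∀ (β : σ →₀ ℕ) (c : R), aeval (fun m => C d * X m : σ → MvPolynomial σ R)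
      (monomial β c) = monomial β (c * d ^ (∑ m, β m)) := by
    intro β c
    rw [aeval_monomial, Finsupp.prod_fintype _ _ (fun _ => pow_zero _)]
    simp only [mul_pow]
    rw [Finset.prod_mul_distrib, monomial_eq, Finsupp.prod_fintype _ _ (fun _ => pow_zero _),
      C_mul, algebraMap_eq, ← mul_assoc]
    congr 2
    rw [Finset.prod_pow_eq_pow_sum, map_pow]
  induction H using MvPolynomial.induction_on' with
  | monomial β c =>
    rw [h1, coeff_monomial, coeff_monomial]
    split_ifs with h
    · rw [h]
    · rw [zero_mul]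
  | add p q hp hq => rw [map_add, coeff_add, coeff_add, hp, hq, add_mul]

lemma sbs_adj {i : ℕ} (L : Matrix (Fin i) (Fin i) R) (H : MvPolynomial (Fin i) R) :
    sbs L.adjugate (sbs L H) = aeval (fun m => C L.det * X m) H := by
  have h1 : ((sbs L.adjugate).comp (sbs L)) =
      (aeval (fun m => C L.det * X m) : MvPolynomial (Fin i) R →ₐ[R] MvPolynomial (Fin i) R) := by
    refine algHom_ext fun m => ?_
    rw [AlgHom.comp_apply, sbs, sbs, aeval_X, aeval_X, map_sum]
    have h2 : ∀ r : Fin i, (aeval fun m => ∑ r, C (L.adjugate r m) * X r :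
        MvPolynomial (Fin i) R →ₐ[R] MvPolynomial (Fin i) R) (C (L r m) * X r) =
        ∑ m', C (L.adjugate m' r * L r m) * X m' := by
      intro r
      rw [map_mul, aeval_X, Finset.mul_sum]
      refine Finset.sum_congr rfl fun m' _ => ?_
      have h3 : (aeval fun m => ∑ r, C (L.adjugate r m) * X r :
        MvPolynomial (Fin i) R →ₐ[R] MvPolynomial (Fin i) R) (C (L r m)) = C (L r m) :=
        AlgHom.commutes _ _
      rw [h3, C_mul]
      ring
    rw [Finset.sum_congr rfl fun r _ => h2 r, Finset.sum_comm]
    have h4 : ∀ m' : Fin i, ∑ r, (C (L.adjugate m' r * L r m) * X m' : MvPolynomial (Fin i) R) =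
        C ((L.adjugate * L) m' m) * X m' := by
      intro m'
      rw [Matrix.mul_apply, map_sum, Finset.sum_mul]
    rw [Finset.sum_congr rfl fun r _ => h4 r, Matrix.adjugate_mul,
      Finset.sum_eq_single m]
    · rw [Matrix.smul_apply, Matrix.one_apply_eq, smul_eq_mul, mul_one]
    · intro m' _ hm
      rw [Matrix.smul_apply, Matrix.one_apply_ne hm, smul_zero, C_0, zero_mul]
    · intro h
      exact absurd (Finset.mem_univ _) h
  rw [← h1]
  rfl

/-- A polynomial vanishing at the combinations with small integral coefficients vanishes. -/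
theorem pieri_inj [IsDomain R] [CharZero R] {i k : ℕ} (H : MvPolynomial (Fin i) R)
    (hdeg : H.totalDegree ≤ k) (L : Matrix (Fin i) (Fin i) R) (hL : L.det ≠ 0)
    (h0 : ∀ c : Fin i → Fin (k + 1), eval (fun m => ∑ r, ((c r : ℕ) : R) * L r m) H = 0) :
    H = 0 := by
  classical
  have h1 : sbs L H = 0 := by
    refine eq_zero_of_eval_zero_at_prod_finset _
      (fun _ => (Finset.range (k + 1)).image (fun j : ℕ => (j : R))) ?_ ?_
    · intro r
      rw [Finset.card_image_of_injective _ Nat.cast_injective, Finset.card_range,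
        Nat.lt_succ_iff]
      exact (degreeOf_le_totalDegree _ _).trans ((totalDegree_sbs_le L H).trans hdeg)
    · intro x hx
      have h2 : ∀ r, ∃ j : Fin (k + 1), ((j : ℕ) : R) = x r := by
        intro r
        obtain ⟨j, hj, hjx⟩ := Finset.mem_image.1 (hx r)
        exact ⟨⟨j, Finset.mem_range.1 hj⟩, hjx⟩
      choose c hc using h2
      have h3 : eval x (sbs L H) = eval (fun m => ∑ r, x r * L r m) H := by
        have h4 : (aeval x : MvPolynomial (Fin i) R →ₐ[R] R).comp (sbs L) =
            aeval (fun m => ∑ r, x r * L r m) := by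
          refine algHom_ext fun m => ?_
          rw [AlgHom.comp_apply, sbs, aeval_X, aeval_X, map_sum]
          refine Finset.sum_congr rfl fun r _ => ?_
          rw [map_mul, aeval_X, mul_comm]
          congr 1
          exact AlgHom.commutes _ _
        have h5 := DFunLike.congr_fun h4 H
        rw [AlgHom.comp_apply] at h5
        exact h5
      rw [h3, ← h0 c]
      simp only [hc]
  have h2 := sbs_adj L H
  rw [h1, map_zero] at h2
  ext α
  have h3 := coeff_scale L.det H α
  rw [← h2, coeff_zero] at h3
  rw [coeff_zero]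
  exact (mul_eq_zero.1 h3.symm).resolve_right (pow_ne_zero _ hL)

end Inj

section Rank

variable {K V W ι : Type*} [Field K] [AddCommGroup V] [Module K V] [AddCommGroup W] [Module K W]

/-- A family of jointly injective maps. -/
theorem finrank_le_card_mul [Fintype ι] [FiniteDimensional K W] (T : ι → V →ₗ[K] W)
    (h : ∀ v, (∀ c, T c v = 0) → v = 0) :
    Module.finrank K V ≤ Fintype.card ι * Module.finrank K W := by
  have h1 : Function.Injective (LinearMap.pi T) := by
    rw [← LinearMap.ker_eq_bot, LinearMap.ker_eq_bot']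
    intro v hv
    refine h v fun c => ?_
    exact congrFun hv c
  have h2 := LinearMap.finrank_le_finrank_of_injective h1
  rwa [Module.finrank_pi_fintype, Finset.sum_const, Finset.card_univ, smul_eq_mul] at h2

/-- The same for submodules. -/
theorem finrank_le_card_mul_sub [Fintype ι] {A B : Type*} [AddCommGroup A] [Module K A]
    [AddCommGroup B] [Module K B] (X : Submodule K A) (Y : Submodule K B)
    [FiniteDimensional K Y] (T : ι → A →ₗ[K] B) (hT : ∀ c, ∀ v ∈ X, T c v ∈ Y)
    (h : ∀ v ∈ X, (∀ c, T c v = 0) → v = 0) :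
    Module.finrank K X ≤ Fintype.card ι * Module.finrank K Y := by
  refine finrank_le_card_mul (fun c => ((T c).comp X.subtype).codRestrict Y
    (fun v => hT c v v.2)) ?_
  intro v hv
  apply Subtype.ext
  refine h v v.2 fun c => ?_
  exact congrArg Subtype.val (hv c)

end Rank

end Vale.Agent.P181.H921.P
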