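import Vale.Agent.P181.H921.WDefs

/-!
P181, weighted tail slopes: the curried form and weight vectors.
-/

set_option autoImplicit false

open MvPolynomial

namespace Vale.Agent.P181.TW

open Vale.Agent.P181 Vale.Agent.P181.H536 Vale.Agent.P181.H280 Vale.Agent.P181.TN

variable {n : ℕ}

/-- the scaling identity of the curried form -/
lemma curry_tauW {m b : ℕ} {w r : Fin n → ℕ} (hr : ∑ i, r i ≤ b) (F : Fm n (m + 1))
    (hH : HomW b w F) {A : Sn n} (hA : A ∈ U2 n ^ (b - ∑ i, r i)) (c : Fin n → ℂ)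
    (hc : ∀ i, c i ≠ 0) (P : Fin m → Sn n) (hP : Dg b P) :
    (∏ i, c i ^ r i) * F.curryLeft (mz r * A) (fun j => scw c (P j)) =
      (∏ i, c i ^ w i) * F.curryLeft (mz r * A) P := by
  have h1 := hH c hc (Fin.cons (mz r * A) P) (by
    intro i
    refine Fin.cases ?_ (fun j => ?_) i
    · simpa using wA_mem hr (mz_mem r) hA
    · simpa using hP j)
  have h2 : (fun i : Fin (m + 1) => scw c ((Fin.cons (mz r * A) P : Fin (m + 1) → Sn n) i)) =
      Fin.cons ((∏ i, c i ^ r i) • (mz r * A)) (fun i => scw c (P i)) := by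
    funext i
    refine Fin.cases ?_ (fun j => ?_) i
    · simp only [Fin.cons_zero]
      rw [map_mul, scw_mz, scw_U2 c hA, smul_mul_assoc]
    · simp only [Fin.cons_succ]
  rw [h2] at h1
  have h3 := (F.curryLeft).map_smul (∏ i, c i ^ r i) (mz r * A)
  have h4 : F (Fin.cons ((∏ i, c i ^ r i) • (mz r * A)) (fun i => scw c (P i))) =
      (∏ i, c i ^ r i) * F.curryLeft (mz r * A) (fun i => scw c (P i)) := by
    rw [← MultilinearMap.curryLeft_apply, h3, smul_apply, smul_eq_mul]
  rw [h4] at h1
  rw [h1, MultilinearMap.curryLeft_apply]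

/-- the weight of the curried form -/
theorem curry_homW {m b : ℕ} {w r : Fin n → ℕ} (hr : ∑ i, r i ≤ b) (hrw : r ≤ w)
    (F : Fm n (m + 1)) (hH : HomW b w F) {A : Sn n} (hA : A ∈ U2 n ^ (b - ∑ i, r i)) :
    HomW b (w - r) (F.curryLeft (mz r * A)) := by
  intro c hc P hP
  have h1 := curry_tauW hr F hH hA c hc P hP
  have hck : (∏ i, c i ^ r i) ≠ 0 := Finset.prod_ne_zero_iff.2 fun i _ => pow_ne_zero _ (hc i)
  apply mul_left_cancel₀ hck
  rw [h1, ← mul_assoc, ← Finset.prod_mul_distrib]
  congr 1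
  apply Finset.prod_congr rfl
  intro i _
  rw [← pow_add, Pi.sub_apply, Nat.add_sub_cancel' (hrw i)]

/-- the action of the scaling of one variable on one form is polynomial -/
lemma scw_poly (i₀ : Fin n) (P : Sn n) :
    ∃ p : Polynomial (Sn n), ∀ c : ℂ, p.eval (algebraMap ℂ (Sn n) c) =
      scw (fun i => if i = i₀ then c else 1) P := by
  let g : Sn n →ₐ[ℂ] Polynomial (Sn n) := aeval (Fin.cons (Polynomial.C (X 0))
    (Fin.cons (Polynomial.C (X 1)) (fun i : Fin n =>
      if i = i₀ then Polynomial.C (X i.succ.succ) * Polynomial.X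
      else Polynomial.C (X i.succ.succ))))
  refine ⟨g P, fun c => ?_⟩
  have h : ((Polynomial.aeval (algebraMap ℂ (Sn n) c) :
      Polynomial (Sn n) →ₐ[Sn n] Sn n).restrictScalars ℂ).comp g =
        scw (fun i => if i = i₀ then c else 1) := by
    apply MvPolynomial.algHom_ext
    intro i
    rw [AlgHom.comp_apply, aeval_X, AlgHom.restrictScalars_apply]
    refine Fin.cases ?_ (fun i => ?_) i
    · rw [Fin.cons_zero, Polynomial.aeval_C, scw_zero]
      rfl
    · refine Fin.cases ?_ (fun i => ?_) i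
      · rw [Fin.cons_succ, Fin.cons_zero, Polynomial.aeval_C]
        exact (scw_one _).symm
      · rw [Fin.cons_succ, Fin.cons_succ, scw_succ]
        by_cases hi : i = i₀
        · rw [if_pos hi, if_pos hi, map_mul, Polynomial.aeval_C, Polynomial.aeval_X,
            Algebra.smul_def, mul_comm]
          rfl
        · rw [if_neg hi, if_neg hi, Polynomial.aeval_C, one_smul]
          rfl
  have h2 := congrArg (fun g : Sn n →ₐ[ℂ] Sn n => g P) h
  simp only [AlgHom.comp_apply, AlgHom.restrictScalars_apply] at h2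
  rw [← h2, Polynomial.coe_aeval_eq_eval]

/-- a curried form of too large exponent is zero -/
theorem curry_zeroW {m b : ℕ} {w r : Fin n → ℕ} (hr : ∑ i, r i ≤ b) (i₀ : Fin n)
    (hi₀ : w i₀ < r i₀) (F : Fm n (m + 1)) (hH : HomW b w F) {A : Sn n}
    (hA : A ∈ U2 n ^ (b - ∑ i, r i)) : Van b (F.curryLeft (mz r * A)) := by
  intro P hP
  choose R hR using fun i => scw_poly i₀ (P i)
  obtain ⟨q, hq⟩ := poly_exists (F.curryLeft (mz r * A)) R
  have hprod : ∀ (v : Fin n → ℕ) (c : ℂ),
      (∏ i, (if i = i₀ then c else 1 : ℂ) ^ v i) = c ^ v i₀ := by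
    intro v c
    rw [Finset.prod_eq_single i₀]
    · rw [if_pos rfl]
    · intro i _ hi
      rw [if_neg hi, one_pow]
    · intro h
      exact absurd (Finset.mem_univ _) h
  have h1 : Polynomial.X ^ (r i₀ - w i₀) * q =
      Polynomial.C (F.curryLeft (mz r * A) P) := by
    apply Polynomial.eq_of_infinite_eval_eq
    apply Set.Infinite.mono (s := ({0} : Set ℂ)ᶜ)
    · intro c hc
      have hc0 : c ≠ 0 := hc
      rw [Set.mem_ofPred_eq, Polynomial.eval_mul, Polynomial.eval_pow, Polynomial.eval_X,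
        Polynomial.eval_C, hq]
      simp only [hR]
      have h2 := curry_tauW hr F hH hA (fun i => if i = i₀ then c else 1) (by
        intro i
        split_ifs
        · exact hc0
        · exact one_ne_zero) P hP
      rw [hprod, hprod] at h2
      have h3 : c ^ r i₀ = c ^ w i₀ * c ^ (r i₀ - w i₀) := by
        rw [← pow_add, Nat.add_sub_cancel' hi₀.le]
      rw [h3, mul_assoc] at h2
      exact mul_left_cancel₀ (pow_ne_zero _ hc0) h2
    · exact (Set.finite_singleton (0 : ℂ)).infinite_compl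
  have h2 := congrArg (Polynomial.eval (0 : ℂ)) h1
  rw [Polynomial.eval_mul, Polynomial.eval_pow, Polynomial.eval_X, Polynomial.eval_C,
    zero_pow (by omega), zero_mul] at h2
  exact h2.symm

end Vale.Agent.P181.TW
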