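import Vale.Agent.P181.R2.H280.NCurry

/-!
P181, weighted tail slopes: the weight vector of the last `n` variables.
-/

set_option autoImplicit false

open MvPolynomial

namespace Vale.Agent.P181.TW

open Vale.Agent.P181 Vale.Agent.P181.H536 Vale.Agent.P181.H280 Vale.Agent.P181.TN

variable {n : ℕ}

/-- Scaling of the last variables by a vector. -/
noncomputable def scw (c : Fin n → ℂ) : Sn n →ₐ[ℂ] Sn n :=
  aeval (Fin.cons (X 0) (Fin.cons (X 1) (fun i : Fin n => c i • X i.succ.succ)))

/-- In degree `b` the form has weight `w` for the scalings of the last variables. -/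
def HomW (b : ℕ) (w : Fin n → ℕ) {a : ℕ} (F : Fm n a) : Prop :=
  ∀ c : Fin n → ℂ, (∀ i, c i ≠ 0) → ∀ P : Fin a → Sn n, Dg b P →
    F (fun j => scw c (P j)) = (∏ i, c i ^ w i) * F P

/-- The statement `K(a, b, w)`: no nonzero shear invariant form of weight `w` in the kernel. -/
def KW (n a b : ℕ) (w : Fin n → ℕ) : Prop :=
  ∀ F : Fm n a, IsSymm F → Inv b F → HomW b w F → IsK (linS (n + 2)) b F → Van b F

/-- The monomials in the last variables. -/
noncomputable def mz (r : Fin n → ℕ) : Sn n := ∏ i, (X i.succ.succ : Sn n) ^ r i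

lemma scw_zero (c : Fin n → ℂ) : scw c (X 0) = X 0 := by
  rw [scw, aeval_X, Fin.cons_zero]

lemma scw_one (c : Fin n → ℂ) : scw c (X 1) = X 1 := by
  rw [scw, aeval_X]
  rfl

lemma scw_succ (c : Fin n → ℂ) (i : Fin n) : scw c (X i.succ.succ) = c i • X i.succ.succ := by
  rw [scw, aeval_X, Fin.cons_succ, Fin.cons_succ]

lemma scw_const (t : ℂ) : scw (fun _ : Fin n => t) = scal n t := rfl

lemma HomW.hom {b a : ℕ} {w : Fin n → ℕ} {F : Fm n a} (h : HomW b w F) :
    Hom b (∑ i, w i) F := by
  intro c hc P hP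
  have h1 := h (fun _ => c) (fun _ => hc) P hP
  rw [scw_const, Finset.prod_pow_eq_pow_sum] at h1
  exact h1

lemma scw_U {u : Sn n} (hu : u ∈ U2 n) (c : Fin n → ℂ) : scw c u = u := by
  obtain ⟨α, β, rfl⟩ := Submodule.mem_span_pair.1 hu
  rw [map_add, map_smul, map_smul, scw_zero, scw_one]

lemma scw_U2 {d : ℕ} (c : Fin n → ℂ) {A : Sn n} (hA : A ∈ U2 n ^ d) : scw c A = A := by
  induction d generalizing A with
  | zero =>
    rw [pow_zero, Submodule.mem_one] at hA
    obtain ⟨r, rfl⟩ := hA
    exact AlgHom.commutes _ _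
  | succ d ih =>
    rw [pow_succ] at hA
    induction hA using Submodule.mul_induction_on' with
    | mem_mul_mem x hx y hy => rw [map_mul, ih hx, scw_U hy]
    | add x _ y _ hx hy => rw [map_add, hx, hy]

lemma scw_ln (c : Fin n → ℂ) (x : ℂ) : scw c (ln n x) = ln n x := scw_U (ln_mem_U2 x) c

lemma scw_mz (c : Fin n → ℂ) (r : Fin n → ℕ) : scw c (mz r) = (∏ i, c i ^ r i) • mz r := by
  rw [mz, map_prod]
  have h1 : ∀ i : Fin n, scw c ((X i.succ.succ : Sn n) ^ r i) =
      algebraMap ℂ (Sn n) (c i ^ r i) * X i.succ.succ ^ r i := by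
    intro i
    rw [map_pow, scw_succ, smul_pow, Algebra.smul_def]
  rw [Finset.prod_congr rfl (fun i _ => h1 i), Finset.prod_mul_distrib, Algebra.smul_def, map_prod]

lemma scw_Z_mem {z : Sn n} (hz : z ∈ ZZ n) (c : Fin n → ℂ) : scw c z ∈ ZZ n := by
  rw [ZZ] at hz
  induction hz using Submodule.span_induction with
  | mem x hx =>
    obtain ⟨i, rfl⟩ := hx
    rw [scw_succ]
    exact (ZZ n).smul_mem _ (Submodule.subset_span ⟨i, rfl⟩)
  | zero => rw [map_zero]; exact (ZZ n).zero_mem
  | add x y _ _ hx hy => rw [map_add]; exact (ZZ n).add_mem hx hy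
  | smul r x _ hx => rw [map_smul]; exact (ZZ n).smul_mem _ hx

lemma scw_mem {d : ℕ} (c : Fin n → ℂ) {P : Sn n} (hP : P ∈ linS (n + 2) ^ d) :
    scw c P ∈ linS (n + 2) ^ d := by
  have h1 : (linS (n + 2) ^ d).map (scw c).toLinearMap ≤ linS (n + 2) ^ d := by
    rw [Submodule.map_pow]
    apply pow_le_pow_left'
    rw [linS_eq, Submodule.map_sup, sup_le_iff]
    constructor
    · rintro _ ⟨u, hu, rfl⟩
      change scw c u ∈ _
      rw [scw_U hu]
      exact Submodule.mem_sup_left hu
    · rintro _ ⟨z, hz, rfl⟩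
      exact Submodule.mem_sup_right (scw_Z_mem hz c)
  exact h1 ⟨P, hP, rfl⟩

lemma mz_mem (r : Fin n → ℕ) : mz r ∈ ZZ n ^ (∑ i, r i) := by
  classical
  have h1 : ∀ s : Finset (Fin n), ∏ i ∈ s, (X i.succ.succ : Sn n) ^ r i ∈ ZZ n ^ (∑ i ∈ s, r i) := by
    intro s
    induction s using Finset.induction_on with
    | empty =>
      rw [Finset.prod_empty, Finset.sum_empty, pow_zero]
      exact Submodule.one_le.1 le_rfl
    | insert i s hi ih =>
      rw [Finset.prod_insert hi, Finset.sum_insert hi, pow_add]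
      refine Submodule.mul_mem_mul (Submodule.pow_mem_pow _ ?_ _) ih
      exact Submodule.subset_span ⟨i, rfl⟩
  exact h1 Finset.univ

/-- The powers of the span of the last variables are spanned by monomials. -/
lemma ZZ_pow_le (k : ℕ) : ZZ n ^ k ≤
    Submodule.span ℂ {x : Sn n | ∃ r : Fin n → ℕ, ∑ i, r i = k ∧ x = mz r} := by
  classical
  induction k with
  | zero =>
    rw [pow_zero, Submodule.one_le]
    refine Submodule.subset_span ⟨fun _ => 0, by simp, ?_⟩
    simp [mz]
  | succ k ih =>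
    rw [pow_succ]
    have h0 : ZZ n ^ k * ZZ n ≤
        Submodule.span ℂ {x : Sn n | ∃ r : Fin n → ℕ, ∑ i, r i = k ∧ x = mz r} * ZZ n := by
      rw [Submodule.mul_le]
      intro p hp q hq
      exact Submodule.mul_mem_mul (ih hp) hq
    refine h0.trans ?_
    rw [ZZ, Submodule.span_mul_span, Submodule.span_le]
    rintro _ ⟨x, ⟨r, hr, rfl⟩, y, ⟨i, rfl⟩, rfl⟩
    refine Submodule.subset_span ⟨fun j => r j + if j = i then 1 else 0, ?_, ?_⟩
    · rw [Finset.sum_add_distrib, hr]
      simp
    · change mz r * X i.succ.succ = _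
      rw [mz, mz]
      simp only [pow_add, Finset.prod_mul_distrib]
      congr 1
      rw [Finset.prod_eq_single i]
      · simp
      · intro j _ hj
        rw [if_neg hj, pow_zero]
      · intro h
        exact absurd (Finset.mem_univ i) h

/-- Vanishing of the curried forms at all monomials. -/
lemma van_curry_of_mz {m b k : ℕ} (F : Fm n (m + 1)) (A : Sn n)
    (h : ∀ r : Fin n → ℕ, ∑ i, r i = k → Van b (F.curryLeft (mz r * A))) {w : Sn n}
    (hw : w ∈ ZZ n ^ k) : Van b (F.curryLeft (w * A)) := by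
  intro P hP
  have hw' := ZZ_pow_le k hw
  clear hw
  induction hw' using Submodule.span_induction with
  | mem x hx =>
    obtain ⟨r, hr, rfl⟩ := hx
    exact h r hr P hP
  | zero => rw [zero_mul, map_zero]; rfl
  | add x y _ _ hx hy => rw [add_mul, map_add, add_apply, hx, hy, add_zero]
  | smul c x _ hx => rw [smul_mul_assoc, map_smul, smul_apply, hx, smul_zero]

end Vale.Agent.P181.TW
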