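import Vale.Agent.P181.H921.WStepA
import Vale.Agent.P181.H310.W4
import Vale.Agent.P181.R2.H940.NTree
import Vale.Agent.P181.R2.H280.NStep

/-!
P181, weighted tail slopes: the final theorem from the two steps.
-/

set_option autoImplicit false

open scoped TensorProduct

namespace Vale.Agent.P181.TW

open MvPolynomial Vale.Agent.P181 Vale.Agent.P181.H536 Vale.Agent.P181.H280 Vale.Agent.P181.TN

variable {n : ℕ}

/-- The known tail theorem. -/
theorem treeW {N b a : ℕ} {w : Fin n → ℕ} (hN : 1 ≤ N) (ht : ∑ i, w i + N ≤ b)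
    (ha : a ≤ N + 1) : KW n a b w :=
  fun F hs hI hH hK => tree hN ht ha F hs hI hH.hom hK

theorem zeroW (b : ℕ) (w : Fin n → ℕ) : KW n 0 b w :=
  fun F hs hI hH hK => zeroN n b (∑ i, w i) F hs hI hH.hom hK

/-- The statement of the light step (helper72). -/
def StepB (n : ℕ) : Prop := ∀ (m b : ℕ) (L : Finset (Fin n)) (w : Fin n → ℕ), m ≤ b →
  2 * m ≤ b + 1 → ∀ F : Fm n (m + 1), IsSymm F → Inv (b + 1) F → HomW (b + 1) w F →
  m + 1 ≤ ∑ i ∈ L, w i →
  (∀ (x : ℂ) (c : Fin n → ℂ) (h : Fin (m + 1) → Sn n), Dg b h →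
    F (fun j => (ln n x + ∑ i, c i • (X i.succ.succ : Sn n)) * h j) =
      F (fun j => (ln n x + ∑ i, (if i ∈ L then 0 else c i) • (X i.succ.succ : Sn n)) * h j)) →
  (∀ w' : Fin n → ℕ, w' ≤ w → KW n m (b + 1) w') → Van (b + 1) F

theorem stepW (hB : StepB n) (Lt : Finset (Fin n)) (s m b : ℕ) (w : Fin n → ℕ) (hs : 2 ≤ s)
    (hmb : m ≤ b) (h2m : 2 * m ≤ b + 1) (hK1 : ∀ w' ≤ w, KW n m (b + 1) w')
    (hK2 : ∀ e ≤ w, s ≤ ∑ i ∈ Ltᶜ, e i + s * ∑ i ∈ Lt, e i → KW n (m + 1) b (w - e))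
    (hc : m + 1 ≤ ∑ i ∈ Lt, w i ∨ (∑ i ∈ Lt, w i ≤ m ∧ 3 * m ≤ b + 1 ∧
      ∃ i, i ∉ Lt ∧ (s - 1) * (b + 1) + 2 * m + 2 ≤ ∑ j ∈ Ltᶜ, w j + w i)) :
    KW n (m + 1) (b + 1) w := by
  classical
  have hcompl : Finset.univ.filter (fun i => i ∉ Lt) = Ltᶜ := by
    ext i
    simp
  intro F hsy hI hH hF
  obtain ⟨hQ, hQ2⟩ := stage (by omega : 1 ≤ s) Lt (by
    intro e hew he
    rw [hcompl] at he
    exact hK2 e hew he) F hsy hI hH hF
  rcases hc with hc | ⟨-, -, i₀, -, hc⟩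
  · exact hB m b Lt w hmb h2m F hsy hI hH hc hQ2 hK1
  · refine stepA hs hmb h2m F hsy hI hH hQ hK1 i₀ ?_
    have h1 : ∑ j ∈ Ltᶜ, w j ≤ ∑ j, w j :=
      Finset.sum_le_sum_of_subset (Finset.subset_univ _)
    omega

/-- **The merged tail theorem**, for forms. -/
theorem KW_all (hB : StepB n) {N : ℕ} {Lt : Finset (Fin n)} {lam : Fin n → ℕ} {Y : ℕ → ℕ}
    (hN : 1 ≤ N) (hY1 : N ≤ Y 1)
    (hY : ∀ s, 1 ≤ s → (s + 1) * Y s + H310.SH Lt lam (Y s + (s + 2) * N) ≤ s * Y (s + 1))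
    {a b s : ℕ} (hs : 1 ≤ s) (ha : a ≤ N + 1)
    (h : ∑ i ∈ Ltᶜ, lam i + s * ∑ i ∈ Lt, lam i + Y s ≤ s * b) : KW n a b lam :=
  H310.recW hN hY1 hY (KW n) (fun _ _ _ h ha => treeW hN h ha) zeroW
    (fun s m b w hs _ _ hmb h2m hK1 hK2 hc => stepW hB Lt s m b w hs hmb h2m hK1 hK2 hc)
    s hs a ha b lam le_rfl h

/-- the diagonal values -/
def dg (c : Fin n → ℂ) : Fin (n + 2) → ℂ := Fin.cons 1 (Fin.cons 1 c)

lemma dg_ne {c : Fin n → ℂ} (hc : ∀ i, c i ≠ 0) (i : Fin (n + 2)) : dg c i ≠ 0 := by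
  refine Fin.cases ?_ (fun i => ?_) i
  · exact one_ne_zero
  · refine Fin.cases ?_ (fun i => ?_) i
    · exact one_ne_zero
    · exact hc i

lemma dg_borel {c : Fin n → ℂ} (hc : ∀ i, c i ≠ 0) : IsBorel (Matrix.diagonal (dg c)) := by
  constructor
  · intro i j hij
    exact Matrix.diagonal_apply_ne _ (ne_of_gt hij)
  · intro i
    rw [Matrix.diagonal_apply_eq]
    exact dg_ne hc i

lemma scw_X (c : Fin n → ℂ) (k : Fin (n + 2)) :
    scw c (X k : Sn n) = dg c k • (X k : Sn n) := by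
  refine Fin.cases ?_ (fun k => ?_) k
  · rw [scw_zero]
    exact (one_smul ℂ _).symm
  · refine Fin.cases ?_ (fun k => ?_) k
    · change scw c (X 1) = _
      rw [scw_one]
      exact (one_smul ℂ _).symm
    · exact scw_succ c k

/-- The torus weight of the form of a highest weight vector. -/
theorem formOf_homW {a b : ℕ} (lam : Fin (n + 2) → ℕ)
    (l : (Fin a → Fin b → (Fin (n + 2) → ℂ)) →₀ ℂ)
    (hx : elOf l ∈ hwSpace lam (plethAct a b (n + 2))) :
    HomW b (fun i => lam i.succ.succ) (formOf l) := by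
  intro t ht P hP
  have hM : ∀ c : Fin (n + 2), evL (n + 2) (scw t (X c)) =
      fun v => (Matrix.toLin' (Matrix.diagonal (dg t)) v) c := by
    intro c
    funext v
    rw [Matrix.toLin'_apply, Matrix.mulVec_diagonal, scw_X, map_smul, evL_X]
    rfl
  have hprod : ∏ i, (Matrix.diagonal (dg t)) i i ^ lam i = ∏ i : Fin n, t i ^ lam i.succ.succ := by
    rw [Fin.prod_univ_succ, Fin.prod_univ_succ]
    simp only [Matrix.diagonal_apply_eq]
    have h0 : dg t 0 = 1 := rfl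
    have h1 : dg t (Fin.succ 0) = 1 := rfl
    rw [h0, h1, one_pow, one_pow, one_mul, one_mul]
    rfl
  let Φ : MultilinearMap ℂ (fun _ : Fin a => MvPolynomial (Fin (n + 2)) ℂ) ℂ :=
    comp (formOf l) (scw t) - (∏ i : Fin n, t i ^ lam i.succ.succ) • formOf l
  have hΦ : Φ P = 0 := by
    apply multilinear_zero_of_span Φ
      (Set.range (fun c : Fin b → Fin (n + 2) => ∏ j, (X (c j) : MvPolynomial (Fin (n + 2)) ℂ)))
    · intro w hw
      choose c hc using hw
      have hw' : w = fun i => ∏ j, X (c i j) := by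
        funext i; exact (hc i).symm
      have h1 := formOf_act lam l hx (Matrix.diagonal (dg t)) c (fun i j => scw t (X (c i j)))
        (dg_borel ht) (fun i j => hM (c i j))
      rw [hprod] at h1
      rw [hw']
      have h2 : Φ (fun i => ∏ j, X (c i j)) =
          formOf l (fun i => scw t (∏ j, X (c i j))) -
            (∏ i : Fin n, t i ^ lam i.succ.succ) * formOf l (fun i => ∏ j, X (c i j)) := rfl
      rw [h2]
      simp only [map_prod]
      rw [h1, sub_self]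
    · intro i
      exact span_pow_eq _ _ (hP i)
  have h1 : Φ P = formOf l (fun i => scw t (P i)) -
      (∏ i : Fin n, t i ^ lam i.succ.succ) * formOf l P := rfl
  rw [h1, sub_eq_zero] at hΦ
  exact hΦ

/-- Injectivity on highest weight vectors. -/
theorem injOn_of_KW {a b : ℕ} (lam : Fin (n + 2) → ℕ)
    (hK : KW n a b (fun i => lam i.succ.succ)) (x : Pleth a b (n + 2))
    (hx : x ∈ hwSpace lam (plethAct a b (n + 2)))
    (h0 : foulkesHowe a b (Fin (n + 2) → ℂ) x = 0) : x = 0 := by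
  obtain ⟨l, rfl⟩ := exists_elOf x
  apply elOf_eq_zero
  refine hK (formOf l) (formOf_symm l) ?_ (formOf_homW lam l hx) (isK_formOf l h0)
  intro z hz P hP
  exact Vale.Agent.P181.H780.formOf_shear (n := n) lam l hx (sh n z) (isShear_sh hz) P hP

theorem plethMult_of_KW {a b : ℕ} (lam : Fin (n + 2) → ℕ)
    (hK : KW n a b (fun i => lam i.succ.succ)) :
    plethMult a b (n + 2) lam ≤ plethMult b a (n + 2) lam :=
  finrank_le_of_inj (foulkesHowe a b (Fin (n + 2) → ℂ)) _ _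
    (fun x hx => foulkesHowe_hwSpace lam x hx)
    (fun x hx h0 => injOn_of_KW lam hK x hx h0)

end Vale.Agent.P181.TW
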