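import Vale.Agent.P181.H921.WFinal
import Vale.Agent.P181.H72.StepB
import Vale.Agent.P181.H310.W6
import Vale.Agent.P181.T7.Last

/-!
P181: the weighted tail theorem, unconditional.
-/

set_option autoImplicit false

open scoped TensorProduct

namespace Vale.Agent.P181.TW

open MvPolynomial Vale.Agent.P181 Vale.Agent.P181.H536 Vale.Agent.P181.H280 Vale.Agent.P181.TN

theorem stepB_all (n : ℕ) : StepB n :=
  fun _ _ L w hmb h2m F hsy hI hH hL hQ hK1 => H72.stepB L w hmb h2m F hsy hI hH hL hQ hK1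

/-- **The weighted tail theorem**, for forms. -/
theorem KW_plus {n a b : ℕ} (ha : 2 ≤ a) (Lt : Finset (Fin n)) (lam : Fin (n + 2) → ℕ)
    (Y : ℕ → ℕ) (hY1 : a - 1 ≤ Y 1)
    (hY : ∀ s, 1 ≤ s → (s + 1) * Y s +
      H310.SH Lt (fun i => lam i.succ.succ) (Y s + (s + 2) * (a - 1)) ≤ s * Y (s + 1))
    (h : ∃ s, 1 ≤ s ∧ ∑ i ∈ Ltᶜ, lam i.succ.succ + s * ∑ i ∈ Lt, lam i.succ.succ + Y s ≤ s * b) :
    KW n a b (fun i => lam i.succ.succ) := by
  obtain ⟨s, hs, h⟩ := h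
  exact KW_all (stepB_all n) (N := a - 1) (by omega) hY1 hY hs (by omega) h

/-- **The weighted tail theorem**: injectivity of the canonical map. -/
theorem inj_plus {n a b : ℕ} (ha : 2 ≤ a) (Lt : Finset (Fin n)) (lam : Fin (n + 2) → ℕ)
    (Y : ℕ → ℕ) (hY1 : a - 1 ≤ Y 1)
    (hY : ∀ s, 1 ≤ s → (s + 1) * Y s +
      H310.SH Lt (fun i => lam i.succ.succ) (Y s + (s + 2) * (a - 1)) ≤ s * Y (s + 1))
    (h : ∃ s, 1 ≤ s ∧ ∑ i ∈ Ltᶜ, lam i.succ.succ + s * ∑ i ∈ Lt, lam i.succ.succ + Y s ≤ s * b)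
    (x : Pleth a b (n + 2)) (hx : x ∈ hwSpace lam (plethAct a b (n + 2)))
    (h0 : foulkesHowe a b (Fin (n + 2) → ℂ) x = 0) : x = 0 :=
  injOn_of_KW lam (KW_plus ha Lt lam Y hY1 hY h) x hx h0

/-- **The weighted tail theorem**: multiplicities. -/
theorem mult_plus {n a b : ℕ} (ha : 2 ≤ a) (Lt : Finset (Fin n)) (lam : Fin (n + 2) → ℕ)
    (Y : ℕ → ℕ) (hY1 : a - 1 ≤ Y 1)
    (hY : ∀ s, 1 ≤ s → (s + 1) * Y s +
      H310.SH Lt (fun i => lam i.succ.succ) (Y s + (s + 2) * (a - 1)) ≤ s * Y (s + 1))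
    (h : ∃ s, 1 ≤ s ∧
      ∑ i ∈ Ltᶜ, lam i.succ.succ + s * ∑ i ∈ Lt, lam i.succ.succ + Y s ≤ s * b) :
    plethMult a b (n + 2) lam ≤ plethMult b a (n + 2) lam :=
  plethMult_of_KW lam (KW_plus ha Lt lam Y hY1 hY h)

/-- Two heavy rows: `n + 2` variables. -/
theorem mult_two {n a b μ1 μ2 : ℕ} (ha : 2 ≤ a) (lam : Fin (n + 2) → ℕ) (hμ : μ2 ≤ μ1)
    (h0 : ∀ i : Fin n, (i : ℕ) = 0 → lam i.succ.succ ≤ μ1)
    (h1 : ∀ i : Fin n, (i : ℕ) = 1 → lam i.succ.succ ≤ μ2)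
    (hL : 2 * ∑ i ∈ H310.lt2 n, lam i.succ.succ ≤ b)
    (hC : 4096 * 18 ^ 6 * (a ^ 2 * (μ1 + a) ^ 3 * (μ2 + a)) ≤ b ^ 6) :
    plethMult a b (n + 2) lam ≤ plethMult b a (n + 2) lam := by
  have hle : (a - 1) ^ 2 * (μ1 + (a - 1)) ^ 3 * (μ2 + (a - 1)) ≤
      a ^ 2 * (μ1 + a) ^ 3 * (μ2 + a) := by
    apply Nat.mul_le_mul
    · apply Nat.mul_le_mul
      · exact Nat.pow_le_pow_left (Nat.sub_le _ _) _
      · exact Nat.pow_le_pow_left (by omega) _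
    · omega
  refine mult_plus ha (H310.lt2 n) lam
    (H310.XX (a - 1) (H310.lt2 n) (fun i => lam i.succ.succ)) ?_ ?_ ?_
  · rw [H310.XX_one]
  · intro s hs
    exact H310.XX_rec (a - 1) (H310.lt2 n) (fun i => lam i.succ.succ) hs
  · exact H310.w6 (N := a - 1) (by omega) hμ h0 h1 hL
      ((Nat.mul_le_mul_left _ hle).trans hC)

/-- **Two heavy rows**, `a` rows: `λ_3 ≤ μ1`, `λ_4 ≤ μ2`, few cells below the row four. -/
theorem wplus {a b μ1 μ2 : ℕ} (ha : 2 ≤ a) (lam : Fin a → ℕ) (hμ : μ2 ≤ μ1)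
    (h0 : T4.ex lam 2 ≤ μ1) (h1 : T4.ex lam 3 ≤ μ2)
    (hL : 2 * T7.below 4 lam ≤ b)
    (hC : 4096 * 18 ^ 6 * (a ^ 2 * (μ1 + a) ^ 3 * (μ2 + a)) ≤ b ^ 6) :
    plethMult a b a lam ≤ plethMult b a a lam := by
  classical
  obtain ⟨n, rfl⟩ := Nat.exists_eq_add_of_le' ha
  have hex : ∀ i : Fin n, lam i.succ.succ = T4.ex lam ((i : ℕ) + 2) := by
    intro i
    rw [T4.ex, dif_pos (by omega)]
    rfl
  refine mult_two (by omega) lam hμ ?_ ?_ ?_ hC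
  · intro i hi
    rw [hex, hi]
    exact h0
  · intro i hi
    rw [hex, hi]
    exact h1
  · have h2 : ∑ i ∈ H310.lt2 n, lam i.succ.succ = T7.below 4 lam := by
      unfold T7.below
      refine Finset.sum_nbij (fun i : Fin n => (i : ℕ) + 2) ?_ ?_ ?_ ?_
      · intro i hi
        have h3 := (Finset.mem_filter.1 hi).2
        rw [Finset.mem_Ico]
        omega
      · intro i _ j _ hij
        apply Fin.ext
        have h3 : (i : ℕ) + 2 = (j : ℕ) + 2 := hij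
        omega
      · intro k hk
        rw [Finset.coe_Ico, Set.mem_Ico] at hk
        refine ⟨⟨k - 2, by omega⟩, ?_, ?_⟩
        · rw [Finset.mem_coe, H310.lt2, Finset.mem_filter]
          refine ⟨Finset.mem_univ _, ?_⟩
          change 2 ≤ k - 2
          omega
        · change k - 2 + 2 = k
          omega
      · intro i _
        exact hex i
    rw [h2]
    exact hL

end Vale.Agent.P181.TW
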