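import Vale.Agent.P181.H921.WCurry
import Vale.Agent.P181.R2.H866.NTStep

/-!
P181, weighted tail slopes: the coefficients of a form along the last variables.
-/

set_option autoImplicit false

open MvPolynomial

namespace Vale.Agent.P181.TW

open Vale.Agent.P181 Vale.Agent.P181.H536 Vale.Agent.P181.H280 Vale.Agent.P181.TN

/-- Coefficients of a polynomial shifted in one variable. -/
lemma coeff_shift1 {n : ℕ} (i : Fin n) (ζ : ℂ) (p : MvPolynomial (Fin n) ℂ) (e : Fin n →₀ ℕ)
    (h : ∀ d : Fin n →₀ ℕ, e ≤ d → d ≠ e → coeff d p = 0) :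
    coeff e (aeval (fun k => (X k + C (if k = i then ζ else 0) : MvPolynomial (Fin n) ℂ)) p) =
      coeff e p := by
  classical
  have hmon : ∀ d : Fin n →₀ ℕ,
      (aeval (fun k => (X k + C (if k = i then ζ else 0) : MvPolynomial (Fin n) ℂ))
        (monomial d (coeff d p))) = ∑ j ∈ Finset.range (d i + 1),
          monomial (d.update i j) (coeff d p * (ζ ^ (d i - j) * ((d i).choose j : ℂ))) := by
    intro d
    rw [aeval_monomial, Finsupp.prod_fintype _ _ (fun _ => pow_zero _),
      ← Finset.mul_prod_erase Finset.univ _ (Finset.mem_univ i), if_pos rfl, add_pow]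
    have h1 : ∏ k ∈ Finset.univ.erase i,
        (X k + C (if k = i then ζ else 0) : MvPolynomial (Fin n) ℂ) ^ d k =
          ∏ k ∈ Finset.univ.erase i, X k ^ d k := by
      apply Finset.prod_congr rfl
      intro k hk
      rw [if_neg (Finset.ne_of_mem_erase hk), map_zero, add_zero]
    rw [h1, Finset.sum_mul, Finset.mul_sum]
    apply Finset.sum_congr rfl
    intro j _
    have h2 : (monomial (d.update i j) (coeff d p * (ζ ^ (d i - j) * ((d i).choose j : ℂ))) :
        MvPolynomial (Fin n) ℂ) = C (coeff d p * (ζ ^ (d i - j) * ((d i).choose j : ℂ))) *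
          (X i ^ j * ∏ k ∈ Finset.univ.erase i, X k ^ d k) := by
      rw [monomial_eq, Finsupp.prod_fintype _ _ (fun _ => pow_zero _),
        ← Finset.mul_prod_erase Finset.univ _ (Finset.mem_univ i)]
      congr 2
      · rw [Finsupp.update_apply, if_pos rfl]
      · apply Finset.prod_congr rfl
        intro k hk
        rw [Finsupp.update_apply, if_neg (Finset.ne_of_mem_erase hk)]
    rw [h2, C_mul, C_mul, map_pow, algebraMap_eq]
    have h3 : (C ((d i).choose j : ℂ) : MvPolynomial (Fin n) ℂ) =
        (((d i).choose j : ℕ) : MvPolynomial (Fin n) ℂ) := by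
      rw [map_natCast]
    rw [h3]
    ring
  have h0 : p = ∑ d ∈ p.support, monomial d (coeff d p) := (support_sum_monomial_coeff p).symm
  conv_lhs => rw [h0]
  rw [map_sum, coeff_sum]
  have hterm : ∀ d ∈ p.support, coeff e ((aeval (fun k =>
      (X k + C (if k = i then ζ else 0) : MvPolynomial (Fin n) ℂ)) (monomial d (coeff d p)))) =
        if d = e then coeff e p else 0 := by
    intro d hd
    rw [hmon, coeff_sum]
    have hz : ∀ j ∈ Finset.range (d i + 1), d.update i j = e → j = e i ∧ d = e := by
      intro j hj hje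
      have h1 : j = e i := by
        rw [← hje, Finsupp.update_apply, if_pos rfl]
      refine ⟨h1, ?_⟩
      by_contra hne
      apply mem_support_iff.1 hd
      apply h d _ hne
      intro k
      by_cases hk : k = i
      · subst hk
        have := Finset.mem_range.1 hj
        omega
      · rw [← hje, Finsupp.update_apply, if_neg hk]
    by_cases hde : d = e
    · subst hde
      rw [if_pos rfl, Finset.sum_eq_single (d i)]
      · rw [coeff_monomial, if_pos (by rw [Finsupp.update_self]), Nat.sub_self, pow_zero,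
          Nat.choose_self, Nat.cast_one, mul_one, mul_one]
      · intro j hj hne
        rw [coeff_monomial, if_neg]
        intro h2
        exact hne (hz j hj h2).1
      · intro h2
        exact absurd (Finset.mem_range.2 (Nat.lt_succ_self _)) h2
    · rw [if_neg hde]
      apply Finset.sum_eq_zero
      intro j hj
      rw [coeff_monomial, if_neg]
      intro h2
      exact hde (hz j hj h2).2
  rw [Finset.sum_congr rfl hterm, Finset.sum_ite_eq']
  split_ifs with h4
  · rfl
  · exact (notMem_support_iff.1 h4).symm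

variable {n : ℕ}

/-- The linear forms of the colours. -/
noncomputable def vv (x : ℂ) : Option (Fin n) → Sn n
  | none => ln n x
  | some i => X i.succ.succ

/-- The number of arguments of colour `i`. -/
def co {a : ℕ} (φ : Fin a → Option (Fin n)) (i : Fin n) : ℕ :=
  (Finset.univ.filter fun j => φ j = some i).card

/-- The coefficient of `c ^ e` in `F ((ξ + ∑ i, c i X (i + 2)) g)`, `ξ = X 0 + x X 1`. -/
noncomputable def DW (e : Fin n → ℕ) (x : ℂ) {a : ℕ} (F : Fm n a) (g : Fin a → Sn n) : ℂ :=
  ∑ φ ∈ (Finset.univ : Finset (Fin a → Option (Fin n))).filter (fun φ => co φ = e),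
    F (fun j => vv x (φ j) * g j)

lemma co_le {a : ℕ} (φ : Fin a → Option (Fin n)) (i : Fin n) : co φ i ≤ a := by
  refine (Finset.card_filter_le _ _).trans ?_
  rw [Finset.card_univ, Fintype.card_fin]

lemma sum_co_le {a : ℕ} (φ : Fin a → Option (Fin n)) : ∑ i, co φ i ≤ a := by
  classical
  have h1 : ∑ o : Option (Fin n), (Finset.univ.filter fun j => φ j = o).card = a := by
    rw [← Finset.card_eq_sum_card_fiberwise (fun _ _ => Finset.mem_univ _), Finset.card_univ,
      Fintype.card_fin]
  rw [Fintype.sum_option] at h1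
  unfold co
  omega

/-- The weights of the colours. -/
noncomputable def cc (c : Fin n → ℂ) : Option (Fin n) → ℂ
  | none => 1
  | some i => c i

lemma prod_cc {a : ℕ} (c : Fin n → ℂ) (φ : Fin a → Option (Fin n)) :
    ∏ j, cc c (φ j) = ∏ i, c i ^ co φ i := by
  classical
  rw [← Finset.prod_fiberwise_of_maps_to (g := φ) (t := (Finset.univ : Finset (Option (Fin n))))
    (fun _ _ => Finset.mem_univ _), Fintype.prod_option]
  have h1 : ∏ j ∈ Finset.univ.filter (fun j => φ j = none), cc c (φ j) = 1 := by
    apply Finset.prod_eq_one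
    intro j hj
    rw [(Finset.mem_filter.1 hj).2]
    rfl
  rw [h1, one_mul]
  apply Finset.prod_congr rfl
  intro i _
  rw [co, ← Finset.prod_const]
  apply Finset.prod_congr rfl
  intro j hj
  rw [(Finset.mem_filter.1 hj).2]
  rfl

lemma sum_vv (x : ℂ) (c : Fin n → ℂ) (g : Sn n) :
    (ln n x + ∑ i, c i • X i.succ.succ) * g = ∑ o, cc c o • (vv x o * g) := by
  rw [Fintype.sum_option, add_mul, Finset.sum_mul]
  congr 1
  · exact (one_smul ℂ _).symm
  · apply Finset.sum_congr rfl
    intro i _
    rw [smul_mul_assoc]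
    rfl

/-- All the exponents which occur. -/
def bx (n a : ℕ) : Finset (Fin n → ℕ) := Fintype.piFinset (fun _ => Finset.range (a + 1))

lemma co_mem_bx {a : ℕ} (φ : Fin a → Option (Fin n)) : co φ ∈ bx n a := by
  rw [bx, Fintype.mem_piFinset]
  intro i
  rw [Finset.mem_range]
  have := co_le φ i
  omega

/-- **Generating function.** -/
lemma genW (x : ℂ) {a : ℕ} (F : Fm n a) (g : Fin a → Sn n) (c : Fin n → ℂ) :
    F (fun j => (ln n x + ∑ i, c i • X i.succ.succ) * g j) =
      ∑ e ∈ bx n a, (∏ i, c i ^ e i) * DW e x F g := by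
  classical
  have h1 : (fun j => (ln n x + ∑ i, c i • X i.succ.succ) * g j) =
      fun j => ∑ o, cc c o • (vv x o * g j) := by
    funext j
    exact sum_vv x c (g j)
  rw [h1, MultilinearMap.map_sum]
  have h2 : ∀ φ : Fin a → Option (Fin n), F (fun j => cc c (φ j) • (vv x (φ j) * g j)) =
      (∏ i, c i ^ co φ i) * F (fun j => vv x (φ j) * g j) := by
    intro φ
    rw [MultilinearMap.map_smul_univ, prod_cc, smul_eq_mul]
  rw [Finset.sum_congr rfl (fun φ _ => h2 φ),
    ← Finset.sum_fiberwise_of_maps_to (g := fun φ : Fin a → Option (Fin n) => co φ) (t := bx n a)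
    (fun φ _ => co_mem_bx φ)]
  apply Finset.sum_congr rfl
  intro e _
  rw [DW, Finset.mul_sum]
  apply Finset.sum_congr rfl
  intro φ hφ
  rw [(Finset.mem_filter.1 hφ).2]

lemma DW_of_notMem {a : ℕ} {e : Fin n → ℕ} (he : e ∉ bx n a) (x : ℂ) (F : Fm n a)
    (g : Fin a → Sn n) : DW e x F g = 0 := by
  rw [DW, Finset.filter_eq_empty_iff.2, Finset.sum_empty]
  intro φ _ h
  exact he (h ▸ co_mem_bx φ)

lemma DW_of_lt {a : ℕ} {e : Fin n → ℕ} (he : a < ∑ i, e i) (x : ℂ) (F : Fm n a)
    (g : Fin a → Sn n) : DW e x F g = 0 := by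
  rw [DW, Finset.filter_eq_empty_iff.2, Finset.sum_empty]
  intro φ _ h
  have := sum_co_le φ
  rw [h] at this
  omega

/-- The polynomial of all the coefficients. -/
noncomputable def PW (x : ℂ) {a : ℕ} (F : Fm n a) (g : Fin a → Sn n) : MvPolynomial (Fin n) ℂ :=
  ∑ e ∈ bx n a, monomial (Finsupp.equivFunOnFinite.symm e) (DW e x F g)

lemma eval_PW (x : ℂ) {a : ℕ} (F : Fm n a) (g : Fin a → Sn n) (c : Fin n → ℂ) :
    eval c (PW x F g) = F (fun j => (ln n x + ∑ i, c i • X i.succ.succ) * g j) := by
  rw [genW, PW, map_sum]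
  apply Finset.sum_congr rfl
  intro e _
  rw [eval_monomial, Finsupp.prod_fintype _ _ (fun _ => pow_zero _), mul_comm]
  rfl

lemma coeff_PW (x : ℂ) {a : ℕ} (F : Fm n a) (g : Fin a → Sn n) (d : Fin n →₀ ℕ) :
    coeff d (PW x F g) = DW d x F g := by
  classical
  rw [PW, coeff_sum]
  have h1 : ∀ e ∈ bx n a, coeff d (monomial (Finsupp.equivFunOnFinite.symm e) (DW e x F g)) =
      if e = d then DW d x F g else 0 := by
    intro e _
    rw [coeff_monomial]
    by_cases h : e = d
    · subst h
      rw [if_pos rfl, if_pos]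
      ext i
      rfl
    · rw [if_neg h, if_neg]
      intro h2
      apply h
      rw [← h2]
      rfl
  rw [Finset.sum_congr rfl h1, Finset.sum_ite_eq']
  split_ifs with h
  · rfl
  · exact (DW_of_notMem h x F g).symm

end Vale.Agent.P181.TW
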