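import Vale.Agent.P181.Z.H582.NT

/-!
# P181, Z: the logarithmic sum over the letters with a cell in rows `≥ 3`
-/

set_option autoImplicit false

namespace Vale.Agent.P181.H921.Z

open Finset Vale.Agent.P181.Z.H582

section
variable {h : ℕ}

lemma le_dotp {x : Fin h → ℝ} (hx : ∀ i, 0 < x i) (v : Fin h → ℕ) (i : Fin h) :
    x i * v i ≤ dotp x v :=
  single_le_sum (f := fun i => x i * (v i : ℝ))
    (fun i _ => mul_nonneg (hx i).le (Nat.cast_nonneg _)) (mem_univ i)

lemma dotp_nonneg {x : Fin h → ℝ} (hx : ∀ i, 0 < x i) (v : Fin h → ℕ) : 0 ≤ dotp x v :=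
  sum_nonneg fun i _ => mul_nonneg (hx i).le (Nat.cast_nonneg _)

lemma exp_dotp (x : Fin h → ℝ) (v : Fin h → ℕ) :
    Real.exp (-dotp x v) = ∏ i, Real.exp (-(x i * v i)) := by
  unfold dotp
  rw [← Real.exp_sum, Finset.sum_neg_distrib]

lemma geom_le {y : ℝ} (hy : 0 < y) (K : ℕ) :
    ∑ p ∈ range (K + 1), Real.exp (-(y * p)) ≤ (1 - Real.exp (-y))⁻¹ := by
  have h1 : Real.exp (-y) < 1 := by
    rw [Real.exp_lt_one_iff]
    linarith
  have h2 : ∀ p ∈ range (K + 1), Real.exp (-(y * p)) = Real.exp (-y) ^ p := by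
    intro p _
    rw [← Real.exp_nat_mul]
    congr 1
    ring
  rw [sum_congr rfl h2, geom_sum_eq h1.ne]
  have h3 : 0 < 1 - Real.exp (-y) := by linarith
  have h4 : (Real.exp (-y) ^ (K + 1) - 1) / (Real.exp (-y) - 1) =
      (1 - Real.exp (-y) ^ (K + 1)) / (1 - Real.exp (-y)) := by
    rw [← neg_sub, ← neg_sub (1 : ℝ) (Real.exp (-y)), neg_div_neg_eq]
  rw [h4, div_eq_mul_inv]
  have h5 : 0 ≤ Real.exp (-y) ^ (K + 1) := by positivity
  calc (1 - Real.exp (-y) ^ (K + 1)) * (1 - Real.exp (-y))⁻¹ ≤ 1 * (1 - Real.exp (-y))⁻¹ :=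
        mul_le_mul_of_nonneg_right (by linarith) (inv_nonneg.2 h3.le)
    _ = _ := one_mul _

lemma harm_le {y : ℝ} (hy : 0 < y) (K : ℕ) :
    ∑ p ∈ range (K + 1), (if p = 0 then 0 else Real.exp (-(y * p)) / (y * p)) ≤
      (1 + Real.log K) / y := by
  have h1 : ∑ p ∈ range (K + 1), (if p = 0 then 0 else Real.exp (-(y * p)) / (y * p)) ≤
      (1 / y) * ∑ p ∈ Icc 1 K, ((p : ℝ))⁻¹ := by
    rw [mul_sum]
    have h2 : (range (K + 1)).filter (fun p => p ≠ 0) = Icc 1 K := by
      ext p
      simp only [mem_filter, mem_range, mem_Icc]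
      omega
    rw [← h2, sum_filter]
    refine sum_le_sum fun p _ => ?_
    by_cases hp : p = 0
    · simp [hp]
    · rw [if_neg hp, if_pos hp]
      have hp0 : (0 : ℝ) < p := by exact_mod_cast Nat.pos_of_ne_zero hp
      have h3 : Real.exp (-(y * p)) ≤ 1 := by
        rw [Real.exp_le_one_iff]
        have := mul_pos hy hp0
        linarith
      calc Real.exp (-(y * p)) / (y * p) ≤ 1 / (y * p) := by gcongr
        _ = 1 / y * (p : ℝ)⁻¹ := by
          rw [one_div, one_div, mul_inv]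
  have h4 : ∑ p ∈ Icc 1 K, ((p : ℝ))⁻¹ ≤ 1 + Real.log K := by
    have := harmonic_le_one_add_log K
    rw [harmonic_eq_sum_Icc] at this
    push_cast at this
    exact this
  calc _ ≤ (1 / y) * ∑ p ∈ Icc 1 K, ((p : ℝ))⁻¹ := h1
    _ ≤ (1 / y) * (1 + Real.log K) := mul_le_mul_of_nonneg_left h4 (by positivity)
    _ = _ := by ring

lemma inv_le_geom {y : ℝ} (hy : 0 < y) : 1 / y ≤ (1 - Real.exp (-y))⁻¹ := by
  rw [one_div]
  have h1 : Real.exp (-y) < 1 := by
    rw [Real.exp_lt_one_iff]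
    linarith
  have h2 := Real.add_one_le_exp (-y)
  gcongr
  linarith

/-- the factors, with half arguments. -/
lemma half_le {y : ℝ} (hy : 0 < y) :
    (1 - Real.exp (-y))⁻¹ ≤ (1 - Real.exp (-(y / 2)))⁻¹ := by
  have h1 : Real.exp (-(y / 2)) < 1 := by
    rw [Real.exp_lt_one_iff]
    linarith
  gcongr
  linarith

/-- one letter. -/
lemma letter_le {u σ : ℝ} (hu : 0 < u) (hσ : σ ≤ u / 2) :
    Real.exp (-u) / (1 - Real.exp σ * Real.exp (-u)) ≤
      Real.exp (-u) + 2 * (Real.exp (-u) / u) := by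
  have h1 : Real.exp σ * Real.exp (-u) ≤ Real.exp (-(u / 2)) := by
    rw [← Real.exp_add]
    exact Real.exp_le_exp.2 (by linarith)
  have h2 : 0 < 1 - Real.exp (-(u / 2)) := by
    have : Real.exp (-(u / 2)) < 1 := by
      rw [Real.exp_lt_one_iff]
      linarith
    linarith
  have h3 : (1 - Real.exp (-(u / 2)))⁻¹ ≤ 1 + 1 / (u / 2) := by
    have h4 : Real.exp (-(u / 2)) ≤ (1 + u / 2)⁻¹ := by
      rw [Real.exp_neg]
      have := Real.add_one_le_exp (u / 2)
      gcongr
      linarith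
    have h5 : (1 : ℝ) + u / 2 ≠ 0 := by positivity
    have h6 : 1 - (1 + u / 2)⁻¹ = (u / 2) / (1 + u / 2) := by
      field_simp
      ring
    have h7 : 0 < 1 - (1 + u / 2)⁻¹ := by
      rw [h6]
      positivity
    calc (1 - Real.exp (-(u / 2)))⁻¹ ≤ (1 - (1 + u / 2)⁻¹)⁻¹ := by gcongr
      _ = 1 + 1 / (u / 2) := by
        rw [h6]
        field_simp
        ring
  have h8 : (1 - Real.exp σ * Real.exp (-u))⁻¹ ≤ (1 - Real.exp (-(u / 2)))⁻¹ := by
    gcongr
  calc Real.exp (-u) / (1 - Real.exp σ * Real.exp (-u))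
      = Real.exp (-u) * (1 - Real.exp σ * Real.exp (-u))⁻¹ := div_eq_mul_inv _ _
    _ ≤ Real.exp (-u) * (1 + 1 / (u / 2)) :=
        mul_le_mul_of_nonneg_left (h8.trans h3) (Real.exp_pos _).le
    _ = _ := by
        field_simp

/-- the sum over all letters. -/
lemma sum_exp_le {a : ℕ} {x : Fin h → ℝ} (hx : ∀ i, 0 < x i) {L : Finset (Fin h → ℕ)}
    (hL : ∀ v ∈ L, ∀ i, v i ≤ a) :
    ∑ v ∈ L, Real.exp (-dotp x v) ≤ ∏ i, (1 - Real.exp (-(x i)))⁻¹ := by
  classical
  have hsub : L ⊆ Fintype.piFinset fun _ : Fin h => range (a + 1) := by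
    intro v hv
    rw [Fintype.mem_piFinset]
    intro i
    rw [mem_range]
    have := hL v hv i
    omega
  calc ∑ v ∈ L, Real.exp (-dotp x v)
      ≤ ∑ v ∈ Fintype.piFinset fun _ : Fin h => range (a + 1), Real.exp (-dotp x v) :=
        sum_le_sum_of_subset_of_nonneg hsub fun _ _ _ => (Real.exp_pos _).le
    _ = ∏ i : Fin h, ∑ p ∈ range (a + 1), Real.exp (-(x i * p)) := by
        rw [prod_univ_sum]
        exact sum_congr rfl fun v _ => exp_dotp x v
    _ ≤ _ := prod_le_prod (fun i _ => sum_nonneg fun _ _ => (Real.exp_pos _).le)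
        fun i _ => geom_le (hx i) a

/-- the logarithmic sum for one row. -/
lemma sum_log_le {a : ℕ} {x : Fin h → ℝ} (hx : ∀ i, 0 < x i) {L : Finset (Fin h → ℕ)}
    (hL : ∀ v ∈ L, ∀ i, v i ≤ a) (j : Fin h) :
    ∑ v ∈ L, (if v j = 0 then 0 else Real.exp (-dotp x v) / (x j * v j)) ≤
      (1 + Real.log a) * ∏ i, (1 - Real.exp (-(x i)))⁻¹ := by
  classical
  have hsub : L ⊆ Fintype.piFinset fun _ : Fin h => range (a + 1) := by
    intro v hv
    rw [Fintype.mem_piFinset]
    intro i
    rw [mem_range]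
    have := hL v hv i
    omega
  have hfac : ∀ v : Fin h → ℕ,
      (if v j = 0 then 0 else Real.exp (-dotp x v) / (x j * v j)) =
      ∏ i, (if i = j then (if v i = 0 then 0 else Real.exp (-(x i * v i)) / (x i * v i))
        else Real.exp (-(x i * v i))) := by
    intro v
    rw [← mul_prod_erase univ _ (mem_univ j), if_pos rfl]
    have h1 : ∏ i ∈ univ.erase j, (if i = j then
        (if v i = 0 then 0 else Real.exp (-(x i * v i)) / (x i * v i))
        else Real.exp (-(x i * v i))) = ∏ i ∈ univ.erase j, Real.exp (-(x i * v i)) :=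
      prod_congr rfl fun i hi => if_neg (mem_erase.1 hi).1
    rw [h1]
    split_ifs with h0
    · rw [zero_mul]
    · rw [exp_dotp, ← mul_prod_erase univ _ (mem_univ j)]
      ring
  have hnn : ∀ v : Fin h → ℕ,
      0 ≤ (if v j = 0 then 0 else Real.exp (-dotp x v) / (x j * v j)) := by
    intro v
    split_ifs
    · exact le_rfl
    · have := (hx j).le
      positivity
  have hlog : 0 ≤ 1 + Real.log a := by
    have := Real.log_natCast_nonneg a
    linarith
  have hone : ∀ i, 0 < (1 - Real.exp (-(x i)))⁻¹ := by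
    intro i
    have : Real.exp (-(x i)) < 1 := by
      rw [Real.exp_lt_one_iff]
      linarith [hx i]
    exact inv_pos.2 (by linarith)
  calc ∑ v ∈ L, (if v j = 0 then 0 else Real.exp (-dotp x v) / (x j * v j))
      ≤ ∑ v ∈ Fintype.piFinset fun _ : Fin h => range (a + 1),
          (if v j = 0 then 0 else Real.exp (-dotp x v) / (x j * v j)) :=
        sum_le_sum_of_subset_of_nonneg hsub fun v _ _ => hnn v
    _ = ∏ i : Fin h, ∑ p ∈ range (a + 1),
          (if i = j then (if p = 0 then 0 else Real.exp (-(x i * p)) / (x i * p))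
            else Real.exp (-(x i * p))) := by
        rw [prod_univ_sum]
        exact sum_congr rfl fun v _ => hfac v
    _ ≤ ∏ i : Fin h, ((if i = j then 1 + Real.log a else 1) * (1 - Real.exp (-(x i)))⁻¹) := by
        refine prod_le_prod (fun i _ => sum_nonneg fun p _ => ?_) fun i _ => ?_
        · split_ifs
          · exact le_rfl
          · have := (hx i).le
            positivity
          · exact (Real.exp_pos _).le
        · by_cases hij : i = j
          · simp only [if_pos hij]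
            refine (harm_le (hx i) a).trans ?_
            rw [div_eq_mul_one_div]
            exact mul_le_mul_of_nonneg_left (inv_le_geom (hx i)) hlog
          · simp only [if_neg hij]
            rw [one_mul]
            exact geom_le (hx i) a
    _ = _ := by
        rw [prod_mul_distrib, prod_ite_eq' univ j (fun _ => 1 + Real.log a)]
        simp

/-- **[S1]** -/
theorem s1 {a : ℕ} {x : Fin h → ℝ} (hx : ∀ i, 0 < x i) {L : Finset (Fin h → ℕ)}
    (hL : ∀ v ∈ L, ∀ i, v i ≤ a) (i1 : Fin h) {J : (Fin h → ℕ) → Prop} [DecidablePred J]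
    (hJ : ∀ v ∈ L, J v → ∃ j, x i1 ≤ x j ∧ v j ≠ 0) {σ : ℝ} (hσ : σ ≤ x i1 / 2) :
    ∑ v ∈ L.filter J, Real.exp (-dotp x v) / (1 - Real.exp σ * Real.exp (-dotp x v)) ≤
      (∏ i, (1 - Real.exp (-(x i / 2)))⁻¹) * (1 + 2 * h * (1 + Real.log a)) := by
  classical
  have hterm : ∀ v ∈ L.filter J,
      Real.exp (-dotp x v) / (1 - Real.exp σ * Real.exp (-dotp x v)) ≤
      Real.exp (-dotp x v) +
        2 * ∑ j, (if v j = 0 then 0 else Real.exp (-dotp x v) / (x j * v j)) := by
    intro v hv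
    rw [mem_filter] at hv
    obtain ⟨j, hj1, hj2⟩ := hJ v hv.1 hv.2
    have hvj : (1 : ℝ) ≤ v j := by exact_mod_cast Nat.one_le_iff_ne_zero.2 hj2
    have h1 := le_dotp hx v j
    have h2 : x j ≤ x j * v j := le_mul_of_one_le_right (hx j).le hvj
    have h3 : 0 < dotp x v := by
      have := hx j
      linarith
    have h4 : σ ≤ dotp x v / 2 := by linarith
    refine (letter_le h3 h4).trans ?_
    have h5 : Real.exp (-dotp x v) / dotp x v ≤
        ∑ j, (if v j = 0 then 0 else Real.exp (-dotp x v) / (x j * v j)) := by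
      calc Real.exp (-dotp x v) / dotp x v ≤ Real.exp (-dotp x v) / (x j * v j) := by
            have : 0 < x j * v j := by
              have := hx j
              linarith
            gcongr
        _ = (if v j = 0 then 0 else Real.exp (-dotp x v) / (x j * v j)) := by rw [if_neg hj2]
        _ ≤ _ := by
            refine single_le_sum (f := fun j =>
              (if v j = 0 then (0 : ℝ) else Real.exp (-dotp x v) / (x j * v j)))
              (fun i _ => ?_) (mem_univ j)
            split_ifs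
            · exact le_rfl
            · have := (hx i).le
              positivity
    linarith
  have hnn : ∀ v ∈ L, 0 ≤ Real.exp (-dotp x v) +
        2 * ∑ j, (if v j = 0 then 0 else Real.exp (-dotp x v) / (x j * v j)) := by
    intro v _
    have h1 : 0 ≤ ∑ j, (if v j = 0 then 0 else Real.exp (-dotp x v) / (x j * v j)) := by
      refine sum_nonneg fun i _ => ?_
      split_ifs
      · exact le_rfl
      · have := (hx i).le
        positivity
    have h2 := (Real.exp_pos (-dotp x v)).le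
    linarith
  have hP : ∏ i, (1 - Real.exp (-(x i)))⁻¹ ≤ ∏ i, (1 - Real.exp (-(x i / 2)))⁻¹ := by
    refine prod_le_prod (fun i _ => ?_) fun i _ => half_le (hx i)
    rw [inv_nonneg, sub_nonneg, Real.exp_le_one_iff]
    linarith [hx i]
  have hlog : 0 ≤ 1 + Real.log a := by
    have := Real.log_natCast_nonneg a
    linarith
  calc ∑ v ∈ L.filter J, Real.exp (-dotp x v) / (1 - Real.exp σ * Real.exp (-dotp x v))
      ≤ ∑ v ∈ L.filter J, (Real.exp (-dotp x v) +
        2 * ∑ j, (if v j = 0 then 0 else Real.exp (-dotp x v) / (x j * v j))) :=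
        sum_le_sum hterm
    _ ≤ ∑ v ∈ L, (Real.exp (-dotp x v) +
        2 * ∑ j, (if v j = 0 then 0 else Real.exp (-dotp x v) / (x j * v j))) :=
        sum_le_sum_of_subset_of_nonneg (filter_subset _ _) fun v hv _ => hnn v hv
    _ = ∑ v ∈ L, Real.exp (-dotp x v) +
        2 * ∑ j, ∑ v ∈ L, (if v j = 0 then 0 else Real.exp (-dotp x v) / (x j * v j)) := by
        rw [sum_add_distrib, ← mul_sum, sum_comm]
    _ ≤ ∏ i, (1 - Real.exp (-(x i)))⁻¹ +
        2 * ∑ _j : Fin h, (1 + Real.log a) * ∏ i, (1 - Real.exp (-(x i)))⁻¹ := by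
        have h1 := sum_exp_le hx hL
        have h2 := sum_le_sum (s := (univ : Finset (Fin h))) fun j _ => sum_log_le hx hL j
        linarith
    _ = (∏ i, (1 - Real.exp (-(x i)))⁻¹) * (1 + 2 * h * (1 + Real.log a)) := by
        rw [sum_const, card_univ, Fintype.card_fin, nsmul_eq_mul]
        ring
    _ ≤ _ := mul_le_mul_of_nonneg_right hP (by positivity)

lemma mul_mean_le {u : ℝ} (hu : 0 < u) :
    u * (Real.exp (-u) / (1 - Real.exp (-u))) ≤ Real.exp (-(u / 2)) := by
  have h1 : 0 < 1 - Real.exp (-u) := by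
    have : Real.exp (-u) < 1 := by
      rw [Real.exp_lt_one_iff]
      linarith
    linarith
  have h2 : u / 2 ≤ Real.sinh (u / 2) := Real.self_le_sinh_iff.2 (by linarith)
  rw [Real.sinh_eq] at h2
  have h3 : u ≤ Real.exp (u / 2) - Real.exp (-(u / 2)) := by linarith
  rw [← mul_div_assoc, div_le_iff₀ h1]
  have h4 : Real.exp (-u) = Real.exp (-(u / 2)) * Real.exp (-(u / 2)) := by
    rw [← Real.exp_add]
    congr 1
    ring
  have h5 : Real.exp (-(u / 2)) * Real.exp (u / 2) = 1 := by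
    rw [← Real.exp_add]
    simp
  have h6 := Real.exp_pos (-(u / 2))
  have h7 : u * (Real.exp (-(u / 2)) * Real.exp (-(u / 2))) ≤
      (Real.exp (u / 2) - Real.exp (-(u / 2))) * (Real.exp (-(u / 2)) * Real.exp (-(u / 2))) :=
    mul_le_mul_of_nonneg_right h3 (by positivity)
  have h8 : (Real.exp (u / 2) - Real.exp (-(u / 2))) *
      (Real.exp (-(u / 2)) * Real.exp (-(u / 2))) =
      (Real.exp (-(u / 2)) * Real.exp (u / 2)) * Real.exp (-(u / 2)) -
        Real.exp (-(u / 2)) * (Real.exp (-(u / 2)) * Real.exp (-(u / 2))) := by ring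
  rw [h8, h5, one_mul] at h7
  rw [h4]
  linarith

/-- **[XE]** -/
theorem xe {x : Fin h → ℝ} (hx : ∀ i, 0 < x i) {L : Finset (Fin h → ℕ)}
    (hL : ∀ v ∈ L, v ≠ 0) (i : Fin h) :
    x i * ∑ v ∈ L, (v i : ℝ) * (Real.exp (-dotp x v) / (1 - Real.exp (-dotp x v))) ≤
      ∑ v ∈ L, Real.exp (-(dotp x v / 2)) := by
  rw [mul_sum]
  refine sum_le_sum fun v hv => ?_
  obtain ⟨j, hj⟩ : ∃ j, v j ≠ 0 := by
    by_contra h1
    refine hL v hv (funext fun j => ?_)
    by_contra h2
    exact h1 ⟨j, h2⟩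
  have hvj : (1 : ℝ) ≤ v j := by exact_mod_cast Nat.one_le_iff_ne_zero.2 hj
  have h1 := le_dotp hx v j
  have h2 : x j ≤ x j * v j := le_mul_of_one_le_right (hx j).le hvj
  have h3 : 0 < dotp x v := by
    have := hx j
    linarith
  have h4 := le_dotp hx v i
  have h5 : 0 < 1 - Real.exp (-dotp x v) := by
    have : Real.exp (-dotp x v) < 1 := by
      rw [Real.exp_lt_one_iff]
      linarith
    linarith
  calc x i * ((v i : ℝ) * (Real.exp (-dotp x v) / (1 - Real.exp (-dotp x v))))
      = x i * v i * (Real.exp (-dotp x v) / (1 - Real.exp (-dotp x v))) := by ring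
    _ ≤ dotp x v * (Real.exp (-dotp x v) / (1 - Real.exp (-dotp x v))) :=
        mul_le_mul_of_nonneg_right h4 (div_nonneg (Real.exp_pos _).le h5.le)
    _ ≤ _ := mul_mean_le h3

/-- the half sum is at most the product. -/
theorem sum_half_le {a : ℕ} {x : Fin h → ℝ} (hx : ∀ i, 0 < x i) {L : Finset (Fin h → ℕ)}
    (hL : ∀ v ∈ L, ∀ i, v i ≤ a) :
    ∑ v ∈ L, Real.exp (-(dotp x v / 2)) ≤ ∏ i, (1 - Real.exp (-(x i / 2)))⁻¹ := by
  have h1 := sum_exp_le (x := fun i => x i / 2) (fun i => by have := hx i; positivity) hL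
  refine le_trans (le_of_eq ?_) h1
  refine sum_congr rfl fun v _ => ?_
  congr 2
  unfold dotp
  rw [sum_div]
  exact sum_congr rfl fun i _ => by ring

end

end Vale.Agent.P181.H921.Z
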